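import Vale.Agent.P146.H379.RowH
import Vale.Agent.P146.H93.NL
import Vale.Agent.P146.H607.LSideA
import Vale.Agent.P146.H295.Cub

/-!
# P146: the row of the SK system in numbers (helper877)

Two-sided row at any level `l` of `skS n K m b w` with all the errors explicit, the bracket
replaced by the squares of the overlaps, and the cubic bound of the higher chaoses.
-/

open MeasureTheory ProbabilityTheory

namespace Vale.Agent.P146.H877x

open Vale.Agent.P157 Vale.Agent.P157.Lv Vale.Agent.P157.Lv.Sy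
open Vale.Agent.P157.Lv.Fld (uu nh_uu)
open Vale.Agent.P146.H425 Vale.Agent.P146.H325 Vale.Agent.P146.H985
open Vale.Agent.P146.H93 (Cd st am aSK skS Em linS_sk)
open Vale.Agent.P146.H379.Row Vale.Agent.P146.H946
open Vale.Agent.P146.H295 (FldP Th q2 spn zs)
open Vale.Agent.P146.H498.Row (tau E4)

set_option linter.unusedSectionVars false

section gen

variable {ι X : Type} [Fintype ι] [DecidableEq ι] [Fintype X] [DecidableEq X] [Nonempty X]
  {S : Sy ι X} {D : ι → (ι → ℝ) → X → ℝ} {N : ℕ}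
  {φ : X → Fin N → ℝ} {zc : ℕ → Fin N → ι} {s : ℕ → ℝ} {P : ℕ → Prop}

/-- three replicas as a square -/
lemma tau_sq (hS : S.Reg) {k l : ℕ} (hk : k ≤ S.K) (hl : l ≤ S.K) :
    tau S φ k l = 1 / (N : ℝ) ^ 2 * S.Ex (fun z _ => ∑ x, S.pr k z x *
      (∑ a, φ x a * S.mg φ l a z) ^ 2) := by
  have em : ∀ a, EG (S.mg φ l a) := fun a => hS.eg_T hl (Nh.snd fun x => φ x a)
  have e2 : ∀ a b, EG (S.T k (fun _ x => φ x a * φ x b)) := fun a b =>
    hS.eg_T hk (Nh.snd fun x => φ x a * φ x b)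
  have n1 : ∀ a b, EG fun z => S.mg φ l a z * S.mg φ l b z *
      S.T k (fun _ x => φ x a * φ x b) z := fun a b => ((em a).mul (em b)).mul (e2 a b)
  unfold tau E4
  congr 1
  have h1 : ∀ a, ∑ b, S.Ex (fun z _ => S.mg φ l a z * S.mg φ l b z *
      S.T k (fun _ x => φ x a * φ x b) z) = S.Ex (fun z _ => ∑ b, S.mg φ l a z * S.mg φ l b z *
      S.T k (fun _ x => φ x a * φ x b) z) := fun a =>
    (hS.Ex_sum _ fun b _ => Nh.fst (n1 a b)).symm
  simp only [h1]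
  rw [← hS.Ex_sum _ fun a _ => Nh.fst (EG.sum _ fun b _ => n1 a b)]
  congr 1
  funext z _
  have e3 : ∀ a b, S.T k (fun _ x => φ x a * φ x b) z = ∑ x, S.pr k z x * (φ x a * φ x b) :=
    fun a b => hS.T_pr hk (fun x => φ x a * φ x b) z
  simp only [e3, Finset.mul_sum]
  have e4 : ∀ F : Fin N → Fin N → X → ℝ, ∑ a, ∑ b, ∑ x, F a b x = ∑ x, ∑ a, ∑ b, F a b x := by
    intro F
    calc ∑ a, ∑ b, ∑ x, F a b x = ∑ a, ∑ x, ∑ b, F a b x :=
          Finset.sum_congr rfl fun a _ => Finset.sum_comm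
      _ = _ := Finset.sum_comm
  rw [e4]
  refine Finset.sum_congr rfl fun x _ => ?_
  rw [sq, Finset.sum_mul_sum, Finset.mul_sum]
  refine Finset.sum_congr rfl fun a _ => ?_
  rw [Finset.mul_sum]
  refine Finset.sum_congr rfl fun b _ => ?_
  ring

/-- lower bound of the three replica average -/
lemma tau_ge (F : FldP S D φ zc s P) {k l : ℕ} (hkl : k ≤ l) (hl : l ≤ S.K) :
    S.Rl φ k ^ 2 ≤ tau S φ k l := by
  have hS := F.hreg
  have hN := F.N_pos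
  have hk := hkl.trans hl
  have em : ∀ j ≤ S.K, ∀ a, EG (S.mg φ j a) := fun j hj a => hS.eg_T hj (Nh.snd fun x => φ x a)
  have ef : ∀ j ≤ S.K, ∀ x, EG fun z => ∑ a, φ x a * S.mg φ j a z := fun j hj x =>
    EG.sum _ fun a _ => (em j hj a).const_mul _
  -- monotonicity
  have h1 : tau S φ k k ≤ tau S φ k l := by
    rw [tau_sq hS hk hk, tau_sq hS hk hl]
    refine mul_le_mul_of_nonneg_left ?_ (by positivity)
    rw [hS.Ex_sum _ fun x _ => Nh.fst ((hS.eg_pr hk x).mul ((ef k hk x).pow 2)),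
      hS.Ex_sum _ fun x _ => Nh.fst ((hS.eg_pr hk x).mul ((ef l hl x).pow 2))]
    refine Finset.sum_le_sum fun x _ => ?_
    have e1 : ∀ z, ∑ a, φ x a * S.mg φ k a z =
        S.T k (fun z _ => ∑ a, φ x a * S.mg φ l a z) z := by
      intro z
      rw [hS.T_sum hk _ fun a _ => Nh.fst ((em l hl a).const_mul _)]
      refine Finset.sum_congr rfl fun a _ => ?_
      rw [Sy.T_const_mul]
      congr 1
      exact (hS.T_T hkl hl (Nh.snd fun x => φ x a) z).symm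
    have h2 := hS.Ex_mul_T hk (S.dep_T k (fun _ y => if y = x then (1 : ℝ) else 0))
      (hS.eg_pr hk x) (Nh.fst (X := X) ((ef l hl x).pow 2))
    have h3 : S.Ex (fun z _ => S.pr k z x * (∑ a, φ x a * S.mg φ k a z) ^ 2) ≤
        S.Ex (fun z _ => S.pr k z x * S.T k (fun z _ => (∑ a, φ x a * S.mg φ l a z) ^ 2) z) := by
      refine hS.Ex_mono (Nh.fst ((hS.eg_pr hk x).mul ((ef k hk x).pow 2)))
        (Nh.fst ((hS.eg_pr hk x).mul (hS.eg_T hk (Nh.fst ((ef l hl x).pow 2))))) fun z _ => ?_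
      refine mul_le_mul_of_nonneg_left ?_ (hS.pr_nonneg hk z x)
      rw [e1 z]
      exact hS.sq_T_le hk (Nh.fst (ef l hl x)) z
    refine h3.trans (le_of_eq ?_)
    exact h2
  refine le_trans ?_ h1
  rw [H498.Row.tau_eq hS le_rfl hk]
  have h2 := H295.Cv_nonneg F (nh_uu (φ := φ) hS hk)
  unfold H295.Cv at h2
  rw [F.Ex_uu hk] at h2
  nlinarith

end gen

/-! ### The bracket -/

section brk

variable {n K : ℕ} {m b w : ℕ → ℝ} {l : ℕ}

lemma tj_tau (S : Sy (Cd n K) (Fin n → ℤˣ)) (l j : ℕ) :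
    tj S l j = tau S (spn n) j l := rfl

/-- the lower levels, from below -/
noncomputable def Gm (n K : ℕ) (m b w : ℕ → ℝ) (l : ℕ) : ℝ :=
  ∑ j ∈ Finset.Ico 1 l, (m (j + 1) - m j) * bt2 n b j * (skS n K m b w).Rl H325.sp j ^ 2

/-- the lower levels, from above -/
noncomputable def Gp (n K : ℕ) (m b w : ℕ → ℝ) (l : ℕ) : ℝ :=
  ∑ j ∈ Finset.Ico 1 l, (m (j + 1) - m j) * bt2 n b j * Tt (skS n K m b w) j

lemma bt2_nonneg (n : ℕ) (b : ℕ → ℝ) (l : ℕ) : 0 ≤ bt2 n b l :=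
  Finset.sum_nonneg fun q _ => by positivity

lemma Em.step (hm : Em K m) {j : ℕ} (hj : j ≤ K) : 0 ≤ m (j + 1) - m j :=
  sub_nonneg.2 (hm.mono j hj)

lemma Em.two (hm : Em K m) {l : ℕ} (hl : l ≤ K) : 0 ≤ 2 * m (l + 1) - m l := by
  have h1 := hm.mono l hl
  have h2 : 0 ≤ m (l + 1) := m_nonneg (linS_sk (n := 1) hm (fun _ => 0) (fun _ => 0)).reg
    (l := l + 1) (by show l + 1 ≤ K + 1; omega)
  linarith

theorem Br_ge (hm : Em K m) (hn : 0 < n) (hK : 0 < K) (hl : l ≤ K) :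
    (2 * m (l + 1) - m l) * bt2 n b l * (skS n K m b w).Rl H325.sp l ^ 2 + Gm n K m b w l ≤
      Br n K m b w l := by
  have F := H295.fldP_sk hn hK hm b w (P := fun _ => False) (fun _ h => h.elim)
  unfold Br Gm
  refine add_le_add ?_ (Finset.sum_le_sum fun j hj => ?_)
  · refine mul_le_mul_of_nonneg_left ?_ (mul_nonneg (Em.two hm hl) (bt2_nonneg n b l))
    exact tau_ge F le_rfl hl
  · rw [Finset.mem_Ico] at hj
    refine mul_le_mul_of_nonneg_left ?_ (mul_nonneg (Em.step hm (by omega)) (bt2_nonneg n b j))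
    exact tau_ge F (by omega) hl

theorem Br_le (hm : Em K m) (hn : 0 < n) (hK : 0 < K) (hl : l ≤ K) {V : ℝ}
    (hV : (skS n K m b w).pairEx l (fun x x' => (Rov H325.sp x x' -
      (skS n K m b w).Rl H325.sp l) ^ 2) ≤ V) :
    Br n K m b w l ≤ (2 * m (l + 1) - m l) * bt2 n b l *
      ((skS n K m b w).Rl H325.sp l ^ 2 + V) + Gp n K m b w l := by
  have F := H295.fldP_sk hn hK hm b w (P := fun _ => False) (fun _ h => h.elim)
  unfold Br Gp
  refine add_le_add ?_ (Finset.sum_le_sum fun j hj => ?_)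
  · refine mul_le_mul_of_nonneg_left ?_ (mul_nonneg (Em.two hm hl) (bt2_nonneg n b l))
    have h1 := H607.Cv_le_pair F hl
    have h2 := H498.Row.tau_eq (S := skS n K m b w) (φ := spn n) (linS_sk hm b w).reg
      (le_refl l) hl
    unfold H295.Cv at h1
    rw [F.Ex_uu hl] at h1
    rw [tj_tau, h2]
    have h3 : (skS n K m b w).pairEx l (fun x x' => (Rov (spn n) x x' -
      (skS n K m b w).Rl (spn n) l) ^ 2) ≤ V := hV
    have h4 : (skS n K m b w).Rl (spn n) l = (skS n K m b w).Rl H325.sp l := rfl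
    rw [h4] at h1 h3
    nlinarith
  · rw [Finset.mem_Ico] at hj
    refine mul_le_mul_of_nonneg_left ?_ (mul_nonneg (Em.step hm (by omega)) (bt2_nonneg n b j))
    have h1 := H607.tau_le F (k := j) (l := l) (by omega) hl
    have h2 : Tt (skS n K m b w) j = Th (skS n K m b w) (spn n) j :=
      Tt_eq hm hn (by omega)
    rw [h2]
    exact h1

end brk

/-! ### Numbers -/

section num

variable {n K : ℕ} {m b w : ℕ → ℝ} {l : ℕ}

/-- the a priori numbers of a level -/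
structure Hz (n K : ℕ) (m b w : ℕ → ℝ) (l : ℕ) (θ D κ B0 : ℝ) : Prop where
  θ0 : 0 < θ
  θ1 : θ ≤ 1
  D0 : 0 < D
  Dθ : D ≤ θ
  mθ : m (l + 1) ≤ θ
  κw : SB w l ≤ κ
  B1 : 1 ≤ B0
  bB : bt2 n b l ≤ B0
  sm : 4 * θ ^ 2 * (B0 + κ) ≤ 1 / 4
  h4 : (skS n K m b w).pairEx l (fun x y => Rov H325.sp x y ^ 4) ≤ θ ^ 4
  h2 : (skS n K m b w).pairEx l (fun x y => (Rov H325.sp x y - (skS n K m b w).Rl H325.sp l) ^ 2) ≤ D ^ 2

variable {θ D κ B0 : ℝ}

lemma Hz.κ0 (H : Hz n K m b w l θ D κ B0) : 0 ≤ κ := (SB_nonneg w l).trans H.κw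

/-- moments of the overlap -/
lemma Hz.mom (hm : Em K m) (hn : 0 < n) (hK : 0 < K) (hl : l ≤ K)
    (H : Hz n K m b w l θ D κ B0) :
    0 ≤ (skS n K m b w).Rl H325.sp l ∧ (skS n K m b w).Rl H325.sp l ≤ θ ∧
    (skS n K m b w).pairEx l (fun x y => Rov H325.sp x y ^ 2) ≤ θ ^ 2 ∧
    (skS n K m b w).pairEx l (fun x y => |Rov H325.sp x y|) ≤ θ ∧
    (skS n K m b w).pairEx l (fun x y => |Rov H325.sp x y| ^ 3) ≤
      (skS n K m b w).Rl H325.sp l ^ 3 + 3 * (D * θ ^ 2) := by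
  have hS : (skS n K m b w).Reg := (linS_sk hm b w).reg
  have F := H295.fldP_sk hn hK hm b w (P := fun _ => False) (fun _ h => h.elim)
  have hlK : l ≤ (skS n K m b w).K := hl
  have h4 := H.h4
  have h2 := H.h2
  have θ0 := H.θ0
  set S := skS n K m b w with hSd
  set ρ := S.Rl H325.sp l with hρ
  have hρ0 : 0 ≤ ρ := F.Rl_nonneg hlK
  have e4 : (fun x y : Fin n → ℤˣ => (Rov H325.sp x y ^ 2) ^ 2) = fun x y => Rov H325.sp x y ^ 4 := by
    funext x y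
    ring
  have q2 : S.pairEx l (fun x y => Rov H325.sp x y ^ 2) ≤ θ ^ 2 := by
    have h := H295.pair_sq_le hS hlK (fun x y : Fin n → ℤˣ => Rov H325.sp x y ^ 2)
    rw [e4] at h
    have h0 : 0 ≤ S.pairEx l (fun x y => Rov H325.sp x y ^ 2) :=
      hS.pairEx_nonneg hlK fun x y => sq_nonneg _
    have h5 : S.pairEx l (fun x y => Rov H325.sp x y ^ 2) ^ 2 ≤ (θ ^ 2) ^ 2 := by
      calc _ ≤ θ ^ 4 := h.trans h4
        _ = _ := by ring
    exact le_of_sq_le_sq h5 (by positivity)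
  have q1 : S.pairEx l (fun x y => |Rov H325.sp x y|) ≤ θ := by
    have h := H295.pair_sq_le hS hlK (fun x y : Fin n → ℤˣ => |Rov H325.sp x y|)
    simp only [sq_abs] at h
    exact le_of_sq_le_sq (h.trans q2) θ0.le
  have q0 : ρ ≤ θ := by
    have h : ρ = S.pairEx l (Rov H325.sp) := F.Rl_eq_pairEx hlK
    rw [h]
    refine le_trans (hS.pairEx_mono hlK fun x y => le_abs_self _) q1
  refine ⟨hρ0, q0, q2, q1, ?_⟩
  have hc := H295.cub F hlK
  have h6 : S.pairEx l (fun x y => |Rov H325.sp x y| ^ 3) ≤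
      S.pairEx l (fun x y => |Rov (spn n) x y ^ 3 - S.Rl (spn n) l ^ 3| + ρ ^ 3) := by
    refine hS.pairEx_mono hlK fun x y => ?_
    have e : |Rov H325.sp x y| ^ 3 ≤ |Rov H325.sp x y ^ 3 - ρ ^ 3| + |ρ ^ 3| := by
      rw [← abs_pow]
      have h := abs_add_le (Rov H325.sp x y ^ 3 - ρ ^ 3) (ρ ^ 3)
      rwa [sub_add_cancel] at h
    refine e.trans (add_le_add le_rfl (le_of_eq ?_))
    exact abs_of_nonneg (pow_nonneg hρ0 3)
  rw [hS.pairEx_add hlK (fun x y => |Rov (spn n) x y ^ 3 - S.Rl (spn n) l ^ 3|) (fun _ _ => ρ ^ 3),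
    hS.pairEx_const hlK] at h6
  have h7 : √(S.pairEx l (fun x x' => (Rov (spn n) x x' - S.Rl (spn n) l) ^ 2)) ≤ D :=
    (Real.sqrt_le_sqrt h2).trans (le_of_eq (Real.sqrt_sq H.D0.le))
  have h8 : √(S.pairEx l (fun x x' => Rov (spn n) x x' ^ 4)) ≤ θ ^ 2 := by
    refine (Real.sqrt_le_sqrt h4).trans (le_of_eq ?_)
    rw [show θ ^ 4 = (θ ^ 2) ^ 2 by ring]
    exact Real.sqrt_sq (by positivity)
  have h9 := mul_le_mul h7 h8 (Real.sqrt_nonneg _) H.D0.le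
  linarith

lemma KV_one : (1 : ℝ) ≤ KV ^ 2 := by
  unfold KV
  norm_num

lemma bt2_SB (n : ℕ) (b : ℕ → ℝ) (l : ℕ) : n * SB b l = bt2 n b l := (bt2_eq n b l).symm

lemma Hz.ml (hm : Em K m) (hl : l ≤ K) (H : Hz n K m b w l θ D κ B0) :
    0 ≤ m l ∧ m l ^ 2 ≤ θ ^ 2 ∧ 0 ≤ m (l + 1) ∧ m (l + 1) ^ 2 ≤ θ ^ 2 := by
  have hS : (skS n K m b w).Reg := (linS_sk hm b w).reg
  have h1 : 0 ≤ m l := m_nonneg hS (l := l) (by show l ≤ K + 1; omega)
  have h2 : 0 ≤ m (l + 1) := m_nonneg hS (l := l + 1) (by show l + 1 ≤ K + 1; omega)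
  have h3 := hm.mono l hl
  exact ⟨h1, pow_le_pow_left₀ h1 (h3.trans H.mθ) 2, h2, pow_le_pow_left₀ h2 H.mθ 2⟩

/-- the own influence in numbers -/
lemma Hz.Ow (hm : Em K m) (hn : 0 < n) (hK : 0 < K) (hl : l ≤ K)
    (H : Hz n K m b w l θ D κ B0) :
    OwS (skS n K m b w) l ≤ KV ^ 2 * (18 * B0 ^ 2) *
      ((skS n K m b w).Rl H325.sp l ^ 3 + D * θ ^ 2 + θ ^ 4 + κ * θ) := by
  obtain ⟨r0, r1, q2, q1, q3⟩ := H.mom hm hn hK hl
  obtain ⟨ml0, ml1, ml2, ml3⟩ := H.ml hm hl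
  have θ0 := H.θ0
  have θ1 := H.θ1
  have κ0 := H.κ0
  have D0 := H.D0
  have B1 := H.B1
  have hB := H.bB
  have hBn := bt2_nonneg n b l
  have hW := H.κw
  have hWn := SB_nonneg w l
  have hsm : 4 * m l ^ 2 * (n * SB b l + SB w l) ≤ 1 / 4 := by
    rw [bt2_SB]
    refine le_trans ?_ H.sm
    exact mul_le_mul (by linarith) (by linarith) (by linarith) (by positivity)
  refine (OwS_le hm b w hl hsm).trans ?_
  rw [bt2_SB]
  set ρ := (skS n K m b w).Rl H325.sp l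
  have E2n : 0 ≤ (skS n K m b w).pairEx l (fun x y => Rov H325.sp x y ^ 2) :=
    (linS_sk hm b w).reg.pairEx_nonneg hl fun x y => sq_nonneg _
  have E1n : 0 ≤ (skS n K m b w).pairEx l (fun x y => |Rov H325.sp x y|) :=
    (linS_sk hm b w).reg.pairEx_nonneg hl fun x y => abs_nonneg _
  have E3n : 0 ≤ (skS n K m b w).pairEx l (fun x y => |Rov H325.sp x y| ^ 3) :=
    (linS_sk hm b w).reg.pairEx_nonneg hl fun x y => by positivity
  set B := bt2 n b l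
  set W := SB w l
  rw [mul_assoc (KV ^ 2) (18 * B0 ^ 2)]
  refine mul_le_mul_of_nonneg_left ?_ (sq_nonneg _)
  show 6 * (B * (B * (skS n K m b w).pairEx l (fun x y => |Rov H325.sp x y| ^ 3) +
      W * (skS n K m b w).pairEx l (fun x y => Rov H325.sp x y ^ 2))) +
      2 * W * (skS n K m b w).pairEx l (fun x y => |Rov H325.sp x y|) +
      2 * m l ^ 2 * (B * (skS n K m b w).pairEx l (fun x y => Rov H325.sp x y ^ 2) +
      W * (skS n K m b w).pairEx l (fun x y => |Rov H325.sp x y|)) ≤ _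
  set E3 := (skS n K m b w).pairEx l (fun x y => |Rov H325.sp x y| ^ 3)
  set E2 := (skS n K m b w).pairEx l (fun x y => Rov H325.sp x y ^ 2)
  set E1 := (skS n K m b w).pairEx l (fun x y => |Rov H325.sp x y|)
  have B0n : 0 ≤ B0 := by linarith
  have hD3 : 0 ≤ D * θ ^ 2 := by positivity
  have hρ3 : 0 ≤ ρ ^ 3 := by positivity
  have hBB : B0 ≤ B0 ^ 2 := by nlinarith
  have h1B : 1 ≤ B0 ^ 2 := by nlinarith
  have s1 : B * (B * E3) ≤ B0 ^ 2 * (ρ ^ 3 + 3 * (D * θ ^ 2)) := by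
    calc B * (B * E3) ≤ B0 * (B0 * (ρ ^ 3 + 3 * (D * θ ^ 2))) :=
          mul_le_mul hB (mul_le_mul hB q3 E3n B0n) (by positivity) B0n
      _ = _ := by ring
  have s2 : B * (W * E2) ≤ B0 ^ 2 * (κ * θ) := by
    calc B * (W * E2) ≤ B0 * (κ * θ ^ 2) :=
          mul_le_mul hB (mul_le_mul hW q2 E2n κ0) (by positivity) B0n
      _ ≤ B0 ^ 2 * (κ * θ) := by
          refine mul_le_mul hBB (mul_le_mul_of_nonneg_left ?_ κ0) (by positivity) (by positivity)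
          nlinarith
  have s3 : W * E1 ≤ B0 ^ 2 * (κ * θ) := by
    calc W * E1 ≤ κ * θ := mul_le_mul hW q1 E1n κ0
      _ = 1 * (κ * θ) := (one_mul _).symm
      _ ≤ _ := mul_le_mul_of_nonneg_right h1B (by positivity)
  have s4 : m l ^ 2 * (B * E2) ≤ B0 ^ 2 * θ ^ 4 := by
    calc m l ^ 2 * (B * E2) ≤ θ ^ 2 * (B0 * θ ^ 2) :=
          mul_le_mul ml1 (mul_le_mul hB q2 E2n B0n) (by positivity) (by positivity)
      _ = B0 * θ ^ 4 := by ring
      _ ≤ _ := mul_le_mul_of_nonneg_right hBB (by positivity)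
  have s5 : m l ^ 2 * (W * E1) ≤ B0 ^ 2 * (κ * θ) := by
    have h : m l ^ 2 ≤ 1 := ml1.trans (by nlinarith)
    calc m l ^ 2 * (W * E1) ≤ 1 * (W * E1) := mul_le_mul_of_nonneg_right h (by positivity)
      _ = W * E1 := one_mul _
      _ ≤ _ := s3
  have hκθ : 0 ≤ B0 ^ 2 * (κ * θ) := by positivity
  have hθ4 : 0 ≤ B0 ^ 2 * θ ^ 4 := by positivity
  have hr4 : 0 ≤ B0 ^ 2 * ρ ^ 3 := by positivity
  nlinarith

lemma cr_num {B B0 κ W K2 X Y p q : ℝ} (hB : B ≤ B0) (hB0 : 0 ≤ B) (hW : W ≤ κ) (hW0 : 0 ≤ W)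
    (hX0 : 0 ≤ X) (hX : X ≤ K2 * (38 * p)) (hY0 : 0 ≤ Y) (hY : Y ≤ K2 * (10 * q)) (B1 : 1 ≤ B0)
    (K0 : 0 ≤ K2) (hp : 0 ≤ p) (hq : 0 ≤ q) :
    B * X + W * Y ≤ K2 * (38 * B0) * (p + κ * q) := by
  have hκ : 0 ≤ κ := hW0.trans hW
  have h1 : B * X ≤ B0 * (K2 * (38 * p)) := mul_le_mul hB hX hX0 (by linarith)
  have h2 : W * Y ≤ κ * (K2 * (10 * q)) := mul_le_mul hW hY hY0 hκ
  have h3 : κ * (K2 * (10 * q)) ≤ K2 * (38 * B0) * (κ * q) := by
    have h0 : 0 ≤ K2 * (κ * q) := by positivity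
    have h4 : κ * (K2 * (10 * q)) = 10 * (K2 * (κ * q)) := by ring
    have h5 : K2 * (38 * B0) * (κ * q) = (38 * B0) * (K2 * (κ * q)) := by ring
    rw [h4, h5]
    exact mul_le_mul_of_nonneg_right (by linarith) h0
  calc B * X + W * Y ≤ B0 * (K2 * (38 * p)) + K2 * (38 * B0) * (κ * q) := by linarith
    _ = _ := by ring

/-- the cross influence in numbers -/
lemma Hz.Cr (hm : Em K m) (hn : 0 < n) (hK : 0 < K) (hl : l ≤ K)
    (H : Hz n K m b w l θ D κ B0) :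
    CrS (skS n K m b w) l ≤ KV ^ 2 * (38 * B0) * (D * θ ^ 2 + θ ^ 4 + κ * θ ^ 2) := by
  obtain ⟨r0, r1, q2, q1, q3⟩ := H.mom hm hn hK hl
  obtain ⟨ml0, ml1, ml2, ml3⟩ := H.ml hm hl
  have θ0 := H.θ0
  have θ1 := H.θ1
  have κ0 := H.κ0
  have D0 := H.D0
  have B1 := H.B1
  have hB := H.bB
  have hBn := bt2_nonneg n b l
  have hW := H.κw
  have hWn := SB_nonneg w l
  have hS : (skS n K m b w).Reg := (linS_sk hm b w).reg
  have h1 := CrS_le hm b w hn hl (μ := D / θ ^ 2) (by positivity) ((skS n K m b w).Rl H325.sp l)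
  refine h1.trans ?_
  rw [bt2_SB]
  have h4 := H.h4
  have h2 := H.h2
  set ρ := (skS n K m b w).Rl H325.sp l
  have hR1 : (skS n K m b w).pairEx l (Rs n) ≤ θ := by
    refine le_trans (hS.pairEx_mono hl fun x y => ?_) q1
    exact le_abs_self _
  have hR1n : 0 ≤ (skS n K m b w).pairEx l (Rs n) := pairEx_R_nonneg hS hl
  have E2n : 0 ≤ (skS n K m b w).pairEx l (fun x y => Rov H325.sp x y ^ 2) :=
    hS.pairEx_nonneg hl fun x y => sq_nonneg _
  show bt2 n b l * (2 * KV ^ 2 * (2 / (D / θ ^ 2) * (skS n K m b w).pairEx l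
      (fun x y => (Rov H325.sp x y - ρ) ^ 2) + D / θ ^ 2 * (9 * (skS n K m b w).pairEx l
      (fun x y => Rov H325.sp x y ^ 4) + 8 * ρ ^ 4)) +
      8 * m l ^ 2 * (skS n K m b w).pairEx l (fun x y => Rov H325.sp x y ^ 2)) +
      SB w l * (2 * KV ^ 2 * (skS n K m b w).pairEx l (fun x y => Rov H325.sp x y ^ 2) +
      8 * m l ^ 2 * (skS n K m b w).pairEx l (Rs n)) ≤ _
  set E4 := (skS n K m b w).pairEx l (fun x y => Rov H325.sp x y ^ 4)
  set E2 := (skS n K m b w).pairEx l (fun x y => Rov H325.sp x y ^ 2)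
  set V := (skS n K m b w).pairEx l (fun x y => (Rov H325.sp x y - ρ) ^ 2)
  set E1 := (skS n K m b w).pairEx l (Rs n)
  set B := bt2 n b l
  set W := SB w l
  have hρ4 : ρ ^ 4 ≤ θ ^ 4 := pow_le_pow_left₀ r0 r1 4
  have K1 := KV_one
  have K0 : 0 < KV ^ 2 := by linarith
  have s1 : 2 / (D / θ ^ 2) * V ≤ 2 * (D * θ ^ 2) := by
    calc 2 / (D / θ ^ 2) * V ≤ 2 / (D / θ ^ 2) * D ^ 2 :=
          mul_le_mul_of_nonneg_left h2 (by positivity)
      _ = 2 * (D * θ ^ 2) := by field_simp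
  have s2 : D / θ ^ 2 * (9 * E4 + 8 * ρ ^ 4) ≤ 17 * (D * θ ^ 2) := by
    calc D / θ ^ 2 * (9 * E4 + 8 * ρ ^ 4) ≤ D / θ ^ 2 * (17 * θ ^ 4) :=
          mul_le_mul_of_nonneg_left (by linarith) (by positivity)
      _ = 17 * (D * θ ^ 2) := by field_simp
  have s3 : 8 * m l ^ 2 * E2 ≤ KV ^ 2 * (8 * θ ^ 4) := by
    calc 8 * m l ^ 2 * E2 ≤ 8 * θ ^ 2 * θ ^ 2 :=
          mul_le_mul (by linarith) q2 E2n (by positivity)
      _ = 1 * (8 * θ ^ 4) := by ring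
      _ ≤ _ := mul_le_mul_of_nonneg_right K1 (by positivity)
  have s4 : 8 * m l ^ 2 * E1 ≤ KV ^ 2 * (8 * θ ^ 2) := by
    calc 8 * m l ^ 2 * E1 ≤ 8 * θ ^ 2 * 1 :=
          mul_le_mul (by linarith) (hR1.trans θ1) hR1n (by positivity)
      _ = 1 * (8 * θ ^ 2) := by ring
      _ ≤ _ := mul_le_mul_of_nonneg_right K1 (by positivity)
  have s5 : 2 * KV ^ 2 * E2 ≤ KV ^ 2 * (2 * θ ^ 2) := by
    calc 2 * KV ^ 2 * E2 ≤ 2 * KV ^ 2 * θ ^ 2 := mul_le_mul_of_nonneg_left q2 (by positivity)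
      _ = _ := by ring
  have a1 : 2 * KV ^ 2 * (2 / (D / θ ^ 2) * V + D / θ ^ 2 * (9 * E4 + 8 * ρ ^ 4)) +
      8 * m l ^ 2 * E2 ≤ KV ^ 2 * (38 * (D * θ ^ 2 + θ ^ 4)) := by
    have : 2 * KV ^ 2 * (2 / (D / θ ^ 2) * V + D / θ ^ 2 * (9 * E4 + 8 * ρ ^ 4)) ≤
        2 * KV ^ 2 * (19 * (D * θ ^ 2)) := mul_le_mul_of_nonneg_left (by linarith) (by positivity)
    have h0 : 0 ≤ KV ^ 2 * θ ^ 4 := by positivity
    nlinarith
  have a2 : 2 * KV ^ 2 * E2 + 8 * m l ^ 2 * E1 ≤ KV ^ 2 * (10 * θ ^ 2) := by linarith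
  have E4n : 0 ≤ E4 := hS.pairEx_nonneg hl fun x y => by positivity
  have Vn : 0 ≤ V := hS.pairEx_nonneg hl fun x y => sq_nonneg _
  have c1 : 0 ≤ 2 * KV ^ 2 * (2 / (D / θ ^ 2) * V + D / θ ^ 2 * (9 * E4 + 8 * ρ ^ 4)) +
      8 * m l ^ 2 * E2 :=
    add_nonneg (mul_nonneg (by linarith) (add_nonneg (mul_nonneg (by positivity) Vn)
      (mul_nonneg (by positivity) (add_nonneg (by linarith) (by positivity)))))
      (mul_nonneg (by positivity) E2n)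
  have c2 : 0 ≤ 2 * KV ^ 2 * E2 + 8 * m l ^ 2 * E1 :=
    add_nonneg (mul_nonneg (by linarith) E2n) (mul_nonneg (by positivity) hR1n)
  exact cr_num hB hBn hW hWn c1 a1 c2 a2 B1 K0.le (by positivity) (by positivity)

/-- **(U2): the higher chaoses of a row are cubic.** -/
theorem NLU (hm : Em K m) (hK : 0 < K) (hl : l ≤ K) (i : Fin n)
    (H : Hz n K m b w l θ D κ B0) :
    NL K m b w l i ≤ KV ^ 2 * (60 * B0 ^ 3) *
      ((skS n K m b w).Rl H325.sp l ^ 3 + D * θ ^ 2 + θ ^ 4 + κ) := by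
  have hn : 0 < n := by
    have := i.2
    omega
  obtain ⟨r0, r1, q2, q1, q3⟩ := H.mom hm hn hK hl
  obtain ⟨ml0, ml1, ml2, ml3⟩ := H.ml hm hl
  have θ0 := H.θ0
  have θ1 := H.θ1
  have κ0 := H.κ0
  have D0 := H.D0
  have B1 := H.B1
  have hB := H.bB
  have hBn := bt2_nonneg n b l
  have hO := H.Ow hm hn hK hl
  have h1 := H93.NL_le hm b w hl i
  have hT : Tt (skS n K m b w) l ≤ θ ^ 2 := by
    rw [Tt_eq hm hn hl]
    exact q2
  have hT0 : 0 ≤ Tt (skS n K m b w) l := by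
    rw [Tt_eq hm hn hl]
    exact (linS_sk hm b w).reg.pairEx_nonneg hl fun x y => sq_nonneg _
  have hW : ∑ q : Fin l, w (q + 1) ^ 2 ≤ κ := by
    have : ∑ q : Fin l, w (q + 1) ^ 2 = SB w l := by
      unfold SB
      rw [← Fin.sum_univ_eq_sum_range (fun c => w (c + 1) ^ 2) l]
    rw [this]
    exact H.κw
  have hO0 : 0 ≤ OwS (skS n K m b w) l := OwS_nonneg
  refine h1.trans ?_
  set ρ := (skS n K m b w).Rl H325.sp l
  set O := OwS (skS n K m b w) l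
  set T := Tt (skS n K m b w) l
  set X := ρ ^ 3 + D * θ ^ 2 + θ ^ 4 + κ with hX
  have K1 := KV_one
  have K0 : 0 < KV ^ 2 := by linarith
  have hB2 : 1 ≤ B0 ^ 2 := by nlinarith
  have hB3 : B0 ≤ B0 ^ 3 := by nlinarith
  have hρ3 : 0 ≤ ρ ^ 3 := by positivity
  have hX0 : 0 ≤ X := by positivity
  have s1 : O ≤ KV ^ 2 * (18 * B0 ^ 2) * X := by
    refine hO.trans (mul_le_mul_of_nonneg_left ?_ (by positivity))
    have : κ * θ ≤ κ := by nlinarith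
    rw [hX]
    linarith
  have s2 : m (l + 1) ^ 2 * T ≤ KV ^ 2 * B0 ^ 2 * X := by
    calc m (l + 1) ^ 2 * T ≤ θ ^ 2 * θ ^ 2 := mul_le_mul ml3 hT hT0 (by positivity)
      _ = θ ^ 4 := by ring
      _ ≤ X := by
          have : 0 ≤ D * θ ^ 2 := by positivity
          rw [hX]
          linarith
      _ = 1 * X := (one_mul _).symm
      _ ≤ _ := mul_le_mul_of_nonneg_right (one_le_mul_of_one_le_of_one_le K1 hB2) hX0
  have s3 : bt2 n b l * (2 * O + 8 * m (l + 1) ^ 2 * T) ≤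
      B0 * (44 * (KV ^ 2 * B0 ^ 2 * X)) := by
    refine mul_le_mul hB ?_ (by positivity) (by linarith)
    linarith
  have s4 : (16 : ℝ) * κ ≤ 16 * (KV ^ 2 * B0 ^ 3 * X) := by
    have a1 : κ ≤ X := by
      have : 0 ≤ D * θ ^ 2 := by positivity
      have : 0 ≤ θ ^ 4 := by positivity
      rw [hX]
      linarith
    have a2 : 1 * X ≤ KV ^ 2 * B0 ^ 3 * X :=
      mul_le_mul_of_nonneg_right (one_le_mul_of_one_le_of_one_le K1 (by linarith)) hX0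
    linarith
  calc _ ≤ B0 * (44 * (KV ^ 2 * B0 ^ 2 * X)) + 16 * (KV ^ 2 * B0 ^ 3 * X) := by linarith
    _ = _ := by ring

/-- the error of the row -/
noncomputable def eU (n : ℕ) (m w : ℕ → ℝ) (l : ℕ) (θ D κ B0 g0 g1 t : ℝ) : ℝ :=
  KV ^ 2 * (300 * B0 ^ 3) * ((g1 + √(g0 * g1)) / (m (l + 1) - m l) + θ / (n * w (l + 1) ^ 2) +
    (D * θ ^ 2 + θ ^ 4 + κ * θ ^ 2) / t + t * (θ ^ 3 + κ * θ) + 1 / n)

lemma rowU_num {B B0 K2 G p1 T θ D κ t O C M nn ρ : ℝ} (hB : B ≤ B0) (hB0 : 0 ≤ B)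
    (B1 : 1 ≤ B0) (K1 : 1 ≤ K2) (hG : 0 ≤ G) (hp1 : 0 ≤ p1) (hT : T ≤ θ) (hT0 : 0 ≤ T)
    (θ0 : 0 < θ) (θ1 : θ ≤ 1) (D0 : 0 < D) (Dθ : D ≤ θ) (κ0 : 0 ≤ κ) (ht : 0 < t)
    (hρ0 : 0 ≤ ρ) (hρ : ρ ≤ θ)
    (hO0 : 0 ≤ O) (hO : O ≤ K2 * (18 * B0 ^ 2) * (ρ ^ 3 + D * θ ^ 2 + θ ^ 4 + κ * θ))
    (hC0 : 0 ≤ C) (hC : C ≤ K2 * (38 * B0) * (D * θ ^ 2 + θ ^ 4 + κ * θ ^ 2))
    (hM0 : 0 ≤ M) (hM : M ≤ θ ^ 4) (hnn : 0 ≤ nn) :
    B * (2 * G + 8 * (T * p1) + (6 / t * C + 4 * t * O + 12 / t * M + 96 * nn)) ≤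
      K2 * (300 * B0 ^ 3) * (G + θ * p1 + (D * θ ^ 2 + θ ^ 4 + κ * θ ^ 2) / t +
        t * (θ ^ 3 + κ * θ) + nn) := by
  have hB2 : 1 ≤ B0 ^ 2 := by nlinarith
  have hB3 : B0 ≤ B0 ^ 2 := by nlinarith
  have K0 : 0 < K2 := by linarith
  set Z := D * θ ^ 2 + θ ^ 4 + κ * θ ^ 2 with hZ
  have hZ0 : 0 ≤ Z := by positivity
  have hKB : 1 ≤ K2 * B0 ^ 2 := one_le_mul_of_one_le_of_one_le K1 hB2
  -- the pieces
  have s1 : 6 / t * C ≤ K2 * B0 ^ 2 * (228 * (Z / t)) := by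
    calc 6 / t * C ≤ 6 / t * (K2 * (38 * B0) * Z) := mul_le_mul_of_nonneg_left hC (by positivity)
      _ = B0 * (K2 * (228 * (Z / t))) := by ring
      _ ≤ B0 ^ 2 * (K2 * (228 * (Z / t))) := mul_le_mul_of_nonneg_right hB3 (by positivity)
      _ = _ := by ring
  have s2 : 12 / t * M ≤ K2 * B0 ^ 2 * (12 * (Z / t)) := by
    calc 12 / t * M ≤ 12 / t * Z := by
          refine mul_le_mul_of_nonneg_left (hM.trans ?_) (by positivity)
          have : 0 ≤ D * θ ^ 2 := by positivity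
          have : 0 ≤ κ * θ ^ 2 := by positivity
          rw [hZ]
          linarith
      _ = 1 * (12 * (Z / t)) := by ring
      _ ≤ _ := mul_le_mul_of_nonneg_right hKB (by positivity)
  have hρ3 : ρ ^ 3 ≤ θ ^ 3 := pow_le_pow_left₀ hρ0 hρ 3
  have hD3 : D * θ ^ 2 ≤ θ ^ 3 := by
    calc D * θ ^ 2 ≤ θ * θ ^ 2 := mul_le_mul_of_nonneg_right Dθ (by positivity)
      _ = θ ^ 3 := by ring
  have hθ4 : θ ^ 4 ≤ θ ^ 3 := by
    calc θ ^ 4 = θ * θ ^ 3 := by ring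
      _ ≤ 1 * θ ^ 3 := mul_le_mul_of_nonneg_right θ1 (by positivity)
      _ = θ ^ 3 := one_mul _
  have s3 : 4 * t * O ≤ K2 * B0 ^ 2 * (216 * (t * (θ ^ 3 + κ * θ))) := by
    have hκθ : 0 ≤ κ * θ := by positivity
    have a1 : ρ ^ 3 + D * θ ^ 2 + θ ^ 4 + κ * θ ≤ 3 * (θ ^ 3 + κ * θ) := by linarith
    calc 4 * t * O ≤ 4 * t * (K2 * (18 * B0 ^ 2) * (3 * (θ ^ 3 + κ * θ))) :=
          mul_le_mul_of_nonneg_left (hO.trans (mul_le_mul_of_nonneg_left a1 (by positivity)))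
            (by positivity)
      _ = _ := by ring
  have s4 : 8 * (T * p1) ≤ K2 * B0 ^ 2 * (8 * (θ * p1)) := by
    calc 8 * (T * p1) ≤ 1 * (8 * (θ * p1)) := by
          have := mul_le_mul_of_nonneg_right hT hp1
          linarith
      _ ≤ _ := mul_le_mul_of_nonneg_right hKB (by positivity)
  have s5 : 2 * G ≤ K2 * B0 ^ 2 * (2 * G) := by
    calc 2 * G = 1 * (2 * G) := by ring
      _ ≤ _ := mul_le_mul_of_nonneg_right hKB (by positivity)
  have s6 : 96 * nn ≤ K2 * B0 ^ 2 * (96 * nn) := by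
    calc 96 * nn = 1 * (96 * nn) := by ring
      _ ≤ _ := mul_le_mul_of_nonneg_right hKB (by positivity)
  set A := t * (θ ^ 3 + κ * θ) with hA
  have hA0 : 0 ≤ A := by positivity
  have hZt : 0 ≤ Z / t := by positivity
  have hθp : 0 ≤ θ * p1 := by positivity
  have h2 : 2 * G + 8 * (T * p1) + (6 / t * C + 4 * t * O + 12 / t * M + 96 * nn) ≤
      K2 * B0 ^ 2 * (300 * (G + θ * p1 + Z / t + A + nn)) := by
    have h3 : K2 * B0 ^ 2 * (2 * G) + K2 * B0 ^ 2 * (8 * (θ * p1)) +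
        (K2 * B0 ^ 2 * (228 * (Z / t)) + K2 * B0 ^ 2 * (216 * A) +
        K2 * B0 ^ 2 * (12 * (Z / t)) + K2 * B0 ^ 2 * (96 * nn)) =
        K2 * B0 ^ 2 * (2 * G + 8 * (θ * p1) + 240 * (Z / t) + 216 * A + 96 * nn) := by ring
    have h4 : K2 * B0 ^ 2 * (2 * G + 8 * (θ * p1) + 240 * (Z / t) + 216 * A + 96 * nn) ≤
        K2 * B0 ^ 2 * (300 * (G + θ * p1 + Z / t + A + nn)) :=
      mul_le_mul_of_nonneg_left (by linarith) (by positivity)
    linarith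
  calc _ ≤ B0 * (K2 * B0 ^ 2 * (300 * (G + θ * p1 + Z / t + A + nn))) :=
        mul_le_mul hB h2 (by positivity) (by linarith)
    _ = _ := by ring

/-- **(U1): the two-sided row in numbers.** -/
theorem rowU (hm : Em K m) (hl1 : 1 ≤ l) (hl : l < K) (hw0 : 0 < w l) (hw1 : 0 < w (l + 1))
    (hmm : m l < m (l + 1)) (i : Fin n) {t g0 g1 : ℝ} (ht : 0 < t) (ht1 : t ≤ 1)
    (hg0 : H295.gg (skS n K m b w) (H295.spn n) (H295.zs (by omega)) w l l ≤ g0)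
    (hg1 : H295.gg (skS n K m b w) (H295.spn n) (H295.zs (by omega)) w (l + 1) (l + 1) ≤ g1)
    (H : Hz n K m b w l θ D κ B0) :
    |(skS n K m b w).Rl H325.sp l - NL K m b w l i - FdA n K m b w l -
      (bt2 n b l * (ch n K m b w l ^ 2 * (skS n K m b w).Rl H325.sp l) -
        ch n K m b w l * Br n K m b w l)| ≤ eU n m w l θ D κ B0 g0 g1 t := by
  have hn : 0 < n := by
    have := i.2
    omega
  have hn' : (0 : ℝ) < n := by exact_mod_cast hn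
  have hK : 0 < K := by omega
  obtain ⟨r0, r1, q2, q1, q3⟩ := H.mom hm hn hK hl.le
  obtain ⟨ml0, ml1, ml2, ml3⟩ := H.ml hm hl.le
  have h1 := row_sk hm hl1 hl hw0 hw1 hmm i ht ht1 hg0 hg1
  refine h1.trans ?_
  have hO := H.Ow hm hn hK hl.le
  have hC := H.Cr hm hn hK hl.le
  have hO0 : 0 ≤ OwS (skS n K m b w) l := OwS_nonneg
  have hC0 : 0 ≤ CrS (skS n K m b w) l := CrS_nonneg
  have hT : Tt (skS n K m b w) l ≤ θ ^ 2 := by
    rw [Tt_eq hm hn hl.le]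
    exact q2
  have hT0 : 0 ≤ Tt (skS n K m b w) l := by
    rw [Tt_eq hm hn hl.le]
    exact (linS_sk hm b w).reg.pairEx_nonneg hl.le fun x y => sq_nonneg _
  have hTs : √(Tt (skS n K m b w) l) ≤ θ :=
    (Real.sqrt_le_sqrt hT).trans (le_of_eq (Real.sqrt_sq H.θ0.le))
  -- the fields
  set P : ℕ → Prop := fun p => p = l ∨ p = l + 1 with hP
  have hP1 : ∀ p, P p → 1 ≤ p := fun p h => by rcases h with h | h <;> omega
  have hPw : ∀ p ≤ K, P p → 0 < w p := fun p _ h => by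
    rcases h with h | h
    · rw [h]; exact hw0
    · rw [h]; exact hw1
  have hG := H295.gp_sk hn hK hm b w hP1 hPw
  have q10 := H498.Row.gg_nonneg hG (l := l + 1) hl (Or.inr rfl)
  have hg10 : 0 ≤ g1 := q10.trans hg1
  have hpp : 0 < m (l + 1) - m l := by linarith
  have hM : m (l + 1) ^ 2 * Tt (skS n K m b w) l ≤ θ ^ 4 := by
    calc _ ≤ θ ^ 2 * θ ^ 2 := mul_le_mul ml3 hT hT0 (by positivity)
      _ = θ ^ 4 := by ring
  have h2 := rowU_num (B := bt2 n b l) (B0 := B0) (K2 := KV ^ 2)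
    (G := (g1 + √(g0 * g1)) / (m (l + 1) - m l)) (p1 := 1 / (n * w (l + 1) ^ 2))
    (T := √(Tt (skS n K m b w) l)) (t := t) (nn := 1 / n) (M := m (l + 1) ^ 2 *
      Tt (skS n K m b w) l) H.bB (bt2_nonneg n b l) H.B1
    KV_one (div_nonneg (add_nonneg hg10 (Real.sqrt_nonneg _)) hpp.le) (by positivity) hTs
    (Real.sqrt_nonneg _) H.θ0 H.θ1 H.D0 H.Dθ H.κ0 ht r0 r1 hO0 hO hC0 hC
    (mul_nonneg (sq_nonneg _) hT0) hM (by positivity)
  have e1 : √(Tt (skS n K m b w) l) * (1 / (n * w (l + 1) ^ 2)) =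
      √(Tt (skS n K m b w) l) / (n * w (l + 1) ^ 2) := by ring
  have e2 : θ * (1 / (n * w (l + 1) ^ 2)) = θ / (n * w (l + 1) ^ 2) := by ring
  have e3 : (96 : ℝ) * (1 / n) = 96 / n := by ring
  rw [e1, e2, e3] at h2
  exact h2

end num

end Vale.Agent.P146.H877x
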