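import Vale.Agent.P146.H877x.RowX
import Vale.Agent.P146.H93.Pnum
import Vale.Agent.P146.H479.AGN

/-!
# P146: the U-side of one share in unit letters, any law (helper877)

`perU`: `Θ_(a-1) / u² ≤ (1 + C A₊) (A₊ / (β (v + g)))² + ε`, `A = α - s`;
`perF`: `ρ / u ≤ 2 A₊ / (β v) + √(C w) + ε` (visible field).
-/

open MeasureTheory ProbabilityTheory

namespace Vale.Agent.P146.H877x

open Vale.Agent.P157 Vale.Agent.P157.Lv Vale.Agent.P157.Lv.Sy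
open Vale.Agent.P146.H425 Vale.Agent.P146.H985
open Vale.Agent.P146.H93 (Cd st am aSK skS Em linS_sk)
open Vale.Agent.P146.H379.Row Vale.Agent.P146.H946
open Vale.Agent.P146.H295 (spn zs)
open Vale.Agent.P146.H93.Pnum (CU KU p4unit r_unit)

set_option linter.unusedSectionVars false

section sk

variable {n K : ℕ} {m b w : ℕ → ℝ} {l l0 l1 a q : ℕ} {θ D κ B0 δ γ π R t : ℝ}
  {β u s h v g e ε : ℝ}

/-- the last gap below `a` -/
lemma Gs_ge (hm : Em K m) (ha : 2 ≤ a) (haK : a ≤ K) :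
    (m a - m (a - 1)) * bt2 n b (a - 1) * Tt (skS n K m b w) (a - 1) ≤ Gs n K m b w a := by
  have hS : (skS n K m b w).Reg := (linS_sk hm b w).reg
  unfold Gs
  have h0 : ∀ j ∈ Finset.Ico 1 a, 0 ≤ (m (j + 1) - m j) * bt2 n b j * Tt (skS n K m b w) j := by
    intro j hj
    rw [Finset.mem_Ico] at hj
    exact mul_nonneg (mul_nonneg (Em.step hm (by omega)) (bt2_nonneg n b j))
      (H508.Tt_nonneg hS (by show j ≤ K; omega))
  have h1 := Finset.single_le_sum h0 (show a - 1 ∈ Finset.Ico 1 a by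
    rw [Finset.mem_Ico]; omega)
  rw [show a - 1 + 1 = a by omega] at h1
  exact h1

lemma Gs_nonneg (hm : Em K m) (haK : a ≤ K) : 0 ≤ Gs n K m b w a := by
  have hS : (skS n K m b w).Reg := (linS_sk hm b w).reg
  unfold Gs
  refine Finset.sum_nonneg fun j hj => ?_
  rw [Finset.mem_Ico] at hj
  exact mul_nonneg (mul_nonneg (Em.step hm (by omega)) (bt2_nonneg n b j))
    (H508.Tt_nonneg hS (by show j ≤ K; omega))

/-- the visible fields -/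
lemma FdA_le' (hm : Em K m) (hn : 0 < n) (hl : l ≤ K) (H : Hz n K m b w l θ D κ B0) :
    FdA n K m b w l ≤ 16 * κ := by
  have h1 := FdA_le hm b w hn hl
  have h2 := H.κw
  have e1 : ∑ q : Fin l, w (q + 1) ^ 2 = SB w l := by
    unfold SB
    rw [Fin.sum_univ_eq_sum_range (fun q => w (q + 1) ^ 2) l]
  rw [e1] at h1
  linarith

/-- **The U-side of one share, any law.**  `Θ = Tt (a - 1)` is the second moment below the gap. -/
theorem perU (hm : Em K m) (hn : 0 < n) (ha : 2 ≤ a) (hal : a ≤ l0) (hll : l0 < l1)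
    (hlq : l1 < q) (hq : q ≤ K)
    (G0 : Gd n K m b w l0 γ π R) (G1 : Gd n K m b w l1 γ π R) (ht : 0 < t) (ht1 : t ≤ 1)
    (hδ : m q - m a ≤ δ) (hvθ : m q ≤ θ) (hmK : m K ≤ 2 * θ)
    (hρ : (skS n K m b w).Rl H325.sp (q - 1) ≤ θ)
    (H0 : Hz n K m b w l0 θ D κ B0) (H1 : Hz n K m b w l1 θ D κ B0) (hκθ : κ + B0 / n ≤ θ)
    (hβ : 1 ≤ β) (hu : 0 < u) (hs : 0 ≤ s) (hsu : s * u ^ 2 ≤ 1 / 2) (hh : -(1 / 2) ≤ h)
    (hχ : β * ch n K m b w (q - 1) = 1 + h)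
    (hB : bt2 n b l0 = β ^ 2 * (1 - s * u ^ 2)) (hBa : bt2 n b (a - 1) = bt2 n b l0)
    (hBe : bt2 n b l1 - bt2 n b l0 = β ^ 2 * (e * u ^ 2)) (he : 0 < e)
    (hv : 1 / 2 ≤ v) (hg : 0 < g) (hgv : g ≤ v) (hmq : m q = v * u)
    (hma : m q - m (a - 1) = g * u) (hε : 0 < ε) (hε1 : ε ≤ 1)
    (E1 : KV ^ 2 * (60 * B0 ^ 3) * (D * θ ^ 2 + θ ^ 4 + κ) + 16 * κ +
      2 * eT n θ D κ B0 γ π R t δ ≤ ε * u ^ 3)
    (E2 : D ^ 2 ≤ ε * u ^ 2)
    (E3 : 6 * (θ ^ 2 * (β ^ 2 * (e * u ^ 2)) + 2 * eT n θ D κ B0 γ π R t δ / (ε * u)) ≤ ε * u ^ 2)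
    (E4 : 48 * κ ≤ ε * u ^ 3)
    (E5 : 48 * (θ ^ 2 * (β ^ 2 * (e * u ^ 2)) + 2 * eT n θ D κ B0 γ π R t δ / (ε * u)) <
      e * u ^ 2) :
    Tt (skS n K m b w) (a - 1) / u ^ 2 ≤
      (1 + CU β (KV ^ 2 * (60 * B0 ^ 3)) * max (2 * h / u ^ 2 - s) 0) *
        (max (2 * h / u ^ 2 - s) 0 / (β * (v + g))) ^ 2 +
      (KU (KV ^ 2 * (60 * B0 ^ 3)) g * ε + 6 * (s * u ^ 2) / (β * (v + g)) ^ 2) := by
  have hK : 0 < K := by omega
  have hn' : (0 : ℝ) < n := by exact_mod_cast hn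
  have B1 := H0.B1
  have θ0 := H0.θ0
  have κ0 := H0.κ0
  have hm1 : 1 ≤ a := by omega
  obtain ⟨r0, r1, q2, q1, q3⟩ := H0.mom hm hn hK G0.lK.le
  obtain ⟨X0, X1⟩ := ch_mem (b := b) (w := w) hm hn (show q - 1 < K by omega)
  have ma1 : m a ≤ m q := Em.mono' hm (by omega) (by omega)
  have ma0 : m (a - 1) ≤ m a := Em.mono' hm (by omega) (by omega)
  have hδ0 : 0 ≤ δ := by linarith
  have hγ := G0.gnn hm hn
  have hT0 := eT_nonneg (n := n) (θ := θ) (D := D) (κ := κ) (B0 := B0) (g := γ) (π := π) (R := R)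
    (t := t) (δ := δ) θ0.le H0.D0.le κ0 (by linarith) hγ G0.π0.le G0.R0.le ht.le hδ0
  have U := uside_sk hm hn hm1 hal (by omega : l0 < q) hq G0 ht ht1 hδ hvθ hρ H0
  have V := (Tt_le_good hm hn hK (show a - 1 ≤ l0 by omega) G0.lK.le H0).2
  have T0 := (Tt_le_good hm hn hK (show a - 1 ≤ l0 by omega) G0.lK.le H0).1
  have hF := FdA_le' hm hn G0.lK.le H0
  have hGs := Gs_ge (n := n) (b := b) (w := w) hm ha (by omega : a ≤ K)
  have hGn := Gs_nonneg (n := n) (b := b) (w := w) hm (by omega : a ≤ K)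
  rw [hBa] at hGs
  have hBn := bt2_nonneg n b l0
  have hBB := H0.bB
  have hTθ : Tt (skS n K m b w) (a - 1) ≤ θ ^ 2 := by
    have hS : (skS n K m b w).Reg := (linS_sk hm b w).reg
    have hlK : l0 ≤ (skS n K m b w).K := G0.lK.le
    refine (H508.Tt_mono hS (by omega : a - 1 ≤ l0) hlK).trans ?_
    rw [Tt_eq hm hn G0.lK.le]
    exact q2
  set X := ch n K m b w (q - 1) with hX
  set B := bt2 n b l0 with hBd
  set r := (skS n K m b w).Rl H325.sp l0 with hr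
  set G := Gs n K m b w a with hG
  set T := Tt (skS n K m b w) (a - 1) with hT
  set E := eT n θ D κ B0 γ π R t δ with hE
  have hBp : 0 < B := by rw [hB]; exact mul_pos (by positivity) (by linarith)
  -- the gap with the exact letter `g`
  have hGE : g * u * B * T ≤ G + B0 * (δ * θ ^ 2) := by
    have e1 : g * u * B * T = (m a - m (a - 1)) * B * T + (m q - m a) * (B * T) := by
      rw [← hma]; ring
    rw [e1]
    refine add_le_add hGs ?_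
    calc (m q - m a) * (B * T) ≤ δ * (B0 * θ ^ 2) :=
          mul_le_mul hδ (mul_le_mul hBB hTθ T0 (by linarith)) (mul_nonneg hBp.le T0) hδ0
      _ = _ := by ring
  have hδE : B0 * (δ * θ ^ 2) ≤ E := by
    have K1 := KV_one
    have B4 : B0 ≤ KV ^ 2 * (1000000000000 * B0 ^ 5) := by
      have h1 : B0 ≤ B0 ^ 5 := by
        calc B0 = B0 ^ 1 := (pow_one _).symm
          _ ≤ _ := pow_le_pow_right₀ B1 (by norm_num)
      have h2 : B0 ^ 5 ≤ KV ^ 2 * B0 ^ 5 := le_mul_of_one_le_left (by positivity) K1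
      have h3 : 0 ≤ KV ^ 2 * B0 ^ 5 := by positivity
      linarith [show KV ^ 2 * (1000000000000 * B0 ^ 5) = 1000000000000 * (KV ^ 2 * B0 ^ 5) by ring]
    have hπ := G0.π0
    have hR := G0.R0
    have D0 := H0.D0
    have q1' : 0 ≤ γ / π := by positivity
    have q2' : 0 ≤ θ / (n * R) := by positivity
    have q3' : 0 ≤ (D * θ ^ 2 + θ ^ 4 + κ * θ ^ 2) / t := by positivity
    have q4' : 0 ≤ t * θ ^ 3 := by positivity
    have q5' : 0 ≤ κ * θ := by positivity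
    have q6' : (0 : ℝ) ≤ 1 / n := by positivity
    have q7' : 0 ≤ δ * θ ^ 2 := by positivity
    rw [hE]
    unfold eT
    exact mul_le_mul B4 (by linarith) q7' (by positivity)
  -- the row
  have U' : X * (v * u * B * r ^ 2 + (G + B0 * (δ * θ ^ 2))) ≤ (B * X ^ 2 - 1) * r +
      KV ^ 2 * (60 * B0 ^ 3) * r ^ 3 +
      (KV ^ 2 * (60 * B0 ^ 3) * (D * θ ^ 2 + θ ^ 4 + κ) + 16 * κ + 2 * E) := by
    rw [← hmq]
    have h3 : X * (B0 * (δ * θ ^ 2)) ≤ E :=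
      (mul_le_of_le_one_left (by positivity) X1).trans hδE
    have e1 : X * (m q * B * r ^ 2 + (G + B0 * (δ * θ ^ 2))) =
        X * (m q * B * r ^ 2 + G) + X * (B0 * (δ * θ ^ 2)) := by ring
    rw [e1]
    linarith
  -- the two levels
  have hrs : 0 < ε * u := by positivity
  have hXβ : 1 / 4 ≤ β ^ 2 * X ^ 2 := by
    have h1 : (1 : ℝ) / 2 ≤ β * X := by rw [hχ]; linarith
    calc (1 : ℝ) / 4 = (1 / 2) ^ 2 := by norm_num
      _ ≤ (β * X) ^ 2 := pow_le_pow_left₀ (by norm_num) h1 2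
      _ = _ := by ring
  have R' := ur_sk hm hn hm1 hal hll hlq hq G0 G1 ht ht1 hδ hvθ hmK hρ H0 H1 hκθ hBp hrs (by
    rw [hBe, ← hE, ← hX]
    have h1 : e * u ^ 2 * (1 / 4) ≤ e * u ^ 2 * (β ^ 2 * X ^ 2) :=
      mul_le_mul_of_nonneg_left hXβ (by positivity)
    linarith [show β ^ 2 * (e * u ^ 2) * X ^ 2 = e * u ^ 2 * (β ^ 2 * X ^ 2) by ring])
  rw [hBe, ← hE, ← hX, ← hr, ← hG, ← hBd] at R'
  have R'' : r ≤ ε * u ∨ X * (v * u * B * r ^ 2) ≤ (2 * max (B * X ^ 2 - 1) 0 +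
      6 * (θ ^ 2 * (β ^ 2 * (e * u ^ 2)) + 2 * E / (ε * u))) * r + 48 * κ := by
    rcases R' with h1 | h1
    · exact Or.inl h1
    · right
      have h2 : 3 * max (FdA n K m b w l0 - X * G) 0 ≤ 48 * κ := by
        have h3 : max (FdA n K m b w l0 - X * G) 0 ≤ 16 * κ :=
          max_le (by linarith [mul_nonneg X0 hGn]) (by positivity)
        linarith
      rw [← hmq]
      have e1 : X * (m q * B * r ^ 2) = X * m q * B * r ^ 2 := by ring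
      rw [e1]
      linarith
  exact p4unit (χ := X) (B := B) (r := r) (Th := T) (E1 := KV ^ 2 * (60 * B0 ^ 3) *
    (D * θ ^ 2 + θ ^ 4 + κ) + 16 * κ + 2 * E) (E3 := 6 * (θ ^ 2 * (β ^ 2 * (e * u ^ 2)) +
    2 * E / (ε * u))) (E4 := 48 * κ) (D2 := D ^ 2) (rs := ε * u)
    (G := G + B0 * (δ * θ ^ 2)) hβ hu hs hsu hh hχ X1 hB (by positivity) hv hg hgv r0 hε.le hε1
    E1 E2 le_rfl E3 E4 hGE U' V R''

/-- **The overlap of one share with a visible field, any law.** -/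
theorem perF (hm : Em K m) (hn : 0 < n) (ha : 1 ≤ a) (hal : a ≤ l0) (hll : l0 < l1)
    (hlq : l1 < q) (hq : q ≤ K)
    (G0 : Gd n K m b w l0 γ π R) (G1 : Gd n K m b w l1 γ π R) (ht : 0 < t) (ht1 : t ≤ 1)
    (hδ : m q - m a ≤ δ) (hvθ : m q ≤ θ) (hmK : m K ≤ 2 * θ)
    (hρ : (skS n K m b w).Rl H325.sp (q - 1) ≤ θ)
    (H0 : Hz n K m b w l0 θ D κ B0) (H1 : Hz n K m b w l1 θ D κ B0) (hκθ : κ + B0 / n ≤ θ)
    (hβ : 1 ≤ β) (hu : 0 < u) (hs : 0 ≤ s) (hsu : s * u ^ 2 ≤ 1 / 2) (hh : -(1 / 2) ≤ h)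
    (hχ : β * ch n K m b w (q - 1) = 1 + h)
    (hB : bt2 n b l0 = β ^ 2 * (1 - s * u ^ 2))
    (hBe : bt2 n b l1 - bt2 n b l0 = β ^ 2 * (e * u ^ 2)) (he : 0 < e)
    (hv : 1 / 2 ≤ v) (hmq : m q = v * u) {k : ℝ} (hk : 0 ≤ k) (hκk : κ ≤ k * u ^ 3)
    (hε : 0 < ε)
    (E3 : 6 * (θ ^ 2 * (β ^ 2 * (e * u ^ 2)) + 2 * eT n θ D κ B0 γ π R t δ / (ε * u)) ≤ ε * u ^ 2)
    (E5 : 48 * (θ ^ 2 * (β ^ 2 * (e * u ^ 2)) + 2 * eT n θ D κ B0 γ π R t δ / (ε * u)) <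
      e * u ^ 2) :
    (skS n K m b w).Rl H325.sp l0 / u ≤
      2 * max (2 * h / u ^ 2 - s) 0 / (β * (1 - s * u ^ 2) * v) + (9 * ε + √(384 * k)) := by
  have hK : 0 < K := by omega
  have hn' : (0 : ℝ) < n := by exact_mod_cast hn
  have B1 := H0.B1
  have θ0 := H0.θ0
  have κ0 := H0.κ0
  obtain ⟨r0, r1, q2, q1, q3⟩ := H0.mom hm hn hK G0.lK.le
  obtain ⟨X0, X1⟩ := ch_mem (b := b) (w := w) hm hn (show q - 1 < K by omega)
  have hF := FdA_le' hm hn G0.lK.le H0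
  have hGn := Gs_nonneg (n := n) (b := b) (w := w) hm (by omega : a ≤ K)
  set X := ch n K m b w (q - 1) with hX
  set B := bt2 n b l0 with hBd
  set r := (skS n K m b w).Rl H325.sp l0 with hr
  set G := Gs n K m b w a with hG
  set E := eT n θ D κ B0 γ π R t δ with hE
  have hBp : 0 < B := by rw [hB]; exact mul_pos (by positivity) (by linarith)
  have hrs : 0 < ε * u := by positivity
  have hXβ : 1 / 4 ≤ β ^ 2 * X ^ 2 := by
    have h1 : (1 : ℝ) / 2 ≤ β * X := by rw [hχ]; linarith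
    calc (1 : ℝ) / 4 = (1 / 2) ^ 2 := by norm_num
      _ ≤ (β * X) ^ 2 := pow_le_pow_left₀ (by norm_num) h1 2
      _ = _ := by ring
  have R' := ur_sk hm hn ha hal hll hlq hq G0 G1 ht ht1 hδ hvθ hmK hρ H0 H1 hκθ hBp hrs (by
    rw [hBe, ← hE, ← hX]
    have h1 : e * u ^ 2 * (1 / 4) ≤ e * u ^ 2 * (β ^ 2 * X ^ 2) :=
      mul_le_mul_of_nonneg_left hXβ (by positivity)
    linarith [show β ^ 2 * (e * u ^ 2) * X ^ 2 = e * u ^ 2 * (β ^ 2 * X ^ 2) by ring])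
  rw [hBe, ← hE, ← hX, ← hr, ← hG, ← hBd] at R'
  have R'' : r ≤ ε * u ∨ X * (v * u * B * r ^ 2) ≤ (2 * max (B * X ^ 2 - 1) 0 +
      6 * (θ ^ 2 * (β ^ 2 * (e * u ^ 2)) + 2 * E / (ε * u))) * r + 48 * κ := by
    rcases R' with h1 | h1
    · exact Or.inl h1
    · right
      have h2 : 3 * max (FdA n K m b w l0 - X * G) 0 ≤ 48 * κ := by
        have h3 : max (FdA n K m b w l0 - X * G) 0 ≤ 16 * κ :=
          max_le (by linarith [mul_nonneg X0 hGn]) (by positivity)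
        linarith
      rw [← hmq]
      have e1 : X * (m q * B * r ^ 2) = X * m q * B * r ^ 2 := by ring
      rw [e1]
      linarith
  have h1 := r_unit (χ := X) (B := B) (r := r) (rs := ε * u) (ρ := ε) (e3 := ε) (e4 := 48 * k)
    hβ hu hs hsu hh hχ hB hv r0 hε.le (by positivity) hε.le le_rfl E3 (by linarith :
      48 * κ ≤ 48 * k * u ^ 3) R''
  have e2 : 8 * ε + √(8 * (48 * k)) + ε = 9 * ε + √(384 * k) := by
    rw [show (8 : ℝ) * (48 * k) = 384 * k by ring]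
    ring
  rw [e2] at h1
  exact h1

/-! ### the letters of `H479.AGN` -/

lemma ch_cSK (hn : 0 < n) (hq : 1 ≤ q) :
    ch n K m b w (q - 1) = H186.cSK n K m b w q / n := by
  have hn' : (n : ℝ) ≠ 0 := by exact_mod_cast hn.ne'
  rw [H479.cSK_Rq hn, mul_div_cancel_left₀ _ hn']
  unfold ch
  rw [show q - 1 + 1 = q by omega]
  rfl

lemma Tt_Tq (hm : Em K m) (hn : 0 < n) (hl : l ≤ K) :
    Tt (skS n K m b w) l = H479.Tq n K m b w l := Tt_eq hm hn hl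

lemma alU_eq (hn : 0 < n) (hq : 1 ≤ q) :
    H479.alU n K m b w β u q = 2 * (β * ch n K m b w (q - 1) - 1) / u ^ 2 := by
  unfold H479.alU
  rw [ch_cSK hn hq]
  ring

/-- **The U-side of one share, any law**, in the letters `alU`, `Tq`. -/
theorem perU' (hm : Em K m) (hn : 0 < n) (ha : 2 ≤ a) (hal : a ≤ l0) (hll : l0 < l1)
    (hlq : l1 < q) (hq : q ≤ K)
    (G0 : Gd n K m b w l0 γ π R) (G1 : Gd n K m b w l1 γ π R) (ht : 0 < t) (ht1 : t ≤ 1)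
    (hδ : m q - m a ≤ δ) (hvθ : m q ≤ θ) (hmK : m K ≤ 2 * θ)
    (hρ : (skS n K m b w).Rl H325.sp (q - 1) ≤ θ)
    (H0 : Hz n K m b w l0 θ D κ B0) (H1 : Hz n K m b w l1 θ D κ B0) (hκθ : κ + B0 / n ≤ θ)
    (hβ : 1 ≤ β) (hu : 0 < u) (hs : 0 ≤ s) (hsu : s * u ^ 2 ≤ 1 / 2)
    (hh : -1 ≤ H479.alU n K m b w β u q * u ^ 2)
    (hB : bt2 n b l0 = β ^ 2 * (1 - s * u ^ 2)) (hBa : bt2 n b (a - 1) = bt2 n b l0)
    (hBe : bt2 n b l1 - bt2 n b l0 = β ^ 2 * (e * u ^ 2)) (he : 0 < e)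
    (hv : 1 / 2 ≤ v) (hg : 0 < g) (hgv : g ≤ v) (hmq : m q = v * u)
    (hma : m q - m (a - 1) = g * u) (hε : 0 < ε) (hε1 : ε ≤ 1)
    (E1 : KV ^ 2 * (60 * B0 ^ 3) * (D * θ ^ 2 + θ ^ 4 + κ) + 16 * κ +
      2 * eT n θ D κ B0 γ π R t δ ≤ ε * u ^ 3)
    (E2 : D ^ 2 ≤ ε * u ^ 2)
    (E3 : 6 * (θ ^ 2 * (β ^ 2 * (e * u ^ 2)) + 2 * eT n θ D κ B0 γ π R t δ / (ε * u)) ≤ ε * u ^ 2)
    (E4 : 48 * κ ≤ ε * u ^ 3)
    (E5 : 48 * (θ ^ 2 * (β ^ 2 * (e * u ^ 2)) + 2 * eT n θ D κ B0 γ π R t δ / (ε * u)) <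
      e * u ^ 2) :
    H479.Tq n K m b w (a - 1) / u ^ 2 ≤
      (1 + CU β (KV ^ 2 * (60 * B0 ^ 3)) * max (H479.alU n K m b w β u q - s) 0) *
        (max (H479.alU n K m b w β u q - s) 0 / (β * (v + g))) ^ 2 +
      (KU (KV ^ 2 * (60 * B0 ^ 3)) g * ε + 6 * (s * u ^ 2) / (β * (v + g)) ^ 2) := by
  have hu2 : 0 < u ^ 2 := by positivity
  have e1 := alU_eq (K := K) (m := m) (b := b) (w := w) (β := β) (u := u) hn
    (show 1 ≤ q by omega)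
  have e2 : 2 * (β * ch n K m b w (q - 1) - 1) = H479.alU n K m b w β u q * u ^ 2 := by
    rw [e1]; field_simp
  rw [← Tt_Tq hm hn (show a - 1 ≤ K by omega), e1]
  exact perU hm hn ha hal hll hlq hq G0 G1 ht ht1 hδ hvθ hmK hρ H0 H1 hκθ hβ hu hs hsu
    (h := β * ch n K m b w (q - 1) - 1) (by linarith) (by ring) hB hBa hBe he hv hg hgv hmq hma hε
    hε1 E1 E2 E3 E4 E5

/-- **The overlap of one share with a visible field, any law**, in the letters `alU`, `Rq`. -/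
theorem perF' (hm : Em K m) (hn : 0 < n) (ha : 1 ≤ a) (hal : a ≤ l0) (hll : l0 < l1)
    (hlq : l1 < q) (hq : q ≤ K)
    (G0 : Gd n K m b w l0 γ π R) (G1 : Gd n K m b w l1 γ π R) (ht : 0 < t) (ht1 : t ≤ 1)
    (hδ : m q - m a ≤ δ) (hvθ : m q ≤ θ) (hmK : m K ≤ 2 * θ)
    (hρ : (skS n K m b w).Rl H325.sp (q - 1) ≤ θ)
    (H0 : Hz n K m b w l0 θ D κ B0) (H1 : Hz n K m b w l1 θ D κ B0) (hκθ : κ + B0 / n ≤ θ)
    (hβ : 1 ≤ β) (hu : 0 < u) (hs : 0 ≤ s) (hsu : s * u ^ 2 ≤ 1 / 2)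
    (hh : -1 ≤ H479.alU n K m b w β u q * u ^ 2)
    (hB : bt2 n b l0 = β ^ 2 * (1 - s * u ^ 2))
    (hBe : bt2 n b l1 - bt2 n b l0 = β ^ 2 * (e * u ^ 2)) (he : 0 < e)
    (hv : 1 / 2 ≤ v) (hmq : m q = v * u) {k : ℝ} (hk : 0 ≤ k) (hκk : κ ≤ k * u ^ 3)
    (hε : 0 < ε)
    (E3 : 6 * (θ ^ 2 * (β ^ 2 * (e * u ^ 2)) + 2 * eT n θ D κ B0 γ π R t δ / (ε * u)) ≤ ε * u ^ 2)
    (E5 : 48 * (θ ^ 2 * (β ^ 2 * (e * u ^ 2)) + 2 * eT n θ D κ B0 γ π R t δ / (ε * u)) <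
      e * u ^ 2) :
    H479.Rq n K m b w l0 / u ≤
      2 * max (H479.alU n K m b w β u q - s) 0 / (β * (1 - s * u ^ 2) * v) +
        (9 * ε + √(384 * k)) := by
  have hu2 : 0 < u ^ 2 := by positivity
  have e1 := alU_eq (K := K) (m := m) (b := b) (w := w) (β := β) (u := u) hn
    (show 1 ≤ q by omega)
  have e2 : 2 * (β * ch n K m b w (q - 1) - 1) = H479.alU n K m b w β u q * u ^ 2 := by
    rw [e1]; field_simp
  rw [e1]
  exact perF hm hn ha hal hll hlq hq G0 G1 ht ht1 hδ hvθ hmK hρ H0 H1 hκθ hβ hu hs hsu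
    (h := β * ch n K m b w (q - 1) - 1) (by linarith) (by ring) hB hBe he hv hmq hk hκk hε E3 E5

end sk

end Vale.Agent.P146.H877x
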