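import Vale.Agent.P146.H877x.PerT

/-!
# P146: `perU'`, `perF'` with the numbers in the units of `u` (helper877)

`θ = C4 u`, `D = d u`, `κ ≤ k u³`, `eT ≤ x u³`; conditions: `C4² β² u² ≤ ε / 200`,
`x ≤ ε² e / 400`, `KV² 60 B0³ (d C4² + C4⁴ u + k) + 16 k + 2 x ≤ ε`, `d² ≤ ε`, `48 k ≤ ε`.
-/

open MeasureTheory ProbabilityTheory

namespace Vale.Agent.P146.H877x

open Vale.Agent.P157 Vale.Agent.P157.Lv Vale.Agent.P157.Lv.Sy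
open Vale.Agent.P146.H425 Vale.Agent.P146.H985
open Vale.Agent.P146.H93 (Cd st am aSK skS Em linS_sk)
open Vale.Agent.P146.H379.Row Vale.Agent.P146.H946
open Vale.Agent.P146.H295 (spn zs)
open Vale.Agent.P146.H93.Pnum (CU KU p4unit r_unit)

set_option linter.unusedSectionVars false

/-- `E3`, `E5` -/
lemma E35 {β u θ C4 e ε E x : ℝ} (hu : 0 < u) (he : 0 < e) (he1 : e ≤ 1) (hε : 0 < ε)
    (hε1 : ε ≤ 1) (hθ : θ = C4 * u) (c1 : C4 ^ 2 * β ^ 2 * u ^ 2 ≤ ε / 200)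
    (hE : E ≤ x * u ^ 3) (c2 : x ≤ ε ^ 2 * e / 400) :
    6 * (θ ^ 2 * (β ^ 2 * (e * u ^ 2)) + 2 * E / (ε * u)) ≤ ε * u ^ 2 ∧
    48 * (θ ^ 2 * (β ^ 2 * (e * u ^ 2)) + 2 * E / (ε * u)) < e * u ^ 2 := by
  have hu2 : 0 < u ^ 2 := by positivity
  have h1 : θ ^ 2 * (β ^ 2 * (e * u ^ 2)) ≤ ε * e / 200 * u ^ 2 := by
    have e1 : θ ^ 2 * (β ^ 2 * (e * u ^ 2)) = (C4 ^ 2 * β ^ 2 * u ^ 2) * (e * u ^ 2) := by
      rw [hθ]; ring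
    rw [e1]
    calc (C4 ^ 2 * β ^ 2 * u ^ 2) * (e * u ^ 2) ≤ (ε / 200) * (e * u ^ 2) :=
          mul_le_mul_of_nonneg_right c1 (by positivity)
      _ = _ := by ring
  have h2 : 2 * E / (ε * u) ≤ ε * e / 200 * u ^ 2 := by
    rw [div_le_iff₀ (by positivity)]
    have e2 : ε * e / 200 * u ^ 2 * (ε * u) = 2 * (ε ^ 2 * e / 400 * u ^ 3) := by ring
    rw [e2]
    have h3 : x * u ^ 3 ≤ ε ^ 2 * e / 400 * u ^ 3 :=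
      mul_le_mul_of_nonneg_right c2 (by positivity)
    linarith
  have h4 : ε * e ≤ ε := mul_le_of_le_one_right hε.le he1
  have h5 : ε * e ≤ e := mul_le_of_le_one_left he.le hε1
  have h6 : ε * e * u ^ 2 ≤ ε * u ^ 2 := mul_le_mul_of_nonneg_right h4 hu2.le
  have h7 : ε * e * u ^ 2 ≤ e * u ^ 2 := mul_le_mul_of_nonneg_right h5 hu2.le
  have h8 : 0 < ε * e * u ^ 2 := by positivity
  have e3 : ε * e / 200 * u ^ 2 = ε * e * u ^ 2 / 200 := by ring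
  rw [e3] at h1 h2
  constructor
  · linarith
  · linarith

/-- `E1`, `E2`, `E4` -/
lemma E124 {u θ C4 D d κ k P ε E x : ℝ} (hu : 0 < u) (hP : 0 ≤ P)
    (hθ : θ = C4 * u) (hD : D = d * u) (hκ : κ ≤ k * u ^ 3) (hE : E ≤ x * u ^ 3)
    (c3 : P * (d * C4 ^ 2 + C4 ^ 4 * u + k) + 16 * k + 2 * x ≤ ε)
    (c4 : d ^ 2 ≤ ε) (c5 : 48 * k ≤ ε) :
    P * (D * θ ^ 2 + θ ^ 4 + κ) + 16 * κ + 2 * E ≤ ε * u ^ 3 ∧ D ^ 2 ≤ ε * u ^ 2 ∧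
      48 * κ ≤ ε * u ^ 3 := by
  have hu3 : 0 < u ^ 3 := by positivity
  refine ⟨?_, ?_, ?_⟩
  · have h1 : D * θ ^ 2 + θ ^ 4 + κ ≤ (d * C4 ^ 2 + C4 ^ 4 * u + k) * u ^ 3 := by
      rw [hθ, hD]
      linarith [show (d * C4 ^ 2 + C4 ^ 4 * u + k) * u ^ 3 =
        d * u * (C4 * u) ^ 2 + (C4 * u) ^ 4 + k * u ^ 3 by ring]
    have h2 := mul_le_mul_of_nonneg_left h1 hP
    have h3 := mul_le_mul_of_nonneg_right c3 hu3.le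
    linarith [show (P * (d * C4 ^ 2 + C4 ^ 4 * u + k) + 16 * k + 2 * x) * u ^ 3 =
      P * ((d * C4 ^ 2 + C4 ^ 4 * u + k) * u ^ 3) + 16 * (k * u ^ 3) + 2 * (x * u ^ 3) by ring]
  · rw [hD, mul_pow]
    exact mul_le_mul_of_nonneg_right c4 (by positivity)
  · have h3 := mul_le_mul_of_nonneg_right c5 hu3.le
    linarith [show 48 * k * u ^ 3 = 48 * (k * u ^ 3) by ring]

section sk

variable {n K : ℕ} {m b w : ℕ → ℝ} {l l0 l1 a q : ℕ} {κ B0 δ γ π R t : ℝ}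
  {β u s v g e ε C4 d k x : ℝ}

/-- **The U-side of one share, any law, numbers in the units of `u`.** -/
theorem perU_unit (hm : Em K m) (hn : 0 < n) (ha : 2 ≤ a) (hal : a ≤ l0) (hll : l0 < l1)
    (hlq : l1 < q) (hq : q ≤ K)
    (G0 : Gd n K m b w l0 γ π R) (G1 : Gd n K m b w l1 γ π R) (ht : 0 < t) (ht1 : t ≤ 1)
    (hδ : m q - m a ≤ δ) (hvθ : m q ≤ C4 * u) (hmK : m K ≤ 2 * (C4 * u))
    (hρ : H479.Rq n K m b w (q - 1) ≤ C4 * u)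
    (H0 : Hz n K m b w l0 (C4 * u) (d * u) κ B0) (H1 : Hz n K m b w l1 (C4 * u) (d * u) κ B0)
    (hκθ : κ + B0 / n ≤ C4 * u)
    (hβ : 1 ≤ β) (hu : 0 < u) (hs : 0 ≤ s) (hsu : s * u ^ 2 ≤ 1 / 2)
    (hh : -1 ≤ H479.alU n K m b w β u q * u ^ 2)
    (hB : bt2 n b l0 = β ^ 2 * (1 - s * u ^ 2)) (hBa : bt2 n b (a - 1) = bt2 n b l0)
    (hBe : bt2 n b l1 - bt2 n b l0 = β ^ 2 * (e * u ^ 2)) (he : 0 < e) (he1 : e ≤ 1)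
    (hv : 1 / 2 ≤ v) (hg : 0 < g) (hgv : g ≤ v) (hmq : m q = v * u)
    (hma : m q - m (a - 1) = g * u) (hε : 0 < ε) (hε1 : ε ≤ 1)
    (hκ : κ ≤ k * u ^ 3) (hE : eT n (C4 * u) (d * u) κ B0 γ π R t δ ≤ x * u ^ 3)
    (c1 : C4 ^ 2 * β ^ 2 * u ^ 2 ≤ ε / 200) (c2 : x ≤ ε ^ 2 * e / 400)
    (c3 : KV ^ 2 * (60 * B0 ^ 3) * (d * C4 ^ 2 + C4 ^ 4 * u + k) + 16 * k + 2 * x ≤ ε)
    (c4 : d ^ 2 ≤ ε) (c5 : 48 * k ≤ ε) :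
    H479.Tq n K m b w (a - 1) / u ^ 2 ≤
      (1 + CU β (KV ^ 2 * (60 * B0 ^ 3)) * max (H479.alU n K m b w β u q - s) 0) *
        (max (H479.alU n K m b w β u q - s) 0 / (β * (v + g))) ^ 2 +
      (KU (KV ^ 2 * (60 * B0 ^ 3)) g * ε + 6 * (s * u ^ 2) / (β * (v + g)) ^ 2) := by
  have B1 := H0.B1
  have hP : 0 ≤ KV ^ 2 * (60 * B0 ^ 3) := by
    have := KV_one
    positivity
  obtain ⟨E3, E5⟩ := E35 (β := β) (θ := C4 * u) hu he he1 hε hε1 rfl c1 hE c2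
  obtain ⟨E1, E2, E4⟩ := E124 (θ := C4 * u) (D := d * u) hu hP rfl rfl hκ hE c3 c4 c5
  exact perU' hm hn ha hal hll hlq hq G0 G1 ht ht1 hδ hvθ hmK hρ H0 H1 hκθ hβ hu hs hsu hh hB hBa
    hBe he hv hg hgv hmq hma hε hε1 E1 E2 E3 E4 E5

/-- **The overlap with a visible field, any law, numbers in the units of `u`.** -/
theorem perF_unit (hm : Em K m) (hn : 0 < n) (ha : 1 ≤ a) (hal : a ≤ l0) (hll : l0 < l1)
    (hlq : l1 < q) (hq : q ≤ K)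
    (G0 : Gd n K m b w l0 γ π R) (G1 : Gd n K m b w l1 γ π R) (ht : 0 < t) (ht1 : t ≤ 1)
    (hδ : m q - m a ≤ δ) (hvθ : m q ≤ C4 * u) (hmK : m K ≤ 2 * (C4 * u))
    (hρ : H479.Rq n K m b w (q - 1) ≤ C4 * u)
    (H0 : Hz n K m b w l0 (C4 * u) (d * u) κ B0) (H1 : Hz n K m b w l1 (C4 * u) (d * u) κ B0)
    (hκθ : κ + B0 / n ≤ C4 * u)
    (hβ : 1 ≤ β) (hu : 0 < u) (hs : 0 ≤ s) (hsu : s * u ^ 2 ≤ 1 / 2)
    (hh : -1 ≤ H479.alU n K m b w β u q * u ^ 2)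
    (hB : bt2 n b l0 = β ^ 2 * (1 - s * u ^ 2))
    (hBe : bt2 n b l1 - bt2 n b l0 = β ^ 2 * (e * u ^ 2)) (he : 0 < e) (he1 : e ≤ 1)
    (hv : 1 / 2 ≤ v) (hmq : m q = v * u) (hε : 0 < ε) (hε1 : ε ≤ 1) (hk : 0 ≤ k)
    (hκ : κ ≤ k * u ^ 3) (hE : eT n (C4 * u) (d * u) κ B0 γ π R t δ ≤ x * u ^ 3)
    (c1 : C4 ^ 2 * β ^ 2 * u ^ 2 ≤ ε / 200) (c2 : x ≤ ε ^ 2 * e / 400) :
    H479.Rq n K m b w l0 / u ≤
      2 * max (H479.alU n K m b w β u q - s) 0 / (β * (1 - s * u ^ 2) * v) +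
        (9 * ε + √(384 * k)) := by
  obtain ⟨E3, E5⟩ := E35 (β := β) (θ := C4 * u) hu he he1 hε hε1 rfl c1 hE c2
  exact perF' hm hn ha hal hll hlq hq G0 G1 ht ht1 hδ hvθ hmK hρ H0 H1 hκθ hβ hu hs hsu hh hB hBe
    he hv hmq hk hκ hε E3 E5

end sk

end Vale.Agent.P146.H877x
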