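import Vale.Agent.P146.H877x.RowV

/-!
# P146: the U-side in one number, one good level and two good levels (helper877)

`uside_sk`: `χ (v β_l² ρ² + G) ≤ (β_l² χ² - 1) ρ + C (ρ³ + D θ² + θ⁴ + κ) + eT`;
`ur_sk`: at the earlier of two good levels `ρ ≤ r_*` or
`χ v β² ρ² ≤ (2 (β² χ² - 1)₊ + 6 e) ρ + 3 (FdA - χ G)₊`.
-/

open MeasureTheory ProbabilityTheory

namespace Vale.Agent.P146.H877x

open Vale.Agent.P157 Vale.Agent.P157.Lv Vale.Agent.P157.Lv.Sy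
open Vale.Agent.P146.H425 Vale.Agent.P146.H985
open Vale.Agent.P146.H93 (Cd st am aSK skS Em linS_sk)
open Vale.Agent.P146.H379.Row Vale.Agent.P146.H946
open Vale.Agent.P146.H295 (spn zs)

set_option linter.unusedSectionVars false

/-- the error, one number: `g` bounds the variances of the responses, `π` is below the gaps, `R`
below the squares of the fields, `t` is free. -/
noncomputable def eT (n : ℕ) (θ D κ B0 g π R t δ : ℝ) : ℝ :=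
  KV ^ 2 * (1000000000000 * B0 ^ 5) * (g / π + θ / (n * R) + (D * θ ^ 2 + θ ^ 4 + κ * θ ^ 2) / t +
    (t * θ ^ 3 + κ * θ) + 1 / n + δ * θ ^ 2)

section num

lemma eT_nonneg {n : ℕ} {θ D κ B0 g π R t δ : ℝ} (θ0 : 0 ≤ θ) (D0 : 0 ≤ D) (κ0 : 0 ≤ κ)
    (B1 : 0 ≤ B0) (g0 : 0 ≤ g) (π0 : 0 ≤ π) (R0 : 0 ≤ R) (t0 : 0 ≤ t) (δ0 : 0 ≤ δ) :
    0 ≤ eT n θ D κ B0 g π R t δ := by
  unfold eT
  positivity

/-- the error of a row against `eT` -/
lemma eV_le {n l : ℕ} {m w : ℕ → ℝ} {θ D κ B0 g0 g1 g π R t δ : ℝ} (hn : 0 < n)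
    (θ0 : 0 < θ) (_θ1 : θ ≤ 1) (D0 : 0 < D) (κ0 : 0 ≤ κ) (B1 : 1 ≤ B0) (hg0 : g0 ≤ g)
    (hg1 : g1 ≤ g) (h0 : 0 ≤ g0) (h1 : 0 ≤ g1) (hπ : 0 < π) (hp : π ≤ m (l + 1) - m l)
    (hR : 0 < R) (hw : R ≤ w (l + 1) ^ 2) (ht : 0 < t) (ht1 : t ≤ 1) (hδ : 0 ≤ δ) :
    4 * eV n m w l θ D κ B0 g0 g1 t δ ≤ eT n θ D κ B0 g π R t δ := by
  have hn' : (0 : ℝ) < n := by exact_mod_cast hn
  have K1 := KV_one
  have hg : 0 ≤ g := h0.trans hg0
  have e1 : (g1 + √(g0 * g1)) / (m (l + 1) - m l) ≤ 2 * (g / π) := by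
    have h2 : √(g0 * g1) ≤ g := by
      rw [Real.sqrt_le_left hg]
      rw [sq]
      exact mul_le_mul hg0 hg1 h1 hg
    rw [show 2 * (g / π) = (2 * g) / π by ring]
    exact div_le_div₀ (by linarith) (by linarith) hπ hp
  have e2 : θ / (n * w (l + 1) ^ 2) ≤ θ / (n * R) :=
    div_le_div_of_nonneg_left θ0.le (by positivity) (mul_le_mul_of_nonneg_left hw hn'.le)
  have e3 : (κ * θ) * t ≤ κ * θ := mul_le_of_le_one_right (by positivity) ht1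
  have q1 : 0 ≤ g / π := by positivity
  have q2 : 0 ≤ θ / (n * R) := by positivity
  have q3 : 0 ≤ (D * θ ^ 2 + θ ^ 4 + κ * θ ^ 2) / t := by positivity
  have q4 : 0 ≤ t * θ ^ 3 := by positivity
  have q5 : 0 ≤ κ * θ := by positivity
  have q6 : (0 : ℝ) ≤ 1 / n := by positivity
  have q7 : 0 ≤ δ * θ ^ 2 := by positivity
  have e4 : D * θ ^ 2 ≤ (D * θ ^ 2 + θ ^ 4 + κ * θ ^ 2) / t := by
    rw [le_div_iff₀ ht]
    have h3 : D * θ ^ 2 * t ≤ D * θ ^ 2 := mul_le_of_le_one_right (by positivity) ht1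
    have h4 : 0 ≤ θ ^ 4 + κ * θ ^ 2 := by positivity
    linarith
  have K2 : 1 ≤ KV ^ 2 := K1
  have B3 : B0 ^ 3 ≤ B0 ^ 5 := pow_le_pow_right₀ B1 (by norm_num)
  have B4 : B0 ≤ B0 ^ 5 := by
    calc B0 = B0 ^ 1 := (pow_one _).symm
      _ ≤ _ := pow_le_pow_right₀ B1 (by norm_num)
  unfold eV eU eT
  set x1 := (g1 + √(g0 * g1)) / (m (l + 1) - m l)
  set x2 := θ / (n * w (l + 1) ^ 2)
  set y1 := g / π
  set y2 := θ / (n * R)
  set y3 := (D * θ ^ 2 + θ ^ 4 + κ * θ ^ 2) / t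
  set y6 := (1 : ℝ) / n
  have s1 : x1 + x2 + y3 + t * (θ ^ 3 + κ * θ) + y6 ≤
      2 * (y1 + y2 + y3 + (t * θ ^ 3 + κ * θ) + y6) := by
    have : t * (θ ^ 3 + κ * θ) = t * θ ^ 3 + (κ * θ) * t := by ring
    linarith
  have s0 : 0 ≤ y1 + y2 + y3 + (t * θ ^ 3 + κ * θ) + y6 := by positivity
  have s2 : KV ^ 2 * (300 * B0 ^ 3) * (x1 + x2 + y3 + t * (θ ^ 3 + κ * θ) + y6) ≤
      KV ^ 2 * B0 ^ 5 * (600 * (y1 + y2 + y3 + (t * θ ^ 3 + κ * θ) + y6)) := by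
    calc _ ≤ KV ^ 2 * (300 * B0 ^ 3) * (2 * (y1 + y2 + y3 + (t * θ ^ 3 + κ * θ) + y6)) :=
          mul_le_mul_of_nonneg_left s1 (by positivity)
      _ = KV ^ 2 * B0 ^ 3 * (600 * (y1 + y2 + y3 + (t * θ ^ 3 + κ * θ) + y6)) := by ring
      _ ≤ _ := by
          refine mul_le_mul_of_nonneg_right ?_ (by positivity)
          exact mul_le_mul_of_nonneg_left B3 (by positivity)
  have s3 : B0 * (8 * δ * θ ^ 2 + 2 * D * θ ^ 2) ≤
      KV ^ 2 * B0 ^ 5 * (8 * (δ * θ ^ 2) + 2 * y3) := by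
    have h5 : 8 * δ * θ ^ 2 + 2 * D * θ ^ 2 ≤ 8 * (δ * θ ^ 2) + 2 * y3 := by linarith
    have h6 : B0 ≤ KV ^ 2 * B0 ^ 5 := by
      calc B0 = 1 * B0 := (one_mul _).symm
        _ ≤ _ := mul_le_mul K2 B4 (by linarith) (by positivity)
    exact mul_le_mul h6 h5 (by positivity) (by positivity)
  have P0 : 0 ≤ KV ^ 2 * B0 ^ 5 := by positivity
  have P1 := mul_nonneg P0 q1
  have P2 := mul_nonneg P0 q2
  have P3 := mul_nonneg P0 q3
  have P4 := mul_nonneg P0 q4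
  have P5 := mul_nonneg P0 q5
  have P6 := mul_nonneg P0 q6
  have P7 := mul_nonneg P0 q7
  have s4 : KV ^ 2 * (1000000000000 * B0 ^ 5) * (y1 + y2 + y3 + (t * θ ^ 3 + κ * θ) + y6 +
      δ * θ ^ 2) = 1000000000000 * (KV ^ 2 * B0 ^ 5 * y1 + KV ^ 2 * B0 ^ 5 * y2 +
      KV ^ 2 * B0 ^ 5 * y3 + (KV ^ 2 * B0 ^ 5 * (t * θ ^ 3) + KV ^ 2 * B0 ^ 5 * (κ * θ)) +
      KV ^ 2 * B0 ^ 5 * y6 + KV ^ 2 * B0 ^ 5 * (δ * θ ^ 2)) := by ring
  rw [s4]
  nlinarith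

/-- the error of the third chaos against `eT` -/
lemma e3_le {n K l : ℕ} {m b : ℕ → ℝ} {θ D κ B0 g π R t δ : ℝ} (hn : 0 < n)
    (θ0 : 0 < θ) (θ1 : θ ≤ 1) (D0 : 0 < D) (κ0 : 0 ≤ κ) (B1 : 1 ≤ B0) (hB : bt2 n b l ≤ B0)
    (hm0 : 0 ≤ m K) (hmK : m K ≤ 2 * θ) (hg : 0 ≤ g) (hπ : 0 < π) (hR : 0 < R) (ht : 0 < t)
    (ht1 : t ≤ 1) (hδ : 0 ≤ δ) :
    H508.e3 n K m b l θ D (κ + B0 / n) ≤ 3 * eT n θ D κ B0 g π R t δ := by
  have hn' : (0 : ℝ) < n := by exact_mod_cast hn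
  have K1 := KV_one
  have K2 : 1 ≤ KV ^ 2 := K1
  have hB0 := bt2_nonneg n b l
  have a1 : (1 + bt2 n b l) ^ 4 ≤ 16 * B0 ^ 4 := by
    have h1 : 1 + bt2 n b l ≤ 2 * B0 := by linarith
    calc (1 + bt2 n b l) ^ 4 ≤ (2 * B0) ^ 4 := pow_le_pow_left₀ (by linarith) h1 4
      _ = _ := by ring
  have q1 : 0 ≤ g / π := by positivity
  have q2 : 0 ≤ θ / (n * R) := by positivity
  have q3 : 0 ≤ (D * θ ^ 2 + θ ^ 4 + κ * θ ^ 2) / t := by positivity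
  have q4 : 0 ≤ t * θ ^ 3 := by positivity
  have q5 : 0 ≤ κ * θ := by positivity
  have q6 : (0 : ℝ) ≤ 1 / n := by positivity
  have q7 : 0 ≤ δ * θ ^ 2 := by positivity
  have e4 : D * θ ^ 2 + θ ^ 4 + κ * θ ^ 2 ≤ (D * θ ^ 2 + θ ^ 4 + κ * θ ^ 2) / t := by
    rw [le_div_iff₀ ht]
    exact mul_le_of_le_one_right (by positivity) ht1
  have e5 : m K * θ ^ 3 ≤ 2 * θ ^ 4 := by
    calc m K * θ ^ 3 ≤ (2 * θ) * θ ^ 3 := mul_le_mul_of_nonneg_right hmK (by positivity)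
      _ = _ := by ring
  have e6 : (κ + B0 / n) * θ ^ 2 ≤ κ * θ ^ 2 + B0 * (1 / n) := by
    have h1 : B0 / n * θ ^ 2 ≤ B0 / n * 1 :=
      mul_le_mul_of_nonneg_left (by nlinarith) (by positivity)
    have h2 : B0 / n * 1 = B0 * (1 / n) := by ring
    linarith [show (κ + B0 / n) * θ ^ 2 = κ * θ ^ 2 + B0 / n * θ ^ 2 by ring]
  set y3 := (D * θ ^ 2 + θ ^ 4 + κ * θ ^ 2) / t with hy3
  set y6 := (1 : ℝ) / n with hy6
  have s1 : D * θ ^ 2 + m K * θ ^ 3 + θ ^ 4 + (κ + B0 / n) * θ ^ 2 ≤ B0 * (3 * y3 + y6) := by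
    have h1 : 0 ≤ D * θ ^ 2 := by positivity
    have h2 : 0 ≤ θ ^ 4 := by positivity
    have h3 : 0 ≤ κ * θ ^ 2 := by positivity
    have h4 : 3 * y3 ≤ B0 * (3 * y3) := le_mul_of_one_le_left (by positivity) B1
    linarith [show B0 * (3 * y3 + y6) = B0 * (3 * y3) + B0 * y6 by ring]
  have s0 : 0 ≤ D * θ ^ 2 + m K * θ ^ 3 + θ ^ 4 + (κ + B0 / n) * θ ^ 2 := by positivity
  unfold H508.e3 eT
  calc 50000000000 * (1 + bt2 n b l) ^ 4 *
        (D * θ ^ 2 + m K * θ ^ 3 + θ ^ 4 + (κ + B0 / n) * θ ^ 2) ≤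
        50000000000 * (16 * B0 ^ 4) * (B0 * (3 * y3 + y6)) := by
        refine mul_le_mul (mul_le_mul_of_nonneg_left a1 (by norm_num)) s1 s0 (by positivity)
    _ = B0 ^ 5 * (800000000000 * (3 * y3 + y6)) := by ring
    _ ≤ KV ^ 2 * B0 ^ 5 * (800000000000 * (3 * y3 + y6)) := by
        refine mul_le_mul_of_nonneg_right ?_ (by positivity)
        exact le_mul_of_one_le_left (by positivity) K2
    _ ≤ _ := by
        have P0 : 0 ≤ KV ^ 2 * B0 ^ 5 := by positivity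
        have e7 : 3 * (KV ^ 2 * (1000000000000 * B0 ^ 5) * (g / π + θ / (n * R) + y3 +
            (t * θ ^ 3 + κ * θ) + y6 + δ * θ ^ 2)) = KV ^ 2 * B0 ^ 5 * (3000000000000 *
            (g / π + θ / (n * R) + y3 + (t * θ ^ 3 + κ * θ) + y6 + δ * θ ^ 2)) := by ring
        rw [e7]
        exact mul_le_mul_of_nonneg_left (by linarith) P0

end num

section sk

variable {n K : ℕ} {m b w : ℕ → ℝ} {l l0 l1 a q : ℕ} {θ D κ B0 δ g π R t : ℝ}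

/-- a good level: gap `≥ π`, field variance `≥ R` at the next level, response variances `≤ g` at the
level and at the next one -/
structure Gd (n K : ℕ) (m b w : ℕ → ℝ) (l : ℕ) (g π R : ℝ) : Prop where
  l1 : 1 ≤ l
  lK : l < K
  w0 : 0 < w l
  w1 : 0 < w (l + 1)
  π0 : 0 < π
  gap : π ≤ m (l + 1) - m l
  R0 : 0 < R
  fld : R ≤ w (l + 1) ^ 2
  g0 : H295.gg (skS n K m b w) (spn n) (zs (by omega)) w l l ≤ g
  g1 : H295.gg (skS n K m b w) (spn n) (zs (by omega)) w (l + 1) (l + 1) ≤ g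

lemma Gd.gg0 (hm : Em K m) (hn : 0 < n) (G : Gd n K m b w l g π R) :
    0 ≤ H295.gg (skS n K m b w) (spn n) (zs (by have := G.lK; omega)) w l l ∧
    0 ≤ H295.gg (skS n K m b w) (spn n) (zs (by have := G.lK; omega)) w (l + 1) (l + 1) := by
  have hl := G.lK
  have hl1 := G.l1
  have hK : 0 < K := by omega
  set P : ℕ → Prop := fun p => p = l ∨ p = l + 1 with hP
  have hP1 : ∀ p, P p → 1 ≤ p := fun p h => by rcases h with h | h <;> omega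
  have hPw : ∀ p ≤ K, P p → 0 < w p := fun p _ h => by
    rcases h with h | h
    · rw [h]; exact G.w0
    · rw [h]; exact G.w1
  have hG := H295.gp_sk hn hK hm b w hP1 hPw
  exact ⟨H498.Row.gg_nonneg hG (l := l) hl.le (Or.inl rfl),
    H498.Row.gg_nonneg hG (l := l + 1) hl (Or.inr rfl)⟩

lemma Gd.gnn (hm : Em K m) (hn : 0 < n) (G : Gd n K m b w l g π R) : 0 ≤ g :=
  (G.gg0 hm hn).1.trans G.g0

/-- **The row at a good level, one error number.** `v = m q`, `χ = ch (q - 1)`. -/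
theorem rowW (hm : Em K m) (i : Fin n) (ha : 1 ≤ a) (hal : a ≤ l) (hlq : l < q) (hq : q ≤ K)
    (G : Gd n K m b w l g π R) (ht : 0 < t) (ht1 : t ≤ 1)
    (hδ : m q - m a ≤ δ) (hvθ : m q ≤ θ) (hρ : (skS n K m b w).Rl H325.sp (q - 1) ≤ θ)
    (H : Hz n K m b w l θ D κ B0) :
    |NL K m b w l i + FdA n K m b w l -
      ((skS n K m b w).Rl H325.sp l * (1 - bt2 n b l * ch n K m b w (q - 1) ^ 2) +
        ch n K m b w (q - 1) * (m q * bt2 n b l * (skS n K m b w).Rl H325.sp l ^ 2 +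
          Gs n K m b w a))| ≤ eT n θ D κ B0 g π R t δ / 4 := by
  have hn : 0 < n := by
    have := i.2
    omega
  obtain ⟨q0, q1⟩ := G.gg0 hm hn
  have hmm : m l < m (l + 1) := by linarith [G.gap, G.π0]
  have h1 := rowV hm ha hal hlq hq G.w0 G.w1 hmm i ht ht1 le_rfl le_rfl hδ hvθ hρ H
  have m1 : m a ≤ m q := Em.mono' hm (by omega) (by omega)
  have h2 := eV_le (m := m) (w := w) (l := l) (δ := δ) hn H.θ0 H.θ1 H.D0 H.κ0 H.B1 G.g0 G.g1 q0 q1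
    G.π0 G.gap G.R0 G.fld ht ht1 (by linarith)
  linarith

/-- **The U-side at one good level.** -/
theorem uside_sk (hm : Em K m) (hn : 0 < n) (ha : 1 ≤ a) (hal : a ≤ l) (hlq : l < q) (hq : q ≤ K)
    (G : Gd n K m b w l g π R) (ht : 0 < t) (ht1 : t ≤ 1)
    (hδ : m q - m a ≤ δ) (hvθ : m q ≤ θ) (hρ : (skS n K m b w).Rl H325.sp (q - 1) ≤ θ)
    (H : Hz n K m b w l θ D κ B0) :
    ch n K m b w (q - 1) * (m q * bt2 n b l * (skS n K m b w).Rl H325.sp l ^ 2 +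
        Gs n K m b w a) ≤
      (bt2 n b l * ch n K m b w (q - 1) ^ 2 - 1) * (skS n K m b w).Rl H325.sp l +
      KV ^ 2 * (60 * B0 ^ 3) * ((skS n K m b w).Rl H325.sp l ^ 3 + D * θ ^ 2 + θ ^ 4 + κ) +
      FdA n K m b w l + eT n θ D κ B0 g π R t δ := by
  have h1 := rowW hm ⟨0, hn⟩ ha hal hlq hq G ht ht1 hδ hvθ hρ H
  have h2 := NLU hm (by have := G.lK; omega) G.lK.le ⟨0, hn⟩ H
  have h3 := (abs_le.1 h1).1
  have h4 : 0 ≤ eT n θ D κ B0 g π R t δ := by linarith [(abs_nonneg _).trans h1]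
  linarith

/-- the second moments below a good level -/
theorem Tt_le_good (hm : Em K m) (hn : 0 < n) (hK : 0 < K) {j : ℕ} (hj : j ≤ l) (hl : l ≤ K)
    (H : Hz n K m b w l θ D κ B0) :
    0 ≤ Tt (skS n K m b w) j ∧
      Tt (skS n K m b w) j ≤ (skS n K m b w).Rl H325.sp l ^ 2 + D ^ 2 := by
  have hS : (skS n K m b w).Reg := (linS_sk hm b w).reg
  have hlK : l ≤ (skS n K m b w).K := hl
  have F := H295.fldP_sk hn hK hm b w (P := fun _ => False) (fun _ h => h.elim)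
  refine ⟨H508.Tt_nonneg hS (hj.trans hlK), (H508.Tt_mono hS hj hlK).trans ?_⟩
  rw [Tt_eq hm hn hl]
  have h1 := H.h2
  set S := skS n K m b w with hSd
  have e1 : (fun x y => (Rov H325.sp x y - S.Rl H325.sp l) ^ 2) = fun x y : Fin n → ℤˣ =>
      (Rov H325.sp x y ^ 2 + (-2 * S.Rl H325.sp l) * Rov H325.sp x y) +
        S.Rl H325.sp l ^ 2 := by
    funext x y
    ring
  rw [e1, hS.pairEx_add hlK (fun x y => Rov H325.sp x y ^ 2 +
    (-2 * S.Rl H325.sp l) * Rov H325.sp x y) (fun _ _ => S.Rl H325.sp l ^ 2),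
    hS.pairEx_add hlK (fun x y => Rov H325.sp x y ^ 2)
    (fun x y => (-2 * S.Rl H325.sp l) * Rov H325.sp x y), hS.pairEx_const_mul,
    hS.pairEx_const hlK] at h1
  have e2 : S.Rl H325.sp l = S.pairEx l (Rov H325.sp) := F.Rl_eq_pairEx hlK
  have e3 : S.pairEx l (fun x y => Rov H325.sp x y) = S.Rl H325.sp l := e2.symm
  rw [e3] at h1
  linarith

end sk

end Vale.Agent.P146.H877x
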