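import Vale.Agent.P146.H877x.RowW

/-!
# P146: two good levels (helper877)

`ur_sk`: at the earlier of two good levels with bonds between them, `ρ ≤ r_*` or
`χ v β² ρ² ≤ (2 (β² χ² - 1)₊ + 6 e) ρ + 3 (FdA - χ G)₊`.
-/

open MeasureTheory ProbabilityTheory

namespace Vale.Agent.P146.H877x

open Vale.Agent.P157 Vale.Agent.P157.Lv Vale.Agent.P157.Lv.Sy
open Vale.Agent.P146.H425 Vale.Agent.P146.H985
open Vale.Agent.P146.H93 (Cd st am aSK skS Em linS_sk)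
open Vale.Agent.P146.H379.Row Vale.Agent.P146.H946
open Vale.Agent.P146.H295 (spn zs)

set_option linter.unusedSectionVars false

/-- two rows with numbers -/
theorem ur_num {ρ0 ρ1 B b1 X v G N0 N1 F0 F1 E Z θ rs : ℝ}
    (h0 : |N0 + F0 - (ρ0 * (1 - B * X ^ 2) + X * (v * B * ρ0 ^ 2 + G))| ≤ E / 4)
    (h1 : |N1 + F1 - (ρ1 * (1 - b1 * X ^ 2) + X * (v * b1 * ρ1 ^ 2 + G))| ≤ E / 4)
    (hF : F0 ≤ F1 + E / 4) (hr : 0 < rs) (hr0 : rs < ρ0) (h01 : ρ0 ≤ ρ1) (hρθ : ρ1 ≤ θ)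
    (hB : 0 < B) (hBb : B ≤ b1) (_X0 : 0 ≤ X) (X1 : X ≤ 1) (v0 : 0 ≤ v) (vθ : v ≤ θ)
    (hN1 : 0 ≤ N1) (hZ : Z ≤ 6 * E)
    (hc : N0 / ρ0 ≤ (B * ρ0 / (b1 * ρ1)) ^ 2 * (N1 / ρ1) + Z / (6 * ρ0))
    (h12 : 12 * (θ ^ 2 * (b1 - B) + 2 * E / rs) < (b1 - B) * X ^ 2) :
    X * v * B * ρ0 ^ 2 ≤ (2 * max (B * X ^ 2 - 1) 0 +
      6 * (θ ^ 2 * (b1 - B) + 2 * E / rs)) * ρ0 + 3 * max (F0 - X * G) 0 := by
  have ρ0p : 0 < ρ0 := hr.trans hr0
  have ρ1p : 0 < ρ1 := ρ0p.trans_le h01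
  have hE : 0 ≤ E := by linarith [(abs_nonneg _).trans h0]
  have θ0 : 0 ≤ θ := v0.trans vθ
  have hb1 : 0 < b1 := hB.trans_le hBb
  have hEr : ∀ c : ℝ, 0 ≤ c → c * E / ρ0 ≤ c * (E / rs) := by
    intro c hc
    rw [mul_div_assoc]
    exact mul_le_mul_of_nonneg_left (div_le_div_of_nonneg_left hE hr hr0.le) hc
  have hEr0 : 0 ≤ E / rs := by positivity
  have e2 : 2 * E / rs = 2 * (E / rs) := by ring
  have hθB : 0 ≤ θ ^ 2 * (b1 - B) := mul_nonneg (sq_nonneg _) (by linarith)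
  set e := θ ^ 2 * (b1 - B) + 2 * E / rs with he
  set F := F0 - X * G with hFd
  set c0 := X * v * B * ρ1 - F / ρ1 - (b1 * X ^ 2 - 1) with hc0
  have g0 : |(b1 * X ^ 2 - 1) - 0 - (X * v * B * ρ1 - c0 - F / ρ1)| ≤ e := by
    have e3 : (b1 * X ^ 2 - 1) - 0 - (X * v * B * ρ1 - c0 - F / ρ1) = 0 := by
      rw [hc0]; ring
    rw [e3, abs_zero]
    linarith
  have g1 : |(b1 * X ^ 2 - 1) - (b1 - B) * X ^ 2 -
      (X * v * B * ρ0 - N0 / ρ0 - F / ρ0)| ≤ e := by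
    have e3 : (b1 * X ^ 2 - 1) - (b1 - B) * X ^ 2 - (X * v * B * ρ0 - N0 / ρ0 - F / ρ0) =
        (N0 + F0 - (ρ0 * (1 - B * X ^ 2) + X * (v * B * ρ0 ^ 2 + G))) / ρ0 := by
      rw [hFd]
      field_simp
      ring
    rw [e3, abs_div, abs_of_pos ρ0p, div_le_iff₀ ρ0p]
    refine h0.trans ?_
    have h3 : E / rs * ρ0 ≥ E := by
      rw [ge_iff_le, div_mul_eq_mul_div, le_div_iff₀ hr]
      exact mul_le_mul_of_nonneg_left hr0.le hE
    have h4 : e * ρ0 = θ ^ 2 * (b1 - B) * ρ0 + 2 * (E / rs * ρ0) := by rw [he, e2]; ring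
    have h5 : 0 ≤ θ ^ 2 * (b1 - B) * ρ0 := mul_nonneg hθB ρ0p.le
    linarith
  have g2 : N0 / ρ0 ≤ (ρ0 / ρ1) ^ 2 * c0 + e := by
    have hq0 : 0 ≤ ρ0 / ρ1 := by positivity
    have hq1 : ρ0 / ρ1 ≤ 1 := (div_le_one ρ1p).2 h01
    have a1 : (B * ρ0 / (b1 * ρ1)) ^ 2 * (N1 / ρ1) ≤ (ρ0 / ρ1) ^ 2 * (N1 / ρ1) := by
      refine mul_le_mul_of_nonneg_right ?_ (by positivity)
      refine pow_le_pow_left₀ (by positivity) ?_ 2
      rw [mul_div_mul_comm]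
      exact mul_le_of_le_one_left hq0 ((div_le_one hb1).2 hBb)
    have a2 : N1 / ρ1 ≤ c0 + (θ ^ 2 * (b1 - B) + E / 2 / ρ1) := by
      have h3 := (abs_le.1 h1).2
      have h4 : X * v * (b1 - B) * ρ1 ^ 2 ≤ θ ^ 2 * (b1 - B) * ρ1 := by
        have h5 : X * v ≤ θ := by
          calc X * v ≤ 1 * θ := mul_le_mul X1 vθ v0 zero_le_one
            _ = θ := one_mul _
        have h6 : X * v * ρ1 ≤ θ * θ := mul_le_mul h5 hρθ ρ1p.le θ0
        have h7 : 0 ≤ (b1 - B) * ρ1 := mul_nonneg (by linarith) ρ1p.le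
        calc X * v * (b1 - B) * ρ1 ^ 2 = (X * v * ρ1) * ((b1 - B) * ρ1) := by ring
          _ ≤ (θ * θ) * ((b1 - B) * ρ1) := mul_le_mul_of_nonneg_right h6 h7
          _ = _ := by ring
      rw [div_le_iff₀ ρ1p]
      have e4 : (c0 + (θ ^ 2 * (b1 - B) + E / 2 / ρ1)) * ρ1 =
          X * v * B * ρ1 ^ 2 - F - (b1 * X ^ 2 - 1) * ρ1 + θ ^ 2 * (b1 - B) * ρ1 + E / 2 := by
        rw [hc0]
        field_simp
        ring
      rw [e4, hFd]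
      have e5 : ρ1 * (1 - b1 * X ^ 2) + X * (v * b1 * ρ1 ^ 2 + G) =
        X * v * B * ρ1 ^ 2 + X * v * (b1 - B) * ρ1 ^ 2 + X * G - (b1 * X ^ 2 - 1) * ρ1 := by ring
      rw [e5] at h3
      linarith
    have a3 : Z / (6 * ρ0) ≤ E / ρ0 := by
      rw [div_le_div_iff₀ (by positivity) ρ0p]
      nlinarith
    have a4 : (ρ0 / ρ1) ^ 2 * (N1 / ρ1) ≤ (ρ0 / ρ1) ^ 2 * c0 + (θ ^ 2 * (b1 - B) + E / 2 / ρ1) := by
      have h3 := mul_le_mul_of_nonneg_left a2 (sq_nonneg (ρ0 / ρ1))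
      have h4 : (ρ0 / ρ1) ^ 2 * (θ ^ 2 * (b1 - B) + E / 2 / ρ1) ≤
          θ ^ 2 * (b1 - B) + E / 2 / ρ1 :=
        mul_le_of_le_one_left (add_nonneg hθB (by positivity)) (pow_le_one₀ hq0 hq1)
      linarith [mul_add ((ρ0 / ρ1) ^ 2) c0 (θ ^ 2 * (b1 - B) + E / 2 / ρ1)]
    have a5 : E / 2 / ρ1 ≤ E / 2 / ρ0 := div_le_div_of_nonneg_left (by linarith) ρ0p h01
    have a6 : E / ρ0 ≤ E / rs := div_le_div_of_nonneg_left hE hr hr0.le
    have a7 : E / 2 / ρ0 = 1 / 2 * (E / ρ0) := by ring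
    rw [he, e2]
    linarith
  have h := H508.ur_two (y := X * v * B) ρ0p h01 g0 g1 g2 (by rw [sub_zero]; exact h12)
  have e6 : b1 * X ^ 2 - 1 - (b1 - B) * X ^ 2 = B * X ^ 2 - 1 := by ring
  rw [e6] at h
  exact h

section sk

variable {n K : ℕ} {m b w : ℕ → ℝ} {l l0 l1 a q : ℕ} {θ D κ B0 δ g π R t : ℝ}

lemma Hz.hy (hm : Em K m) (hn : 0 < n) (hK : 0 < K) (hl : l ≤ K)
    (H : Hz n K m b w l θ D κ B0) (hκθ : κ + B0 / n ≤ θ) :
    H508.Hy n K m b w l θ D ((skS n K m b w).Rl H325.sp l) (κ + B0 / n) := by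
  have hn' : (0 : ℝ) < n := by exact_mod_cast hn
  obtain ⟨r0, r1, q2, q1, q3⟩ := H.mom hm hn hK hl
  have e1 : H508.sw w l = SB w l := by
    unfold H508.sw SB
    rw [Fin.sum_univ_eq_sum_range (fun q => w (q + 1) ^ 2) l]
  refine ⟨?_, hκθ, H.θ0, H.θ1, H.D0, r0, r1, ?_, H.h4, H.h2⟩
  · have := H.κ0
    have := H.B1
    positivity
  · rw [e1]
    exact add_le_add H.κw (div_le_div_of_nonneg_right H.bB hn'.le)

/-- **Two good levels.** -/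
theorem ur_sk (hm : Em K m) (hn : 0 < n) (ha : 1 ≤ a) (hal : a ≤ l0) (hll : l0 < l1)
    (hlq : l1 < q) (hq : q ≤ K)
    (G0 : Gd n K m b w l0 g π R) (G1 : Gd n K m b w l1 g π R) (ht : 0 < t) (ht1 : t ≤ 1)
    (hδ : m q - m a ≤ δ) (hvθ : m q ≤ θ) (hmK : m K ≤ 2 * θ)
    (hρ : (skS n K m b w).Rl H325.sp (q - 1) ≤ θ)
    (H0 : Hz n K m b w l0 θ D κ B0) (H1 : Hz n K m b w l1 θ D κ B0) (hκθ : κ + B0 / n ≤ θ)
    (hB : 0 < bt2 n b l0) {rs : ℝ} (hrs : 0 < rs)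
    (h12 : 12 * (θ ^ 2 * (bt2 n b l1 - bt2 n b l0) + 2 * eT n θ D κ B0 g π R t δ / rs) <
      (bt2 n b l1 - bt2 n b l0) * ch n K m b w (q - 1) ^ 2) :
    (skS n K m b w).Rl H325.sp l0 ≤ rs ∨
      ch n K m b w (q - 1) * m q * bt2 n b l0 * (skS n K m b w).Rl H325.sp l0 ^ 2 ≤
      (2 * max (bt2 n b l0 * ch n K m b w (q - 1) ^ 2 - 1) 0 +
        6 * (θ ^ 2 * (bt2 n b l1 - bt2 n b l0) + 2 * eT n θ D κ B0 g π R t δ / rs)) *
          (skS n K m b w).Rl H325.sp l0 +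
        3 * max (FdA n K m b w l0 - ch n K m b w (q - 1) * Gs n K m b w a) 0 := by
  rcases le_or_gt ((skS n K m b w).Rl H325.sp l0) rs with h | h
  · exact Or.inl h
  right
  have hK : 0 < K := by omega
  have hn' : (0 : ℝ) < n := by exact_mod_cast hn
  have F := H295.fldP_sk hn hK hm b w (P := fun _ => False) (fun _ h => h.elim)
  have h01 : (skS n K m b w).Rl H325.sp l0 ≤ (skS n K m b w).Rl H325.sp l1 :=
    H607.Rl_mono F hll.le (show l1 ≤ (skS n K m b w).K by show l1 ≤ K; omega)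
  obtain ⟨r0, r1, q2, q1, q3⟩ := H1.mom hm hn hK G1.lK.le
  have w0 := rowW hm ⟨0, hn⟩ ha hal (by omega : l0 < q) hq G0 ht ht1 hδ hvθ hρ H0
  have w1 := rowW hm ⟨0, hn⟩ ha (by omega : a ≤ l1) hlq hq G1 ht ht1 hδ hvθ hρ H1
  have hmono := FdA_mono hm hK hn hll.le G1.lK.le H1
    ((Em.mono' hm (by omega : l0 + 1 ≤ q) (by omega)).trans hvθ)
  have κ0 := H1.κ0
  have B1 := H1.B1
  have θ0 := H1.θ0
  have K1 := KV_one
  have hκ : κ ≤ θ := by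
    have : 0 ≤ B0 / n := by positivity
    linarith
  have m1 : m a ≤ m q := Em.mono' hm (by omega) (by omega)
  have hδ0 : 0 ≤ δ := by linarith
  have hg := G0.gnn hm hn
  have hEF : KV ^ 2 * (60 * B0) * κ * (θ + κ) ≤ eT n θ D κ B0 g π R t δ / 4 := by
    have s1 : κ * (θ + κ) ≤ 2 * (κ * θ) := by nlinarith
    have B4 : B0 ≤ B0 ^ 5 := by
      calc B0 = B0 ^ 1 := (pow_one _).symm
        _ ≤ _ := pow_le_pow_right₀ B1 (by norm_num)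
    have hπ := G0.π0
    have hR := G0.R0
    have D0 := H1.D0
    have q1' : 0 ≤ g / π := by positivity
    have q2' : 0 ≤ θ / (n * R) := by positivity
    have q3' : 0 ≤ (D * θ ^ 2 + θ ^ 4 + κ * θ ^ 2) / t := by positivity
    have q4' : 0 ≤ t * θ ^ 3 := by positivity
    have q5' : 0 ≤ κ * θ := by positivity
    have q6' : (0 : ℝ) ≤ 1 / n := by positivity
    have q7' : 0 ≤ δ * θ ^ 2 := by positivity
    unfold eT
    calc KV ^ 2 * (60 * B0) * κ * (θ + κ) = KV ^ 2 * (60 * B0) * (κ * (θ + κ)) := by ring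
      _ ≤ KV ^ 2 * (60 * B0 ^ 5) * (2 * (κ * θ)) := by
          refine mul_le_mul ?_ s1 (by positivity) (by positivity)
          exact mul_le_mul_of_nonneg_left (by linarith) (by positivity)
      _ = KV ^ 2 * (1000000000000 * B0 ^ 5) * (120 / 1000000000000 * (κ * θ)) := by ring
      _ ≤ KV ^ 2 * (1000000000000 * B0 ^ 5) * ((g / π + θ / (n * R) +
            (D * θ ^ 2 + θ ^ 4 + κ * θ ^ 2) / t + (t * θ ^ 3 + κ * θ) + 1 / n + δ * θ ^ 2) / 4) := by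
          refine mul_le_mul_of_nonneg_left ?_ (by positivity)
          linarith
      _ = _ := by ring
  have hm0 : 0 ≤ m K := by
    have := hm.pos
    have := Em.mono' hm (show 1 ≤ K by omega) (show K ≤ K + 1 by omega)
    linarith
  have y0 := H0.hy hm hn hK G0.lK.le hκθ
  have y1 := H1.hy hm hn hK G1.lK.le hκθ
  have hcub := H508.cub_sk hm (show 1 ≤ K by omega) hll.le G1.lK.le ⟨0, hn⟩ y0 y1 hB
    (hrs.trans h) h01
  have z0 := e3_le (m := m) (K := K) (g := g) (π := π) (R := R) (t := t) (δ := δ) hn H0.θ0 H0.θ1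
    H0.D0 H0.κ0 H0.B1 H0.bB hm0 hmK hg G0.π0 G0.R0 ht ht1 hδ0
  have z1 := e3_le (m := m) (K := K) (g := g) (π := π) (R := R) (t := t) (δ := δ) hn H1.θ0 H1.θ1
    H1.D0 H1.κ0 H1.B1 H1.bB hm0 hmK hg G0.π0 G0.R0 ht ht1 hδ0
  obtain ⟨X0, X1⟩ := ch_mem (b := b) (w := w) hm hn (show q - 1 < K by omega)
  have m4 : 0 ≤ m q := by
    have := hm.pos
    have := Em.mono' hm (show 1 ≤ q by omega) (show q ≤ K + 1 by omega)
    linarith
  refine ur_num w0 w1 (hmono.trans (by linarith)) hrs h h01 r1 hB (bt2_mono' n b hll.le)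
    X0 X1 m4 hvθ (H508.NL_sk_nonneg (b := b) (w := w) hm (show 1 ≤ K by omega) G1.lK.le ⟨0, hn⟩)
    (by linarith) hcub h12

end sk

end Vale.Agent.P146.H877x
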