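import Vale.Agent.P146.H985.OddP

/-!
# P146: replica kernels in a layered system (helper877)

`Cl S l κ C h`: the multilinear family `h : (κ → X → ℝ) → (ι → ℝ) → X → ℝ` is
`h f z x = ∑ s, (∏ r, f r (s r)) * θ s z x` with `|θ| ≤ C π`, where `π` is a subprobability kernel
whose `T l`-marginals are at most `pr l`.  Closed under sums, products, bounded factors and the
averages `T i`, `i ≥ l`.
-/

open MeasureTheory ProbabilityTheory

namespace Vale.Agent.P146.H877x

open Vale.Agent.P157 Vale.Agent.P157.Lv Vale.Agent.P157.Lv.Sy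

set_option linter.unusedSectionVars false

variable {ι X : Type} [Fintype ι] [DecidableEq ι] [Fintype X] [DecidableEq X] [Nonempty X]

/-- a replica kernel with its dominating kernel -/
structure Kr (S : Sy ι X) (l : ℕ) (κ : Type) [Fintype κ] [DecidableEq κ] (C : ℝ)
    (θ π : (κ → X) → (ι → ℝ) → X → ℝ) : Prop where
  nθ : ∀ s, Nh (θ s)
  nπ : ∀ s, Nh (π s)
  π0 : ∀ s z x, 0 ≤ π s z x
  π1 : ∀ z x, ∑ s, π s z x ≤ 1
  le : ∀ s z x, |θ s z x| ≤ C * π s z x
  mg : ∀ (r : κ) (t : X) (z : ι → ℝ),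
    S.T l (fun z x => ∑ s, if s r = t then π s z x else 0) z ≤ S.pr l z t

/-- the contraction of a kernel -/
noncomputable def ct {κ : Type} [Fintype κ] [DecidableEq κ] (θ : (κ → X) → (ι → ℝ) → X → ℝ)
    (f : κ → X → ℝ) (z : ι → ℝ) (x : X) : ℝ := ∑ s, (∏ r, f r (s r)) * θ s z x

/-- a contraction family -/
def Cl (S : Sy ι X) (l : ℕ) (κ : Type) [Fintype κ] [DecidableEq κ] (C : ℝ)
    (h : (κ → X → ℝ) → (ι → ℝ) → X → ℝ) : Prop :=
  ∃ θ π, Kr S l κ C θ π ∧ ∀ f z x, h f z x = ct θ f z x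

variable {S : Sy ι X} {l : ℕ} {κ κ' : Type} [Fintype κ] [DecidableEq κ] [Fintype κ']
  [DecidableEq κ'] {C C' : ℝ} {h : (κ → X → ℝ) → (ι → ℝ) → X → ℝ}

lemma nh_congr {f g : (ι → ℝ) → X → ℝ} (hf : Nh f) (h : ∀ z x, g z x = f z x) : Nh g := by
  have e : g = f := by funext z x; exact h z x
  rw [e]; exact hf

lemma nh_ite {p : Prop} [Decidable p] {f : (ι → ℝ) → X → ℝ} (hf : Nh f) :
    Nh fun z x => if p then f z x else 0 := by
  split_ifs
  · exact hf
  · exact Nh.snd fun _ => 0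

lemma Kr.nm {θ π : (κ → X) → (ι → ℝ) → X → ℝ} (h : Kr S l κ C θ π) (r : κ) (t : X) :
    Nh fun z x => ∑ s, if s r = t then π s z x else 0 :=
  Nh.sum _ fun s _ => nh_ite (h.nπ s)

lemma Kr.nct {θ π : (κ → X) → (ι → ℝ) → X → ℝ} (h : Kr S l κ C θ π) (f : κ → X → ℝ) :
    Nh (ct θ f) :=
  Nh.sum _ fun s _ => Nh.const_mul _ (h.nθ s)

lemma Cl.nh {h : (κ → X → ℝ) → (ι → ℝ) → X → ℝ} (hh : Cl S l κ C h) (f : κ → X → ℝ) :
    Nh (h f) := by
  obtain ⟨θ, π, hk, he⟩ := hh
  exact nh_congr (hk.nct f) fun z x => he f z x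

lemma Cl.congr {h g : (κ → X → ℝ) → (ι → ℝ) → X → ℝ} (hh : Cl S l κ C h)
    (e : ∀ f z x, g f z x = h f z x) : Cl S l κ C g := by
  obtain ⟨θ, π, hk, he⟩ := hh
  exact ⟨θ, π, hk, fun f z x => (e f z x).trans (he f z x)⟩

lemma Kr.mono {θ π : (κ → X) → (ι → ℝ) → X → ℝ} (h : Kr S l κ C θ π) (hC : C ≤ C') :
    Kr S l κ C' θ π where
  nθ := h.nθ
  nπ := h.nπ
  π0 := h.π0
  π1 := h.π1
  le s z x := (h.le s z x).trans (mul_le_mul_of_nonneg_right hC (h.π0 s z x))
  mg := h.mg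

lemma Cl.mono {h : (κ → X → ℝ) → (ι → ℝ) → X → ℝ} (hh : Cl S l κ C h) (hC : C ≤ C') :
    Cl S l κ C' h := by
  obtain ⟨θ, π, hk, he⟩ := hh
  exact ⟨θ, π, hk.mono hC, he⟩

lemma Cl.const_mul {h : (κ → X → ℝ) → (ι → ℝ) → X → ℝ} (hh : Cl S l κ C h) (k : ℝ) :
    Cl S l κ (|k| * C) fun f z x => k * h f z x := by
  obtain ⟨θ, π, hk, he⟩ := hh
  refine ⟨fun s z x => k * θ s z x, π, ⟨fun s => Nh.const_mul _ (hk.nθ s), hk.nπ, hk.π0, hk.π1,
    fun s z x => ?_, hk.mg⟩, fun f z x => ?_⟩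
  · rw [abs_mul, mul_assoc]
    exact mul_le_mul_of_nonneg_left (hk.le s z x) (abs_nonneg k)
  · show k * h f z x = _
    rw [he, ct, ct, Finset.mul_sum]
    exact Finset.sum_congr rfl fun s _ => by ring

lemma Kr.mul_bdd {θ π : (κ → X) → (ι → ℝ) → X → ℝ} (h : Kr S l κ C θ π)
    {b : (ι → ℝ) → X → ℝ} (hb : Nh b) (hb1 : ∀ z x, |b z x| ≤ C') :
    Kr S l κ (C' * C) (fun s z x => b z x * θ s z x) π where
  nθ s := Nh.mul hb (h.nθ s)
  nπ := h.nπ
  π0 := h.π0
  π1 := h.π1
  le s z x := by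
    rw [abs_mul, mul_assoc]
    exact mul_le_mul (hb1 z x) (h.le s z x) (abs_nonneg _)
      ((abs_nonneg _).trans (hb1 z x))
  mg := h.mg

/-- multiplication with a bounded function -/
lemma Cl.mul_bdd {h : (κ → X → ℝ) → (ι → ℝ) → X → ℝ} (hh : Cl S l κ C h)
    {b : (ι → ℝ) → X → ℝ} (hb : Nh b) (hb1 : ∀ z x, |b z x| ≤ C') :
    Cl S l κ (C' * C) fun f z x => b z x * h f z x := by
  obtain ⟨θ, π, hk, he⟩ := hh
  refine ⟨_, π, hk.mul_bdd hb hb1, fun f z x => ?_⟩
  show b z x * h f z x = _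
  rw [he, ct, ct, Finset.mul_sum]
  exact Finset.sum_congr rfl fun s _ => by ring

/-- a convex combination of dominating kernels -/
lemma Cl.add_pos (hS : S.Reg) (hl : l ≤ S.K) {h g : (κ → X → ℝ) → (ι → ℝ) → X → ℝ}
    (hC : 0 ≤ C) (hC' : 0 ≤ C') (hs : 0 < C + C') (hh : Cl S l κ C h) (hg : Cl S l κ C' g) :
    Cl S l κ (C + C') fun f z x => h f z x + g f z x := by
  obtain ⟨θ, π, hk, he⟩ := hh
  obtain ⟨θ', π', hk', he'⟩ := hg
  refine ⟨fun s z x => θ s z x + θ' s z x,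
    fun s z x => C / (C + C') * π s z x + C' / (C + C') * π' s z x,
    ⟨fun s => Nh.add (hk.nθ s) (hk'.nθ s),
      fun s => Nh.add (Nh.const_mul _ (hk.nπ s)) (Nh.const_mul _ (hk'.nπ s)),
      fun s z x => add_nonneg (mul_nonneg (by positivity) (hk.π0 s z x))
        (mul_nonneg (by positivity) (hk'.π0 s z x)), fun z x => ?_, fun s z x => ?_,
      fun r t z => ?_⟩, fun f z x => ?_⟩
  · rw [Finset.sum_add_distrib, ← Finset.mul_sum, ← Finset.mul_sum]
    have h1 := mul_le_mul_of_nonneg_left (hk.π1 z x) (show 0 ≤ C / (C + C') by positivity)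
    have h2 := mul_le_mul_of_nonneg_left (hk'.π1 z x) (show 0 ≤ C' / (C + C') by positivity)
    have h3 : C / (C + C') * 1 + C' / (C + C') * 1 = 1 := by field_simp
    linarith
  · have h1 := hk.le s z x
    have h2 := hk'.le s z x
    have h3 : (C + C') * (C / (C + C') * π s z x + C' / (C + C') * π' s z x) =
        C * π s z x + C' * π' s z x := by field_simp
    rw [h3]
    exact (abs_add_le _ _).trans (add_le_add h1 h2)
  · have e : (fun (z : ι → ℝ) (x : X) => ∑ s : κ → X, if s r = t then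
        C / (C + C') * π s z x + C' / (C + C') * π' s z x else 0) =
        fun z x => C / (C + C') * (∑ s, if s r = t then π s z x else 0) +
          C' / (C + C') * (∑ s, if s r = t then π' s z x else 0) := by
      funext z x
      rw [Finset.mul_sum, Finset.mul_sum, ← Finset.sum_add_distrib]
      exact Finset.sum_congr rfl fun s _ => by split_ifs <;> ring
    rw [e, hS.T_add hl (Nh.const_mul _ (hk.nm r t)) (Nh.const_mul _ (hk'.nm r t)),
      T_const_mul, T_const_mul]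
    have h1 := mul_le_mul_of_nonneg_left (hk.mg r t z) (show 0 ≤ C / (C + C') by positivity)
    have h2 := mul_le_mul_of_nonneg_left (hk'.mg r t z) (show 0 ≤ C' / (C + C') by positivity)
    have h3 : C / (C + C') * S.pr l z t + C' / (C + C') * S.pr l z t = S.pr l z t := by
      field_simp
    linarith
  · show h f z x + g f z x = _
    rw [he, he', ct, ct, ct, ← Finset.sum_add_distrib]
    exact Finset.sum_congr rfl fun s _ => by ring

/-- the zero family -/
lemma Cl.zero (hS : S.Reg) (hl : l ≤ S.K) : Cl S l κ 0 fun _ _ _ => 0 := by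
  refine ⟨fun _ _ _ => 0, fun _ _ _ => 0, ⟨fun _ => Nh.snd fun _ => 0, fun _ => Nh.snd fun _ => 0,
    fun _ _ _ => le_rfl, fun z x => ?_, fun s z x => ?_, fun r t z => ?_⟩, fun f z x => ?_⟩
  · simp
  · simp
  · have e : (fun (_ : ι → ℝ) (_ : X) => ∑ s : κ → X, if s r = t then (0 : ℝ) else 0) =
        fun _ _ => 0 := by
      funext z x; simp
    rw [e, hS.T_const hl]
    exact hS.pr_nonneg hl z t
  · simp [ct]

lemma Cl.zero_of (hh : Cl S l κ 0 h) (f : κ → X → ℝ) (z : ι → ℝ) (x : X) : h f z x = 0 := by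
  obtain ⟨θ, π, hk, he⟩ := hh
  rw [he]
  unfold ct
  refine Finset.sum_eq_zero fun s _ => ?_
  have h1 := hk.le s z x
  rw [zero_mul] at h1
  rw [abs_nonpos_iff.1 h1, mul_zero]

/-- **Sums.** -/
lemma Cl.add (hS : S.Reg) (hl : l ≤ S.K) {h g : (κ → X → ℝ) → (ι → ℝ) → X → ℝ}
    (hC : 0 ≤ C) (hC' : 0 ≤ C') (hh : Cl S l κ C h) (hg : Cl S l κ C' g) :
    Cl S l κ (C + C') fun f z x => h f z x + g f z x := by
  rcases (add_nonneg hC hC').eq_or_lt with h0 | h0
  · have e1 : C = 0 := by linarith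
    have e2 : C' = 0 := by linarith
    subst e1 e2
    rw [add_zero]
    exact (Cl.zero hS hl).congr fun f z x => by rw [hh.zero_of, hg.zero_of, add_zero]
  · exact hh.add_pos hS hl hC hC' h0 hg

/-- bounded functions -/
lemma Cl.bdd {b : (ι → ℝ) → X → ℝ} (hb : Nh b) (hb1 : ∀ z x, |b z x| ≤ C) :
    Cl S l PEmpty C fun _ z x => b z x := by
  refine ⟨fun _ z x => b z x, fun _ _ _ => 1, ⟨fun _ => hb, fun _ => Nh.snd fun _ => 1,
    fun _ _ _ => zero_le_one, fun z x => ?_, fun s z x => ?_, fun r => r.elim⟩, fun f z x => ?_⟩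
  · simp
  · rw [mul_one]; exact hb1 z x
  · simp [ct]

/-- the evaluation at the configuration -/
lemma Cl.ev (S : Sy ι X) (l : ℕ) : Cl S l Unit 1 fun f (_ : ι → ℝ) (x : X) => f () x := by
  refine ⟨fun s _ x => if s () = x then 1 else 0, fun s _ x => if s () = x then 1 else 0,
    ⟨fun s => Nh.snd _, fun s => Nh.snd _, fun s z x => by split_ifs <;> norm_num,
      fun z x => ?_, fun s z x => ?_, fun r t z => ?_⟩, fun f z x => ?_⟩
  · rw [← (Equiv.funUnique Unit X).symm.sum_comp]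
    simp
  · split_ifs <;> norm_num
  · refine le_of_eq ?_
    unfold pr
    congr 1
    funext z x
    rw [← (Equiv.funUnique Unit X).symm.sum_comp]
    simp only [Equiv.funUnique_symm_apply, uniqueElim_const]
    rw [Finset.sum_eq_single x]
    · simp
    · intro b _ hb
      simp [hb]
    · simp
  · unfold ct
    rw [← (Equiv.funUnique Unit X).symm.sum_comp]
    simp

/-- **Products.** -/
lemma Cl.mul (hS : S.Reg) (hl : l ≤ S.K) {h : (κ → X → ℝ) → (ι → ℝ) → X → ℝ}
    {g : (κ' → X → ℝ) → (ι → ℝ) → X → ℝ} (hh : Cl S l κ C h) (hg : Cl S l κ' C' g) :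
    Cl S l (κ ⊕ κ') (C * C') fun f z x => h (fun r => f (Sum.inl r)) z x *
      g (fun r => f (Sum.inr r)) z x := by
  obtain ⟨θ, π, hk, he⟩ := hh
  obtain ⟨θ', π', hk', he'⟩ := hg
  have hE : ∀ F : (κ ⊕ κ' → X) → ℝ, ∑ s, F s = ∑ s : κ → X, ∑ s' : κ' → X, F (Sum.elim s s') := by
    intro F
    rw [← (Equiv.sumArrowEquivProdArrow κ κ' X).symm.sum_comp, Fintype.sum_prod_type]
    rfl
  refine ⟨fun s z x => θ (fun r => s (Sum.inl r)) z x * θ' (fun r => s (Sum.inr r)) z x,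
    fun s z x => π (fun r => s (Sum.inl r)) z x * π' (fun r => s (Sum.inr r)) z x,
    ⟨fun s => Nh.mul (hk.nθ _) (hk'.nθ _), fun s => Nh.mul (hk.nπ _) (hk'.nπ _),
      fun s z x => mul_nonneg (hk.π0 _ z x) (hk'.π0 _ z x), fun z x => ?_, fun s z x => ?_,
      fun r t z => ?_⟩, fun f z x => ?_⟩
  · rw [hE]
    simp only [Sum.elim_inl, Sum.elim_inr]
    rw [← Finset.sum_mul_sum]
    exact mul_le_one₀ (hk.π1 z x) (Finset.sum_nonneg fun s _ => hk'.π0 s z x) (hk'.π1 z x)
  · rw [abs_mul]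
    calc _ ≤ (C * π (fun r => s (Sum.inl r)) z x) * (C' * π' (fun r => s (Sum.inr r)) z x) :=
          mul_le_mul (hk.le _ z x) (hk'.le _ z x) (abs_nonneg _)
            ((abs_nonneg _).trans (hk.le _ z x))
      _ = _ := by ring
  · have hNm : Nh fun z x => ∑ s : κ ⊕ κ' → X, if s r = t then
        π (fun r => s (Sum.inl r)) z x * π' (fun r => s (Sum.inr r)) z x else 0 :=
      Nh.sum _ fun s _ => nh_ite (Nh.mul (hk.nπ _) (hk'.nπ _))
    rcases r with r | r
    · refine le_trans ?_ (hk.mg r t z)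
      refine hS.T_mono hl hNm (hk.nm r t) (fun z x => ?_) z
      rw [hE]
      simp only [Sum.elim_inl, Sum.elim_inr]
      refine Finset.sum_le_sum fun s _ => ?_
      by_cases hs : s r = t
      · simp only [hs, if_true]
        rw [← Finset.mul_sum]
        exact mul_le_of_le_one_right (hk.π0 s z x) (hk'.π1 z x)
      · simp [hs]
    · refine le_trans ?_ (hk'.mg r t z)
      refine hS.T_mono hl hNm (hk'.nm r t) (fun z x => ?_) z
      rw [hE]
      simp only [Sum.elim_inl, Sum.elim_inr]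
      rw [Finset.sum_comm]
      refine Finset.sum_le_sum fun s _ => ?_
      by_cases hs : s r = t
      · simp only [hs, if_true]
        rw [← Finset.sum_mul]
        exact mul_le_of_le_one_left (hk'.π0 s z x) (hk.π1 z x)
      · simp [hs]
  · show h (fun r => f (Sum.inl r)) z x * g (fun r => f (Sum.inr r)) z x = _
    rw [he, he']
    unfold ct
    rw [hE, Finset.sum_mul_sum]
    refine Finset.sum_congr rfl fun s _ => Finset.sum_congr rfl fun s' _ => ?_
    simp only [Fintype.prod_sum_type, Sum.elim_inl, Sum.elim_inr]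
    ring

lemma abs_T_le_T (hS : S.Reg) {i : ℕ} (hi : i ≤ S.K) {f g : (ι → ℝ) → X → ℝ} (hf : Nh f)
    (hg : Nh g) (h : ∀ z x, |f z x| ≤ g z x) (z : ι → ℝ) : |S.T i f z| ≤ S.T i g z := by
  rw [abs_le]
  constructor
  · have h1 := hS.T_mono hi (f := fun z x => (-1) * g z x) (g := f) (Nh.const_mul _ hg) hf
      (fun z x => by have := (abs_le.1 (h z x)).1; linarith) z
    rw [T_const_mul] at h1
    linarith
  · exact hS.T_mono hi hf hg (fun z x => (abs_le.1 (h z x)).2) z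

/-- **Averages over the levels above `i`.** -/
lemma Cl.T (hS : S.Reg) {i : ℕ} (hi : l ≤ i) (hiK : i ≤ S.K)
    {h : (κ → X → ℝ) → (ι → ℝ) → X → ℝ} (hh : Cl S l κ C h) :
    Cl S l κ C fun f z _ => S.T i (h f) z := by
  obtain ⟨θ, π, hk, he⟩ := hh
  refine ⟨fun s z _ => S.T i (θ s) z, fun s z _ => S.T i (π s) z,
    ⟨fun s => Nh.fst (hS.eg_T hiK (hk.nθ s)), fun s => Nh.fst (hS.eg_T hiK (hk.nπ s)),
      fun s z x => ?_, fun z x => ?_, fun s z x => ?_, fun r t z => ?_⟩, fun f z x => ?_⟩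
  · have h1 := hS.T_mono hiK (f := fun _ _ => (0 : ℝ)) (Nh.snd fun _ => 0) (hk.nπ s)
      (fun z x => hk.π0 s z x) z
    rwa [hS.T_const hiK] at h1
  · rw [← hS.T_sum hiK Finset.univ (fun s _ => hk.nπ s)]
    have h1 := hS.T_mono hiK (f := fun z x => ∑ s, π s z x) (g := fun _ _ => (1 : ℝ))
      (Nh.sum _ fun s _ => hk.nπ s) (Nh.snd fun _ => 1) (fun z x => hk.π1 z x) z
    rwa [hS.T_const hiK] at h1
  · rw [← T_const_mul]
    exact abs_T_le_T hS hiK (hk.nθ s) (Nh.const_mul _ (hk.nπ s)) (fun z x => hk.le s z x) z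
  · have e : (fun (z : ι → ℝ) (_ : X) => ∑ s : κ → X, if s r = t then S.T i (π s) z else 0) =
        fun z _ => S.T i (fun z x => ∑ s, if s r = t then π s z x else 0) z := by
      funext z _
      rw [hS.T_sum hiK Finset.univ (fun s _ => nh_ite (hk.nπ s))]
      refine Finset.sum_congr rfl fun s _ => ?_
      split_ifs
      · rfl
      · rw [hS.T_const hiK]
    rw [e, hS.T_T hi hiK (hk.nm r t)]
    exact hk.mg r t z
  · have e : h f = fun z x => ∑ s, (∏ r, f r (s r)) * θ s z x := by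
      funext z x; exact he f z x
    show S.T i (h f) z = _
    rw [e, hS.T_sum hiK Finset.univ (fun s _ => Nh.const_mul _ (hk.nθ s))]
    unfold ct
    exact Finset.sum_congr rfl fun s _ => T_const_mul _ _ _ _ _

/-- renaming the slots -/
lemma Cl.reindex {h : (κ → X → ℝ) → (ι → ℝ) → X → ℝ} (hh : Cl S l κ C h) (e : κ ≃ κ') :
    Cl S l κ' C fun f z x => h (fun r => f (e r)) z x := by
  obtain ⟨θ, π, hk, he⟩ := hh
  have hE : ∀ F : (κ' → X) → ℝ, ∑ s, F s = ∑ s : κ → X, F (fun r => s (e.symm r)) := by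
    intro F
    rw [← (Equiv.arrowCongr e (Equiv.refl X)).sum_comp]
    rfl
  refine ⟨fun s z x => θ (fun r => s (e r)) z x, fun s z x => π (fun r => s (e r)) z x,
    ⟨fun s => hk.nθ _, fun s => hk.nπ _, fun s z x => hk.π0 _ z x, fun z x => ?_,
      fun s z x => hk.le _ z x, fun r t z => ?_⟩, fun f z x => ?_⟩
  · rw [hE]
    simp only [Equiv.symm_apply_apply]
    exact hk.π1 z x
  · have h1 := hk.mg (e.symm r) t z
    have e1 : (fun (z : ι → ℝ) (x : X) => ∑ s : κ' → X, if s r = t then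
        π (fun r => s (e r)) z x else 0) =
        fun z x => ∑ s : κ → X, if s (e.symm r) = t then π s z x else 0 := by
      funext z x
      rw [hE]
      simp only [Equiv.symm_apply_apply]
    rw [e1]
    exact h1
  · show h (fun r => f (e r)) z x = _
    rw [he]
    unfold ct
    rw [hE]
    refine Finset.sum_congr rfl fun s _ => ?_
    simp only [Equiv.symm_apply_apply]
    congr 1
    rw [← e.prod_comp]
    simp

end Vale.Agent.P146.H877x
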