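import Vale.Agent.P146.H877x.RowU

/-!
# P146: the field part of the row at two levels (helper877)

`FdA_l0 ≤ FdA_l1 + C W (θ + κ)` for `l0 ≤ l1`.
-/

open MeasureTheory ProbabilityTheory

namespace Vale.Agent.P146.H877x

open Vale.Agent.P157 Vale.Agent.P157.Lv Vale.Agent.P157.Lv.Sy
open Vale.Agent.P146.H425 Vale.Agent.P146.H325 Vale.Agent.P146.H985
open Vale.Agent.P146.H93 (Cd st am aSK skS Em linS_sk)
open Vale.Agent.P146.H379.Row Vale.Agent.P146.H946

set_option linter.unusedSectionVars false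

section gen

variable {ι : Type} [Fintype ι] [DecidableEq ι] {n : ℕ} {S : Sy ι (Fin n → ℤˣ)} {l l1 : ℕ}

/-- the local response at the site `i` -/
noncomputable abbrev Lr (S : Sy ι (Fin n → ℤˣ)) (l : ℕ) (i : Fin n) : (ι → ℝ) → ℝ :=
  Vf S l i (fun _ => 1)

lemma Mm_nonneg (hS : S.Reg) (hl : l ≤ S.K) (i : Fin n) (z : ι → ℝ) (x : Fin n → ℤˣ) :
    0 ≤ Mm S l i z x := by
  have h1 : ∑ j ∈ Finset.Ico (l + 1) (S.K + 1), S.p j * (H325.sp x i * dd S j i z) ≤
      ∑ j ∈ Finset.Ico (l + 1) (S.K + 1), S.p j := by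
    refine Finset.sum_le_sum fun j hj => ?_
    rw [Finset.mem_Ico] at hj
    have hp := H379.Row.p_nonneg hS (j := j) (by omega)
    have h2 : H325.sp x i * dd S j i z ≤ 1 := by
      refine (le_abs_self _).trans ?_
      rw [abs_mul, H325.abs_sp, one_mul]
      exact abs_dd_le hS (by omega) i z
    calc S.p j * (H325.sp x i * dd S j i z) ≤ S.p j * 1 := mul_le_mul_of_nonneg_left h2 hp
      _ = S.p j := mul_one _
  rw [sum_p_top hS hl] at h1
  have h2 := m_nonneg hS (l := l + 1) (by omega)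
  unfold Mm
  linarith

lemma Lr_nonneg (hS : S.Reg) (hl : l ≤ S.K) (i : Fin n) (z : ι → ℝ) : 0 ≤ Lr S l i z := by
  have h1 := hS.T_mono hl (f := fun _ _ => (0 : ℝ)) (g := fun z x => 1 * Mm S l i z x)
    (fun _ => EG.const 0) (nh_fM hS l i fun _ => 1) (fun z x => by
      rw [one_mul]; exact Mm_nonneg hS hl i z x) z
  rwa [hS.T_const hl] at h1

/-- the local response decreases when it is averaged -/
lemma Lr_le (hS : S.Reg) (hll : l ≤ l1) (hl : l1 ≤ S.K) (i : Fin n) (z : ι → ℝ) :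
    Lr S l i z ≤ S.T l (fun z _ => Lr S l1 i z) z := by
  have hlK := hll.trans hl
  have e1 : S.T l (fun z _ => Lr S l1 i z) z = S.T l (fun z x => 1 * Mm S l1 i z x) z :=
    hS.T_T hll hl (nh_fM hS l1 i fun _ => 1) z
  rw [e1]
  have hN : ∀ j ∈ Finset.Ico (l + 1) (l1 + 1), Nh (ι := ι) (X := Fin n → ℤˣ) fun z x =>
      S.p j * (H325.sp x i * dd S j i z) := fun j hj => by
    rw [Finset.mem_Ico] at hj
    exact Nh.const_mul _ (Nh.mul (nh_sp i) (Nh.fst (eg_dd hS (by omega) i)))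
  have e2 : (fun z x => 1 * Mm S l i z x) = fun z x => 1 * Mm S l1 i z x -
      ∑ j ∈ Finset.Ico (l + 1) (l1 + 1), S.p j * (H325.sp x i * dd S j i z) := by
    funext z x
    unfold Mm
    rw [← Finset.sum_Ico_consecutive _ (show l + 1 ≤ l1 + 1 by omega)
      (show l1 + 1 ≤ S.K + 1 by omega)]
    ring
  have e3 : Lr S l i z = S.T l (fun z x => 1 * Mm S l1 i z x) z -
      S.T l (fun z x => ∑ j ∈ Finset.Ico (l + 1) (l1 + 1), S.p j * (H325.sp x i * dd S j i z)) z := by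
    show S.T l (fun z x => 1 * Mm S l i z x) z = _
    rw [e2]
    exact hS.T_sub hlK (nh_fM hS l1 i fun _ => 1) (Nh.sum _ hN) z
  have h4 : 0 ≤ S.T l (fun z x => ∑ j ∈ Finset.Ico (l + 1) (l1 + 1),
      S.p j * (H325.sp x i * dd S j i z)) z := by
    rw [hS.T_sum hlK _ hN]
    refine Finset.sum_nonneg fun j hj => ?_
    have hj' := Finset.mem_Ico.1 hj
    rw [Sy.T_const_mul]
    refine mul_nonneg (H379.Row.p_nonneg hS (by omega)) ?_
    have e5 : S.T l (fun z x => H325.sp x i * dd S j i z) z =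
        S.T l (fun z _ => dd S j i z ^ 2) z := by
      rw [← hS.T_T (show l ≤ j by omega) (show j ≤ S.K by omega)
        (f := fun z x => H325.sp x i * dd S j i z) (Nh.mul (nh_sp i)
        (Nh.fst (eg_dd hS (by omega) i))) z]
      congr 1
      funext z' _
      have h5 := T_mul_left S (l := j) (φ := dd S j i) (dep_dd S j i)
        (f := fun _ x => H325.sp x i) z'
      have h6 : (fun (z : ι → ℝ) (x : Fin n → ℤˣ) => H325.sp x i * dd S j i z) =
          fun z x => dd S j i z * H325.sp x i := by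
        funext z x
        ring
      rw [h6, h5, sq]
      rfl
    rw [e5]
    have h6 := hS.T_mono hlK (f := fun _ _ => (0 : ℝ)) (g := fun z (_ : Fin n → ℤˣ) =>
      dd S j i z ^ 2) (fun _ => EG.const 0) (Nh.fst ((eg_dd hS (by omega) i).pow 2))
      (fun z x => sq_nonneg _) z
    rwa [hS.T_const hlK] at h6
  linarith

lemma Ex_Lr_mono (hS : S.Reg) (hll : l ≤ l1) (hl : l1 ≤ S.K) (i : Fin n) :
    S.Ex (fun z _ => Lr S l i z ^ 2) ≤ S.Ex (fun z _ => Lr S l1 i z ^ 2) := by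
  have hlK := hll.trans hl
  have n0 : Nh (X := Fin n → ℤˣ) fun z _ => Lr S l i z ^ 2 :=
    Nh.fst ((eg_Vf hS hlK i _).pow 2)
  have n1 : Nh (X := Fin n → ℤˣ) fun z _ => Lr S l1 i z := Nh.fst (eg_Vf hS hl i _)
  rw [← hS.Ex_T hlK (f := fun z _ => Lr S l1 i z ^ 2) (Nh.pow n1 2)]
  refine hS.Ex_mono n0 (Nh.fst (hS.eg_T hlK (Nh.pow n1 2))) fun z _ => ?_
  have h1 := hS.sq_T_le hlK n1 z
  have h2 := Lr_le hS hll hl i z
  have h3 := Lr_nonneg hS hlK i z
  exact (pow_le_pow_left₀ h3 h2 2).trans h1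

end gen

section sk

variable {n K : ℕ} {m b w : ℕ → ℝ} {l l1 : ℕ} {θ D κ B0 : ℝ}

lemma eg_dQ1 {S : Sy (Cd n K) (Fin n → ℤˣ)} (hS : S.Reg) (hl : l ≤ S.K) (q : ℕ) (i : Fin n) :
    EG fun z => dd S l i z * Qe S l q (fun x => H325.sp x i) z :=
  (eg_dd hS hl i).mul (eg_Qe hS hl q _)

lemma abs_dQ1 {S : Sy (Cd n K) (Fin n → ℤˣ)} (hS : S.Reg) (hl : l ≤ S.K) (q : ℕ) (i : Fin n)
    (z : Cd n K → ℝ) :
    |dd S l i z * Qe S l q (fun x => H325.sp x i) z| ≤ 2 * S.m (l + 1) := by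
  have h1 := abs_dd_le hS hl i z
  have h2 := abs_Qe_le hS hl q (f := fun x => H325.sp x i) (fun x => (H325.abs_sp x i).le) z
  have h3 := m_nonneg hS (l := l + 1) (by omega)
  rw [abs_mul]
  calc _ ≤ 1 * (2 * S.m (l + 1)) := mul_le_mul h1 h2 (abs_nonneg _) zero_le_one
    _ = _ := one_mul _

/-- the field coefficient is at most the local response -/
lemma Fk_up {S : Sy (Cd n K) (Fin n → ℤˣ)} (hS : S.Reg) (hl : l ≤ S.K) (q : ℕ) (i : Fin n) :
    Fk S l q i ≤ S.Ex (fun z _ => Lr S l i z ^ 2) + 12 * S.m (l + 1) := by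
  have eQ := eg_dQ1 hS hl q i
  have eV : EG (Lr S l i) := eg_Vf hS hl i _
  have h1 := PA.sq_le ((eg_expV hS hl).mul (eV.sub eQ)) (rwl K i l)
  refine h1.trans ?_
  rw [int_expV_sq hS hl (eV.sub eQ) (fun z w' => by
    simp only [dep_Vf S l i _ z w', dep_dd S l i z w', dep_Qe S l q _ z w'])]
  have h2 := hS.Ex_mono (f := fun z (_ : Fin n → ℤˣ) => (Lr S l i z - dd S l i z *
      Qe S l q (fun x => H325.sp x i) z) ^ 2)
    (g := fun z _ => Lr S l i z ^ 2 + 12 * S.m (l + 1)) (Nh.fst ((eV.sub eQ).pow 2))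
    (Nh.fst ((eV.pow 2).add (EG.const _))) fun z _ => by
      have a1 := abs_Vf_le hS hl i (f := fun _ => 1) (fun x => by rw [abs_one]) z
      have a2 := abs_dQ1 hS hl q i z
      have a3 := hS.m_le_one (l := l + 1) (by omega)
      have a4 := m_nonneg hS (l := l + 1) (by omega)
      set a := Lr S l i z
      set c := dd S l i z * Qe S l q (fun x => H325.sp x i) z
      set M := S.m (l + 1)
      have a5 : -(a * c) ≤ 2 * (2 * M) := by
        refine (neg_le_abs _).trans ?_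
        rw [abs_mul]
        exact mul_le_mul a1 a2 (abs_nonneg _) zero_le_two
      have a6 : c ^ 2 ≤ 4 * M := by
        rw [← sq_abs]
        have a7 : |c| ^ 2 ≤ (2 * M) ^ 2 := pow_le_pow_left₀ (abs_nonneg _) a2 2
        nlinarith
      nlinarith
  refine h2.trans (le_of_eq ?_)
  rw [hS.Ex_add (Nh.fst (eV.pow 2)) (Nh.fst (EG.const _)), hS.Ex_const]

/-- the own influence of the local response -/
lemma Lr_infl (hm : Em K m) (hn : 0 < n) (hK : 0 < K) (hl : l ≤ K)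
    (H : Hz n K m b w l θ D κ B0) (i : Fin n) :
    ∫ z, (Real.exp (VL (skS n K m b w) l z / 2) * Lr (skS n K m b w) l i z -
      PA (rwl K i l) (fun z => Real.exp (VL (skS n K m b w) l z / 2) *
        Lr (skS n K m b w) l i z) z) ^ 2 ∂(gI (Cd n K)) ≤
      KV ^ 2 * (10 * B0) * (θ + κ) := by
  have hS : (skS n K m b w).Reg := (linS_sk hm b w).reg
  have hSD := regD_sk (n := n) hm b w
  obtain ⟨r0, r1, q2, q1, q3⟩ := H.mom hm hn hK hl
  obtain ⟨ml0, ml1, ml2, ml3⟩ := H.ml hm hl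
  have θ0 := H.θ0
  have θ1 := H.θ1
  have κ0 := H.κ0
  have B1 := H.B1
  have hB := H.bB
  have hBn := bt2_nonneg n b l
  have hW := H.κw
  have hWn := SB_nonneg w l
  have hBe := bt2_SB n b l
  have hsbn := SB_nonneg b l
  have hnn : (0 : ℝ) ≤ n := Nat.cast_nonneg n
  set S := skS n K m b w with hSd
  have hlK : l ≤ S.K := hl
  obtain ⟨V1, V2, hV⟩ := exists_VD hSD hlK i
  have hAl : ∀ e ∈ rwl K i l, S.lev e ≤ l := fun e he => (mem_rwl.1 he).1
  have eV : EG (Lr S l i) := eg_Vf hS hlK i _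
  set Y : ((Fin n → ℤˣ) → ℝ) → ℝ := fun f =>
    2 * S.Ex (fun z _ => V1 (fun _ => 1) f z ^ 2) + 2 * S.Ex (fun z _ => YV S l f z) with hYd
  have hY1 : ∀ f, 0 ≤ S.Ex (fun z _ => V1 (fun _ => 1) f z ^ 2) := fun f =>
    Ex_nn hS (Nh.fst (X := Fin n → ℤˣ) ((hV.eg1 (fun _ => 1) f).pow 2)) fun z _ => sq_nonneg _
  have hY2 : ∀ f, 0 ≤ S.Ex (fun z _ => YV S l f z) := fun f =>
    Ex_nn hS (Nh.fst (X := Fin n → ℤˣ) (eg_YV hS hlK f)) fun z _ => YV_nonneg hS hlK f z
  have hY0 : ∀ f, 0 ≤ Y f := fun f => by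
    have := hY1 f
    have := hY2 f
    simp only [hYd]
    linarith
  have h1 : ∫ z, (Real.exp (VL S l z / 2) * Lr S l i z -
      PA (rwl K i l) (fun z => Real.exp (VL S l z / 2) * Lr S l i z) z) ^ 2 ∂(gI (Cd n K)) ≤
      SB b l * ∑ a, Y (fun x => H325.sp x i * H325.sp x a) +
        SB w l * Y (fun x => H325.sp x i) := by
    refine le_trans ?_ (row_sum_le hY0 b w i hl)
    refine (infl hSD hlK hAl eV (dep_Vf S l i _)
      (f' := fun e z => am b w e.1 (e.2 + 1) * V1 (fun _ => 1) (st e.1) z)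
      (fun e he => hV.pd0 e (hAl e he) _ (st e.1) (fun z x => rfl) _)
      (fun e he => (hV.eg1 _ _).const_mul _)).trans (Finset.sum_le_sum fun e he => ?_)
    have e1 : S.Ex (fun z _ => (am b w e.1 (e.2 + 1) * V1 (fun _ => 1) (st e.1) z) ^ 2) =
        am b w e.1 (e.2 + 1) ^ 2 * S.Ex (fun z _ => V1 (fun _ => 1) (st e.1) z ^ 2) := by
      rw [← Ex_const_mul]
      congr 1
      funext z _
      rw [mul_pow]
    have e2 : S.Ex (fun z _ => VLD S (fun e _ x => aSK n K b w x e) l e z ^ 2 *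
        Lr S l i z ^ 2) ≤ 4 * (am b w e.1 (e.2 + 1) ^ 2 *
        S.Ex (fun z _ => YV S l (st e.1) z)) := by
      rw [← Ex_const_mul, ← Ex_const_mul]
      refine hS.Ex_mono (Nh.fst (((VLD_eg hSD hlK e).pow 2).mul (eV.pow 2)))
        (Nh.const_mul _ (Nh.const_mul _ (Nh.fst (eg_YV hS hlK (st e.1))))) fun z _ => ?_
      have h2 := VLD_sq_le (n := n) hm b w hl e z
      have h3 := abs_Vf_le hS hlK i (f := fun _ => 1) (fun x => by rw [abs_one]) z
      have h4 : Lr S l i z ^ 2 ≤ 4 := by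
        rw [← sq_abs]
        nlinarith [abs_nonneg (Lr S l i z)]
      calc _ ≤ (am b w e.1 (e.2 + 1) ^ 2 * YV S l (st e.1) z) * 4 :=
            mul_le_mul h2 h4 (sq_nonneg _)
              (mul_nonneg (sq_nonneg _) (YV_nonneg hS hlK _ z))
        _ = _ := by ring
    rw [e1]
    simp only [hYd]
    linarith
  refine h1.trans ?_
  -- the squares of the derivatives
  have K1 := KV_one
  have c1 : ∑ a, S.Ex (fun z _ => V1 (fun _ => 1) (fun x => H325.sp x i * H325.sp x a) z ^ 2) ≤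
      KV ^ 2 * (n * θ) := by
    have hN : ∀ a, Nh (X := Fin n → ℤˣ) fun z _ =>
        V1 (fun _ => 1) (fun x => H325.sp x i * H325.sp x a) z ^ 2 := fun a =>
      Nh.fst ((hV.eg1 _ _).pow 2)
    rw [← hS.Ex_sum _ fun a _ => hN a]
    have h2 : S.Ex (fun z _ => ∑ a, V1 (fun _ => 1) (fun x => H325.sp x i * H325.sp x a) z ^ 2) ≤
        S.Ex (fun z _ => KV ^ 2 * (n * pp S l z fun x x' => |Rs n x x'|)) := by
      refine hS.Ex_mono (Nh.sum _ fun a _ => hN a)
        (Nh.const_mul _ (Nh.const_mul _ (Nh.fst (eg_pp hS hlK _)))) fun z _ => ?_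
      have h5 := hV.b1 (J := Unit) (fun _ _ => 1) (fun a x => H325.sp x i * H325.sp x a) z
        (fun x x' => 0) (fun x x' => (n : ℝ) * |Rs n x x'|)
        (fun x x' => le_rfl) (fun x x' => by positivity)
        (fun x x' y y' => by
          have e5 : |∑ _j : Unit, (1 : ℝ) * 1| = 1 := by simp
          rw [e5, sum_two]
          linarith)
      rw [Finset.univ_unique, Finset.sum_singleton] at h5
      rw [pp_const hS hlK, zero_add, pp_const_mul] at h5
      exact h5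
    rw [Ex_const_mul, Ex_const_mul, Ex_pp] at h2
    refine h2.trans (mul_le_mul_of_nonneg_left (mul_le_mul_of_nonneg_left q1 hnn) (sq_nonneg _))
  have c2 : S.Ex (fun z _ => V1 (fun _ => 1) (fun x => H325.sp x i) z ^ 2) ≤ KV ^ 2 := by
    have h2 : S.Ex (fun z _ => V1 (fun _ => 1) (fun x => H325.sp x i) z ^ 2) ≤
        S.Ex (fun _ _ => KV ^ 2) := by
      refine hS.Ex_mono (Nh.fst ((hV.eg1 _ _).pow 2)) (Nh.fst (EG.const _)) fun z _ => ?_
      have h5 := hV.b1 (J := Unit) (J' := Unit) (fun _ _ => 1) (fun _ x => H325.sp x i) z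
        (fun x x' => 0) (fun x x' => 1) (fun x x' => le_rfl) (fun x x' => zero_le_one)
        (fun x x' y y' => by
          have e5 : |∑ _j : Unit, (1 : ℝ) * 1| = 1 := by simp
          rw [e5, sum_one]
          norm_num)
      simp only [Finset.univ_unique, Finset.sum_singleton] at h5
      rw [pp_const hS hlK, pp_const hS hlK] at h5
      linarith
    rwa [hS.Ex_const] at h2
  have hT1 : ∀ f : (Fin n → ℤˣ) → ℝ, (∀ x, |f x| ≤ 1) →
      S.Ex (fun z _ => YV S l f z) ≤ 4 * θ ^ 2 := by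
    intro f hf
    refine (Ex_YV_le hS hlK f).trans ?_
    have h3 : S.Ex (fun z _ => S.T l (fun _ x => f x) z ^ 2) ≤ 1 := by
      refine Ex_le_const hS (Nh.fst ((hS.eg_T hlK (Nh.snd f)).pow 2)) fun z _ => ?_
      rw [← sq_abs]
      exact pow_le_one₀ (abs_nonneg _) (hS.abs_T_le hlK (Nh.snd f) (fun _ x => hf x) z)
    have h4 : S.m l ^ 2 ≤ θ ^ 2 := ml1
    have h5 : 0 ≤ S.m l ^ 2 := sq_nonneg _
    nlinarith [sq_nonneg θ]
  have d1 : ∑ a, Y (fun x => H325.sp x i * H325.sp x a) ≤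
      2 * (KV ^ 2 * (n * θ)) + 2 * (n * (4 * θ ^ 2)) := by
    simp only [hYd, Finset.sum_add_distrib, ← Finset.mul_sum]
    have h3 : ∑ a : Fin n, S.Ex (fun z _ => YV S l (fun x => H325.sp x i * H325.sp x a) z) ≤
        n * (4 * θ ^ 2) := by
      refine (Finset.sum_le_sum fun a _ => hT1 _ fun x => ?_).trans (le_of_eq ?_)
      · rw [abs_mul, H325.abs_sp, H325.abs_sp, one_mul]
      · rw [Finset.sum_const, Finset.card_univ, Fintype.card_fin, nsmul_eq_mul]
    linarith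
  have d2 : Y (fun x => H325.sp x i) ≤ 2 * KV ^ 2 + 2 * (4 * θ ^ 2) := by
    simp only [hYd]
    have h3 := hT1 (fun x => H325.sp x i) fun x => (H325.abs_sp x i).le
    linarith
  have hθ2 : θ ^ 2 ≤ θ := by nlinarith
  have d3 : SB b l * ∑ a, Y (fun x => H325.sp x i * H325.sp x a) ≤ KV ^ 2 * (10 * B0) * θ := by
    have h3 : SB b l * ∑ a, Y (fun x => H325.sp x i * H325.sp x a) ≤
        SB b l * (2 * (KV ^ 2 * (n * θ)) + 2 * (n * (4 * θ ^ 2))) :=
      mul_le_mul_of_nonneg_left d1 hsbn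
    have h4 : SB b l * (2 * (KV ^ 2 * (n * θ)) + 2 * (n * (4 * θ ^ 2))) =
        bt2 n b l * (2 * KV ^ 2 * θ + 8 * θ ^ 2) := by
      rw [← hBe]
      ring
    rw [h4] at h3
    have h5 : 2 * KV ^ 2 * θ + 8 * θ ^ 2 ≤ KV ^ 2 * 10 * θ := by nlinarith
    have h6 : bt2 n b l * (2 * KV ^ 2 * θ + 8 * θ ^ 2) ≤ B0 * (KV ^ 2 * 10 * θ) :=
      mul_le_mul hB h5 (by positivity) (by linarith)
    linarith
  have d4 : SB w l * Y (fun x => H325.sp x i) ≤ KV ^ 2 * (10 * B0) * κ := by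
    have h5 : 2 * KV ^ 2 + 2 * (4 * θ ^ 2) ≤ KV ^ 2 * 10 := by nlinarith
    have h6 : SB w l * Y (fun x => H325.sp x i) ≤ κ * (KV ^ 2 * 10) :=
      mul_le_mul hW (d2.trans h5) (hY0 _) κ0
    have h7 : κ * (KV ^ 2 * 10) ≤ KV ^ 2 * (10 * B0) * κ := by
      have h8 : 0 ≤ κ * (KV ^ 2 * 10) := by positivity
      nlinarith
    linarith
  linarith

/-- the field coefficient is at least the local response -/
lemma Fk_lo (hm : Em K m) (hn : 0 < n) (hK : 0 < K) (hl : l ≤ K)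
    (H : Hz n K m b w l θ D κ B0) (q : ℕ) (i : Fin n) :
    (skS n K m b w).Ex (fun z _ => Lr (skS n K m b w) l i z ^ 2) -
      KV ^ 2 * (40 * B0) * (θ + κ) ≤ Fk (skS n K m b w) l q i := by
  have hS : (skS n K m b w).Reg := (linS_sk hm b w).reg
  have h1 := Lr_infl hm hn hK hl H i
  obtain ⟨ml0, ml1, ml2, ml3⟩ := H.ml hm hl
  have θ0 := H.θ0
  have θ1 := H.θ1
  have κ0 := H.κ0
  have B1 := H.B1
  have hmθ := H.mθ
  set S := skS n K m b w with hSd
  have hlK : l ≤ S.K := hl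
  have eV : EG (Lr S l i) := eg_Vf hS hlK i _
  have eQ := eg_dQ1 hS hlK q i
  have eE := eg_expV hS hlK
  have hM : S.m (l + 1) = m (l + 1) := rfl
  set f := fun z : Cd n K → ℝ => Real.exp (VL S l z / 2) *
    (Lr S l i z - dd S l i z * Qe S l q (fun x => H325.sp x i) z) with hf
  have ef : EG f := eE.mul (eV.sub eQ)
  have h2 := PA.pyth ef (rwl K i l)
  have h3 := H93.own_sub (n := n) (K := K) (rwl K i l) (eE.mul eV) (eE.mul eQ)
  have e1 : (fun z : Cd n K → ℝ => Real.exp (VL S l z / 2) * Lr S l i z -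
      Real.exp (VL S l z / 2) * (dd S l i z * Qe S l q (fun x => H325.sp x i) z)) = f := by
    funext z
    rw [hf]
    ring
  have e2 : ∀ z : Cd n K → ℝ, Real.exp (VL S l z / 2) * Lr S l i z -
      Real.exp (VL S l z / 2) * (dd S l i z * Qe S l q (fun x => H325.sp x i) z) = f z :=
    fun z => congrFun e1 z
  simp only [e2] at h3
  have h4 : ∫ z, (Real.exp (VL S l z / 2) * (dd S l i z *
      Qe S l q (fun x => H325.sp x i) z)) ^ 2 ∂(gI (Cd n K)) ≤ 4 * θ := by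
    rw [int_expV_sq hS hlK eQ (fun z w' => by
      simp only [dep_dd S l i z w', dep_Qe S l q _ z w'])]
    refine Ex_le_const hS (Nh.fst (eQ.pow 2)) fun z _ => ?_
    have a2 := abs_dQ1 hS hlK q i z
    rw [← sq_abs]
    have a7 := pow_le_pow_left₀ (abs_nonneg _) a2 2
    rw [hM] at a7
    refine a7.trans ?_
    nlinarith
  have h5 : S.Ex (fun z _ => Lr S l i z ^ 2) - 8 * θ ≤ ∫ z, f z ^ 2 ∂(gI (Cd n K)) := by
    rw [hf, int_expV_sq hS hlK (eV.sub eQ) (fun z w' => by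
      simp only [dep_Vf S l i _ z w', dep_dd S l i z w', dep_Qe S l q _ z w'])]
    have h6 := hS.Ex_mono (f := fun z (_ : Fin n → ℤˣ) => Lr S l i z ^ 2 - 8 * θ)
      (g := fun z _ => (Lr S l i z - dd S l i z * Qe S l q (fun x => H325.sp x i) z) ^ 2)
      (Nh.fst ((eV.pow 2).sub (EG.const _))) (Nh.fst ((eV.sub eQ).pow 2)) fun z _ => by
        have a1 := abs_Vf_le hS hlK i (f := fun _ => 1) (fun x => by rw [abs_one]) z
        have a2 := abs_dQ1 hS hlK q i z
        rw [hM] at a2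
        set a := Lr S l i z
        set c := dd S l i z * Qe S l q (fun x => H325.sp x i) z
        have a5 : a * c ≤ 2 * (2 * θ) := by
          refine (le_abs_self _).trans ?_
          rw [abs_mul]
          exact mul_le_mul a1 (a2.trans (by linarith)) (abs_nonneg _) zero_le_two
        nlinarith [sq_nonneg c]
    rw [hS.Ex_sub (Nh.fst (eV.pow 2)) (Nh.fst (EG.const _)), hS.Ex_const] at h6
    exact h6
  have e3 : Fk S l q i = ∫ z, PA (rwl K i l) f z ^ 2 ∂(gI (Cd n K)) := rfl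
  rw [e3]
  have K1 := KV_one
  have h7 : 16 * θ ≤ KV ^ 2 * (20 * B0) * (θ + κ) := by
    have h8 : (16 : ℝ) ≤ KV ^ 2 * (20 * B0) := by nlinarith
    calc 16 * θ ≤ 16 * (θ + κ) := by linarith
      _ ≤ _ := mul_le_mul_of_nonneg_right h8 (by positivity)
  have h9 : KV ^ 2 * (40 * B0) * (θ + κ) = 2 * (KV ^ 2 * (10 * B0) * (θ + κ)) +
      KV ^ 2 * (20 * B0) * (θ + κ) := by ring
  linarith

/-- **The field part of the row increases with the level**, up to small errors. -/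
theorem FdA_mono (hm : Em K m) (hK : 0 < K) (hn : 0 < n) (hll : l ≤ l1) (hl : l1 ≤ K)
    (H : Hz n K m b w l1 θ D κ B0) (hmθ : m (l + 1) ≤ θ) :
    FdA n K m b w l ≤ FdA n K m b w l1 + KV ^ 2 * (60 * B0) * κ * (θ + κ) := by
  have hS : (skS n K m b w).Reg := (linS_sk hm b w).reg
  have θ0 := H.θ0
  have κ0 := H.κ0
  have B1 := H.B1
  have K1 := KV_one
  have hn' : (0 : ℝ) < n := by exact_mod_cast hn
  have hlK : l ≤ K := hll.trans hl
  set S := skS n K m b w with hSd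
  have h1 : ∀ i : Fin n, ∀ q : ℕ, Fk S l q i ≤ Fk S l1 q i +
      KV ^ 2 * (60 * B0) * (θ + κ) := by
    intro i q
    have a1 := Fk_up hS (l := l) hlK q i
    have a2 := Fk_lo hm hn hK hl H q i
    have a3 := Ex_Lr_mono hS hll hl i
    have a4 : S.m (l + 1) = m (l + 1) := rfl
    rw [a4] at a1
    have a5 : 12 * m (l + 1) ≤ KV ^ 2 * (20 * B0) * (θ + κ) := by
      have h8 : (12 : ℝ) ≤ KV ^ 2 * (20 * B0) := by nlinarith
      calc 12 * m (l + 1) ≤ 12 * (θ + κ) := by linarith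
        _ ≤ _ := mul_le_mul_of_nonneg_right h8 (by positivity)
    have a6 : KV ^ 2 * (60 * B0) * (θ + κ) = KV ^ 2 * (40 * B0) * (θ + κ) +
      KV ^ 2 * (20 * B0) * (θ + κ) := by ring
    linarith
  have hW : ∑ q : Fin l, w (q + 1) ^ 2 ≤ κ := by
    have e1 : ∑ q : Fin l, w (q + 1) ^ 2 = SB w l := by
      unfold SB
      rw [← Fin.sum_univ_eq_sum_range (fun c => w (c + 1) ^ 2) l]
    have e2 : SB w l ≤ SB w l1 := by
      unfold SB
      exact Finset.sum_le_sum_of_subset_of_nonneg (Finset.range_mono hll)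
        fun _ _ _ => sq_nonneg _
    rw [e1]
    exact e2.trans H.κw
  have h2 : ∀ i : Fin n, ∑ q : Fin l, w (q + 1) ^ 2 * Fk S l (q + 1) i ≤
      ∑ q : Fin l1, w (q + 1) ^ 2 * Fk S l1 (q + 1) i +
        κ * (KV ^ 2 * (60 * B0) * (θ + κ)) := by
    intro i
    have a1 : ∑ q : Fin l, w (q + 1) ^ 2 * Fk S l (q + 1) i ≤
        ∑ q : Fin l, w (q + 1) ^ 2 * Fk S l1 (q + 1) i +
        (∑ q : Fin l, w (q + 1) ^ 2) * (KV ^ 2 * (60 * B0) * (θ + κ)) := by
      rw [Finset.sum_mul, ← Finset.sum_add_distrib]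
      refine Finset.sum_le_sum fun q _ => ?_
      rw [← mul_add]
      exact mul_le_mul_of_nonneg_left (h1 i _) (sq_nonneg _)
    have a2 : ∑ q : Fin l, w (q + 1) ^ 2 * Fk S l1 (q + 1) i ≤
        ∑ q : Fin l1, w (q + 1) ^ 2 * Fk S l1 (q + 1) i := by
      rw [Fin.sum_univ_eq_sum_range (fun q => w (q + 1) ^ 2 * Fk S l1 (q + 1) i) l,
        Fin.sum_univ_eq_sum_range (fun q => w (q + 1) ^ 2 * Fk S l1 (q + 1) i) l1]
      exact Finset.sum_le_sum_of_subset_of_nonneg (Finset.range_mono hll)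
        fun _ _ _ => mul_nonneg (sq_nonneg _) (Fk_nonneg _ _)
    have a3 : (∑ q : Fin l, w (q + 1) ^ 2) * (KV ^ 2 * (60 * B0) * (θ + κ)) ≤
        κ * (KV ^ 2 * (60 * B0) * (θ + κ)) := mul_le_mul_of_nonneg_right hW (by positivity)
    linarith
  unfold FdA
  have h3 : ∑ i : Fin n, ∑ q : Fin l, w (q + 1) ^ 2 * Fk S l (q + 1) i ≤
      ∑ i : Fin n, ∑ q : Fin l1, w (q + 1) ^ 2 * Fk S l1 (q + 1) i +
        n * (κ * (KV ^ 2 * (60 * B0) * (θ + κ))) := by
    refine (Finset.sum_le_sum fun i _ => h2 i).trans (le_of_eq ?_)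
    rw [Finset.sum_add_distrib, Finset.sum_const, Finset.card_univ, Fintype.card_fin,
      nsmul_eq_mul]
  have h4 := mul_le_mul_of_nonneg_left h3 (by positivity : (0 : ℝ) ≤ 1 / n)
  refine h4.trans (le_of_eq ?_)
  rw [mul_add, ← mul_assoc (1 / (n : ℝ)) (n : ℝ), one_div_mul_cancel hn'.ne', one_mul]
  congr 1
  ring

end sk

end Vale.Agent.P146.H877x
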