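import Vale.Agent.P146.H877x.Sm

/-!
# P146: contraction families, different slots; the derivative of an average (helper877)
-/

open MeasureTheory ProbabilityTheory

namespace Vale.Agent.P146.H877x

open Vale.Agent.P157 Vale.Agent.P157.Lv Vale.Agent.P157.Lv.Sy

set_option linter.unusedSectionVars false

variable {ι X : Type} [Fintype ι] [DecidableEq ι] [Fintype X] [DecidableEq X] [Nonempty X]
variable {S : Sy ι X} {l : ℕ} {κ κ' : Type} [Fintype κ] [DecidableEq κ] [Fintype κ']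
  [DecidableEq κ'] {C C' : ℝ}

lemma pp_nonneg (hS : S.Reg) (hl : l ≤ S.K) (z : ι → ℝ) {ψ : X → X → ℝ} (h : ∀ x x', 0 ≤ ψ x x') :
    0 ≤ pp S l z ψ :=
  Finset.sum_nonneg fun x _ => Finset.sum_nonneg fun x' _ =>
    mul_nonneg (mul_nonneg (hS.pr_nonneg hl z x) (hS.pr_nonneg hl z x')) (h x x')

lemma pp_mono (hS : S.Reg) (hl : l ≤ S.K) (z : ι → ℝ) {ψ ψ' : X → X → ℝ}
    (h : ∀ x x', ψ x x' ≤ ψ' x x') : pp S l z ψ ≤ pp S l z ψ' :=
  Finset.sum_le_sum fun x _ => Finset.sum_le_sum fun x' _ =>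
    mul_le_mul_of_nonneg_left (h x x')
      (mul_nonneg (hS.pr_nonneg hl z x) (hS.pr_nonneg hl z x'))

lemma pp_add (z : ι → ℝ) (ψ ψ' : X → X → ℝ) :
    pp S l z (fun x x' => ψ x x' + ψ' x x') = pp S l z ψ + pp S l z ψ' := by
  unfold pp
  rw [← Finset.sum_add_distrib]
  refine Finset.sum_congr rfl fun x _ => ?_
  rw [← Finset.sum_add_distrib]
  exact Finset.sum_congr rfl fun x' _ => by ring

lemma pp_const_mul (z : ι → ℝ) (c : ℝ) (ψ : X → X → ℝ) :
    pp S l z (fun x x' => c * ψ x x') = c * pp S l z ψ := by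
  unfold pp
  rw [Finset.mul_sum]
  refine Finset.sum_congr rfl fun x _ => ?_
  rw [Finset.mul_sum]
  exact Finset.sum_congr rfl fun x' _ => by ring

lemma pp_fst (hS : S.Reg) (hl : l ≤ S.K) (z : ι → ℝ) (f : X → ℝ) :
    pp S l z (fun x _ => f x) = ∑ x, S.pr l z x * f x := by
  unfold pp
  refine Finset.sum_congr rfl fun x _ => ?_
  rw [← Finset.sum_mul, ← Finset.mul_sum, hS.sum_pr hl, mul_one]

lemma pp_snd (hS : S.Reg) (hl : l ≤ S.K) (z : ι → ℝ) (f : X → ℝ) :
    pp S l z (fun _ x' => f x') = ∑ x, S.pr l z x * f x := by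
  unfold pp
  simp_rw [mul_assoc, ← Finset.mul_sum]
  rw [← Finset.sum_mul, hS.sum_pr hl, one_mul]

lemma pp_const (hS : S.Reg) (hl : l ≤ S.K) (z : ι → ℝ) (c : ℝ) :
    pp S l z (fun _ _ => c) = c := by
  rw [pp_fst hS hl z fun _ => c, ← Finset.sum_mul, hS.sum_pr hl, one_mul]

/-- **The bound of a contraction**: slot functions `φ r · I`, `I : J r`, any bound of the product
of the overlaps by a sum over the slots. -/
lemma ct_gen (hS : S.Reg) (hl : l ≤ S.K) (hC : 0 ≤ C) {θ π : (κ → X) → (ι → ℝ) → X → ℝ}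
    (hk : Kr S l κ C θ π) {J : κ → Type} [∀ r, Fintype (J r)] (φ : ∀ r, X → J r → ℝ) (z : ι → ℝ)
    (G : κ → X → X → ℝ) (hG0 : ∀ r x x', 0 ≤ G r x x')
    (hG : ∀ s s' : κ → X, ∏ r, |∑ j, φ r (s r) j * φ r (s' r) j| ≤ ∑ r, G r (s r) (s' r)) :
    ∑ I : (∀ r, J r), (S.T l (fun z x => ct θ (fun r s => φ r s (I r)) z x) z) ^ 2 ≤
      C ^ 2 * ∑ r, pp S l z (G r) := by
  set t : (κ → X) → ℝ := fun s => S.T l (θ s) z with ht
  set p : (κ → X) → ℝ := fun s => S.T l (π s) z with hp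
  have hp0 : ∀ s, 0 ≤ p s := by
    intro s
    have h1 := hS.T_mono hl (f := fun _ _ => (0 : ℝ)) (Nh.snd fun _ => 0) (hk.nπ s)
      (fun z x => hk.π0 s z x) z
    rwa [hS.T_const hl] at h1
  have htp : ∀ s, |t s| ≤ C * p s := by
    intro s
    rw [hp, ht]
    simp only
    rw [← T_const_mul]
    exact abs_T_le_T hS hl (hk.nθ s) (Nh.const_mul _ (hk.nπ s)) (fun z x => hk.le s z x) z
  have hT : ∀ I : (∀ r, J r), S.T l (fun z x => ct θ (fun r s => φ r s (I r)) z x) z =
      ∑ s : κ → X, (∏ r, φ r (s r) (I r)) * t s := by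
    intro I
    unfold ct
    rw [hS.T_sum hl Finset.univ (fun s _ => Nh.const_mul _ (hk.nθ s))]
    exact Finset.sum_congr rfl fun s _ => T_const_mul _ _ _ _ _
  have hsq : ∑ I : (∀ r, J r), (∑ s : κ → X, (∏ r, φ r (s r) (I r)) * t s) ^ 2 =
      ∑ s : κ → X, ∑ s' : κ → X, t s * t s' * ∏ r, ∑ j, φ r (s r) j * φ r (s' r) j := by
    have e1 : ∀ I : (∀ r, J r), (∑ s : κ → X, (∏ r, φ r (s r) (I r)) * t s) ^ 2 =
        ∑ s : κ → X, ∑ s' : κ → X, t s * t s' * ∏ r, (φ r (s r) (I r) * φ r (s' r) (I r)) := by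
      intro I
      rw [sq, Finset.sum_mul_sum]
      refine Finset.sum_congr rfl fun s _ => Finset.sum_congr rfl fun s' _ => ?_
      rw [Finset.prod_mul_distrib]
      ring
    simp_rw [e1]
    rw [Finset.sum_comm]
    refine Finset.sum_congr rfl fun s _ => ?_
    rw [Finset.sum_comm]
    refine Finset.sum_congr rfl fun s' _ => ?_
    rw [← Finset.mul_sum]
    congr 1
    rw [Finset.prod_univ_sum]
    simp only [Fintype.piFinset_univ]
  simp_rw [hT]
  rw [hsq]
  calc ∑ s : κ → X, ∑ s' : κ → X, t s * t s' * ∏ r, ∑ j, φ r (s r) j * φ r (s' r) j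
      ≤ ∑ s : κ → X, ∑ s' : κ → X, (C * p s) * (C * p s') * ∑ r, G r (s r) (s' r) := by
        refine Finset.sum_le_sum fun s _ => Finset.sum_le_sum fun s' _ => ?_
        refine (le_abs_self _).trans ?_
        rw [abs_mul, abs_mul, Finset.abs_prod]
        exact mul_le_mul (mul_le_mul (htp s) (htp s') (abs_nonneg _)
          (mul_nonneg hC (hp0 s))) (hG s s')
          (Finset.prod_nonneg fun r _ => abs_nonneg _)
          (mul_nonneg (mul_nonneg hC (hp0 s)) (mul_nonneg hC (hp0 s')))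
    _ = C ^ 2 * ∑ r, ∑ s : κ → X, ∑ s' : κ → X, p s * p s' * G r (s r) (s' r) := by
        have e1 : ∀ s s' : κ → X, (C * p s) * (C * p s') * ∑ r, G r (s r) (s' r) =
            ∑ r, C ^ 2 * (p s * p s' * G r (s r) (s' r)) := by
          intro s s'
          rw [Finset.mul_sum]
          exact Finset.sum_congr rfl fun r _ => by ring
        simp_rw [e1]
        have e2 : ∀ F : (κ → X) → (κ → X) → κ → ℝ, ∑ s, ∑ s', ∑ r, F s s' r =
            ∑ r, ∑ s, ∑ s', F s s' r := by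
          intro F
          calc ∑ s, ∑ s', ∑ r, F s s' r = ∑ s, ∑ r, ∑ s', F s s' r :=
                Finset.sum_congr rfl fun s _ => Finset.sum_comm
            _ = _ := Finset.sum_comm
        rw [e2]
        simp_rw [← Finset.mul_sum]
    _ ≤ _ := by
        refine mul_le_mul_of_nonneg_left (Finset.sum_le_sum fun r _ => ?_) (sq_nonneg C)
        set q : X → ℝ := fun u => ∑ s : κ → X, if s r = u then p s else 0 with hq
        have hq0 : ∀ u, 0 ≤ q u := fun u => Finset.sum_nonneg fun s _ => by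
          split_ifs
          · exact hp0 s
          · exact le_rfl
        have hqp : ∀ u, q u ≤ S.pr l z u := by
          intro u
          refine le_of_eq_of_le ?_ (hk.mg r u z)
          rw [hS.T_sum hl Finset.univ (fun s _ => nh_ite (hk.nπ s))]
          refine Finset.sum_congr rfl fun s _ => ?_
          by_cases hs : s r = u
          · simp only [hs, if_true]; rfl
          · simp only [hs, if_false]
            exact (hS.T_const hl 0 z).symm
        have hg : ∀ F : X → ℝ, ∑ s : κ → X, p s * F (s r) = ∑ u, q u * F u := by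
          intro F
          rw [hq]
          simp only [Finset.sum_mul]
          rw [Finset.sum_comm]
          refine Finset.sum_congr rfl fun s _ => ?_
          rw [Finset.sum_eq_single (s r)]
          · simp
          · intro u _ hu
            simp [Ne.symm hu]
          · simp
        have h1 : ∑ s : κ → X, ∑ s' : κ → X, p s * p s' * G r (s r) (s' r) =
            ∑ u, ∑ u', q u * q u' * G r u u' := by
          have e3 : ∀ s : κ → X, ∑ s' : κ → X, p s * p s' * G r (s r) (s' r) =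
              p s * (∑ u', q u' * G r (s r) u') := by
            intro s
            rw [← hg (fun u' => G r (s r) u'), Finset.mul_sum]
            exact Finset.sum_congr rfl fun s' _ => by ring
          simp_rw [e3]
          rw [hg (fun u => ∑ u', q u' * G r u u')]
          refine Finset.sum_congr rfl fun u _ => ?_
          rw [Finset.mul_sum]
          exact Finset.sum_congr rfl fun u' _ => by ring
        refine le_of_eq_of_le h1 ?_
        unfold pp
        refine Finset.sum_le_sum fun u _ => Finset.sum_le_sum fun u' _ => ?_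
        exact mul_le_mul_of_nonneg_right (mul_le_mul (hqp u) (hqp u') (hq0 u')
          (hS.pr_nonneg hl z u)) (hG0 r u u')

/-- the bound for families -/
theorem Cl.gen (hS : S.Reg) (hl : l ≤ S.K) (hC : 0 ≤ C)
    {h : (κ → X → ℝ) → (ι → ℝ) → X → ℝ} (hh : Cl S l κ C h) {J : κ → Type}
    [∀ r, Fintype (J r)] (φ : ∀ r, X → J r → ℝ) (z : ι → ℝ)
    (G : κ → X → X → ℝ) (hG0 : ∀ r x x', 0 ≤ G r x x')
    (hG : ∀ s s' : κ → X, ∏ r, |∑ j, φ r (s r) j * φ r (s' r) j| ≤ ∑ r, G r (s r) (s' r)) :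
    ∑ I : (∀ r, J r), (S.T l (h fun r s => φ r s (I r)) z) ^ 2 ≤ C ^ 2 * ∑ r, pp S l z (G r) := by
  obtain ⟨θ, π, hk, he⟩ := hh
  have h1 := ct_gen hS hl hC hk φ z G hG0 hG
  have e : ∀ I : (∀ r, J r), S.T l (h fun r s => φ r s (I r)) z =
      S.T l (fun z x => ct θ (fun r s => φ r s (I r)) z x) z := by
    intro I
    congr 1
    funext z x
    exact he _ z x
  simp_rw [e]
  exact h1

/-- `T_l` of a family is linear in every slot -/
theorem Cl.T_ct (hS : S.Reg) (hl : l ≤ S.K) {h : (κ → X → ℝ) → (ι → ℝ) → X → ℝ}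
    (hh : Cl S l κ C h) (z : ι → ℝ) :
    ∃ t : (κ → X) → ℝ, ∀ f, S.T l (h f) z = ∑ s, (∏ r, f r (s r)) * t s := by
  obtain ⟨θ, π, hk, he⟩ := hh
  refine ⟨fun s => S.T l (θ s) z, fun f => ?_⟩
  have e : h f = fun z x => ct θ f z x := by funext z x; exact he _ z x
  rw [e]
  unfold ct
  rw [hS.T_sum hl Finset.univ (fun s _ => Nh.const_mul _ (hk.nθ s))]
  exact Finset.sum_congr rfl fun s _ => T_const_mul _ _ _ _ _

/-- the last slot: subtraction of a constant -/
theorem Cl.T_sub (hS : S.Reg) (hl : l ≤ S.K) {h : (κ ⊕ Unit → X → ℝ) → (ι → ℝ) → X → ℝ}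
    (hh : Cl S l (κ ⊕ Unit) C h) (z : ι → ℝ) (f : κ → X → ℝ) (g : X → ℝ) (c : ℝ) :
    S.T l (h (Sum.elim f fun _ x => g x - c)) z =
      S.T l (h (Sum.elim f fun _ => g)) z - S.T l (h (Sum.elim f fun _ _ => c)) z := by
  obtain ⟨t, ht⟩ := hh.T_ct hS hl z
  rw [ht, ht, ht, ← Finset.sum_sub_distrib]
  refine Finset.sum_congr rfl fun s _ => ?_
  simp only [Fintype.prod_sum_type, Sum.elim_inl, Sum.elim_inr, Finset.univ_unique,
    Finset.prod_singleton]
  ring

variable {Δ : Type} {κ0 : Δ → Type} [∀ δ, Fintype (κ0 δ)] [∀ δ, DecidableEq (κ0 δ)]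
  {D : ι → (ι → ℝ) → X → ℝ} {ψ : ∀ δ, (κ0 δ → X → ℝ) → X → ℝ} {N : ℕ}
  {h g : (κ → X → ℝ) → (ι → ℝ) → X → ℝ}

/-- **The derivative of an average is an average.** -/
theorem Sm.T_dr (hS : S.RegD D) (hl : l ≤ S.K)
    (hψ : ∀ δ, Cl S l (κ0 δ) 1 fun g _ x => ψ δ g x) {i : ℕ} (hi : l ≤ i) (hiK : i ≤ S.K)
    (hC : 0 ≤ C) (hh : Sm S D l ψ (N + 1) κ C h) (δ : Δ) :
    ∃ q, Sm S D l ψ N (κ ⊕ κ0 δ) (C + 2 ^ N * (C * (1 + tc N))) q ∧
      Dr S D l (ψ δ) (fun f z _ => S.T i (h f) z) (fun f z _ => S.T i (q f) z) := by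
  have hR := hS.toReg
  obtain ⟨h', h1, h2⟩ := hh.2 δ
  have hψN : Sm S D l ψ N (κ0 δ) 1 fun g _ x => ψ δ g x := Sm.of_x hR hl zero_le_one (hψ δ)
  have hTj : ∀ j ∈ Finset.Ico (i + 1) (S.K + 1), Sm S D l ψ N (κ0 δ) (S.p j * tc N)
      fun g z x => (-S.p j) * S.T j (fun _ x => ψ δ g x) z := by
    intro j hj
    rw [Finset.mem_Ico] at hj
    have hp := p_nonneg hR (j := j) (by omega)
    have k := (Sm.T hS hl hψ (i := j) (by omega) (by omega) zero_le_one hψN).const_mul (-S.p j)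
    rw [abs_neg, abs_of_nonneg hp, mul_one] at k
    exact k
  have hm : Sm S D l ψ N (κ0 δ) (S.m (i + 1) * tc N)
      fun g z x => (-S.m (i + 1)) * S.T i (fun _ x => ψ δ g x) z := by
    have hp : 0 ≤ S.m (i + 1) := (hR.m_pos (by omega) (by omega)).le
    have k := (Sm.T hS hl hψ hi hiK zero_le_one hψN).const_mul (-S.m (i + 1))
    rw [abs_neg, abs_of_nonneg hp, mul_one] at k
    exact k
  have hcen : Sm S D l ψ N (κ0 δ) (1 + tc N) fun g z x => ψ δ g x +
      (∑ j ∈ Finset.Ico (i + 1) (S.K + 1), (-S.p j) * S.T j (fun _ x => ψ δ g x) z +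
        (-S.m (i + 1)) * S.T i (fun _ x => ψ δ g x) z) := by
    have k1 := Sm.sum hR hl (Finset.Ico (i + 1) (S.K + 1))
      (c := fun j => S.p j * tc N)
      (F := fun j g z x => (-S.p j) * S.T j (fun _ x => ψ δ g x) z)
      (fun j hj => mul_nonneg (p_nonneg hR (by rw [Finset.mem_Ico] at hj; omega))
        (tc_nonneg N)) hTj
    have hp : 0 ≤ S.m (i + 1) := (hR.m_pos (by omega) (by omega)).le
    have k2 := Sm.add hR hl (Finset.sum_nonneg fun j hj => mul_nonneg
      (p_nonneg hR (by rw [Finset.mem_Ico] at hj; omega)) (tc_nonneg N))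
      (mul_nonneg hp (tc_nonneg N)) k1 hm
    rw [← Finset.sum_mul, ← add_mul, sum_p hR hiK, one_mul] at k2
    exact Sm.add hR hl zero_le_one (tc_nonneg N) hψN k2
  have hprod := Sm.mul hR hl hC (by linarith [tc_nonneg N]) (hh.le (Nat.le_succ N)) hcen
  have hsum := Sm.add hR hl hC (by
    have := tc_nonneg N
    positivity) h2 hprod
  refine ⟨_, hsum, ⟨?_, ?_⟩⟩
  · intro e he β g hD f x
    have hn1 : Nh (h f) := hh.cl.nh f
    have hn2 : Nh fun z x => β * h' (Sum.elim f g) z x := Nh.const_mul _ (h2.cl.nh _)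
    have k := hS.pd_T hiK (he.trans hi) (h := h f)
      (h' := fun z x => β * h' (Sum.elim f g) z x) (fun x => h1.pd e he β g hD f x) hn1 hn2
    have hTD : ∀ j z, S.T j (D e) z = β * S.T j (fun _ x => ψ δ g x) z := by
      intro j z
      have e2 : D e = fun z x => β * (fun (_ : ι → ℝ) (x : X) => ψ δ g x) z x := by
        funext z x; exact hD z x
      rw [e2, T_const_mul]
    refine k.congr fun z => ?_
    rw [← T_const_mul]
    congr 1
    funext z x
    simp only [Sum.elim_inl, Sum.elim_inr, hTD, hD z x]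
    have e3 : ∑ j ∈ Finset.Ico (i + 1) (S.K + 1), S.p j * (β * S.T j (fun _ x => ψ δ g x) z) =
        β * ∑ j ∈ Finset.Ico (i + 1) (S.K + 1), S.p j * S.T j (fun _ x => ψ δ g x) z := by
      rw [Finset.mul_sum]
      exact Finset.sum_congr rfl fun j _ => by ring
    have e4 : ∑ j ∈ Finset.Ico (i + 1) (S.K + 1), (-S.p j) * S.T j (fun _ x => ψ δ g x) z =
        -∑ j ∈ Finset.Ico (i + 1) (S.K + 1), S.p j * S.T j (fun _ x => ψ δ g x) z := by
      rw [← Finset.sum_neg_distrib]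
      exact Finset.sum_congr rfl fun j _ => by ring
    rw [e3, e4]
    ring
  · intro g c hc f z x
    show S.T i _ z = 0
    have e5 : (fun (z : ι → ℝ) (x : X) => h' (Sum.elim f g) z x +
        h (fun r => (Sum.elim f g : κ ⊕ κ0 δ → X → ℝ) (Sum.inl r)) z x *
        (ψ δ (fun r => (Sum.elim f g : κ ⊕ κ0 δ → X → ℝ) (Sum.inr r)) x +
        (∑ j ∈ Finset.Ico (i + 1) (S.K + 1), (-S.p j) *
          S.T j (fun _ x => ψ δ (fun r => (Sum.elim f g : κ ⊕ κ0 δ → X → ℝ) (Sum.inr r)) x) z +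
        (-S.m (i + 1)) * S.T i (fun _ x => ψ δ (fun r =>
          (Sum.elim f g : κ ⊕ κ0 δ → X → ℝ) (Sum.inr r)) x) z))) = fun _ _ => 0 := by
      funext z x
      simp only [Sum.elim_inr]
      rw [h1.inv g c hc]
      have e6 : ∀ j, j ≤ S.K → S.T j (fun (_ : ι → ℝ) x => ψ δ (fun r => g r) x) z = c := by
        intro j hj
        have e7 : (fun (_ : ι → ℝ) (x : X) => ψ δ (fun r => g r) x) = fun _ _ => c := by
          funext _ x; exact hc x
        rw [e7, hR.T_const hj]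
      have e8 : ∑ j ∈ Finset.Ico (i + 1) (S.K + 1), (-S.p j) *
          S.T j (fun (_ : ι → ℝ) x => ψ δ (fun r => g r) x) z =
          ∑ j ∈ Finset.Ico (i + 1) (S.K + 1), (-S.p j) * c :=
        Finset.sum_congr rfl fun j hj => by
          rw [Finset.mem_Ico] at hj
          rw [e6 j (by omega)]
      rw [e8, e6 i hiK, hc x, ← Finset.sum_mul, Finset.sum_neg_distrib]
      have := sum_p hR hiK
      have e9 : c + (-∑ j ∈ Finset.Ico (i + 1) (S.K + 1), S.p j * c + -S.m (i + 1) * c) = 0 := by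
        rw [← Finset.sum_mul]
        have : ∑ j ∈ Finset.Ico (i + 1) (S.K + 1), S.p j = 1 - S.m (i + 1) := by linarith
        rw [this]; ring
      rw [← Finset.sum_mul] at e9
      have e10 : c + (-∑ j ∈ Finset.Ico (i + 1) (S.K + 1), S.p j) * c +
          -S.m (i + 1) * c = 0 := by linarith
      rw [zero_add, ← add_assoc, e10, mul_zero]
    rw [e5, hR.T_const hiK]

end Vale.Agent.P146.H877x
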