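import Vale.Agent.P146.H877x.Pq

/-!
# P146: the cross influences of the rows on the conditional vectors (helper877)
-/

open MeasureTheory ProbabilityTheory

namespace Vale.Agent.P146.H877x

open Vale.Agent.P157 Vale.Agent.P157.Lv Vale.Agent.P157.Lv.Sy
open Vale.Agent.P146.H425 Vale.Agent.P146.H946 Vale.Agent.P146.H985
open Vale.Agent.P146.H93 Vale.Agent.P146.H325 Vale.Agent.P146.H379.Row

set_option linter.unusedSectionVars false

section gen

variable {ι X : Type} [Fintype ι] [DecidableEq ι] [Fintype X] [DecidableEq X] [Nonempty X]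
variable {S : Sy ι X} {l : ℕ} {D : ι → (ι → ℝ) → X → ℝ}

lemma VLD_dep (hS : S.RegD D) (hl : l ≤ S.K) {e : ι} (he : S.lev e ≤ l) :
    Dep S.lev l (VLD S D l e) := Dep_pd (VL_pd hS hl he) (VL_dep hS.toReg hl) he

/-- **The influence of a set of coordinates** on `e^(VL/2) f`. -/
theorem infl (hS : S.RegD D) (hl : l ≤ S.K) {A : Finset ι} (hA : ∀ e ∈ A, S.lev e ≤ l)
    {f : (ι → ℝ) → ℝ} {f' : ι → (ι → ℝ) → ℝ} (hf : EG f) (hdf : Dep S.lev l f)
    (hfd : ∀ e ∈ A, PD e f (f' e)) (hf' : ∀ e ∈ A, EG (f' e)) :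
    ∫ z, (Real.exp (VL S l z / 2) * f z - PA A (fun z => Real.exp (VL S l z / 2) * f z) z) ^ 2
      ∂(gI ι) ≤ ∑ e ∈ A, (2 * S.Ex (fun z _ => f' e z ^ 2) +
        1 / 2 * S.Ex (fun z _ => VLD S D l e z ^ 2 * f z ^ 2)) := by
  have hR := hS.toReg
  have hE := eg_expV hR hl
  have hg : ∀ e ∈ A, EG fun z => f' e z + 1 / 2 * VLD S D l e z * f z := fun e he =>
    (hf' e he).add (((VLD_eg hS hl e).const_mul _).mul hf)
  refine (PA.poincare A (hE.mul hf) (fun e he => pd_expV hS hl (hA e he) (hfd e he))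
    (fun e he => hE.mul (hg e he))).trans (Finset.sum_le_sum fun e he => ?_)
  have hdf' : Dep S.lev l (f' e) := Dep_pd (hfd e he) hdf (hA e he)
  have hdV := VLD_dep hS hl (hA e he)
  rw [int_expV_sq hR hl (hg e he) (fun z w => by rw [hdf' z w, hdV z w, hdf z w]),
    ← Ex_const_mul, ← Ex_const_mul, ← hR.Ex_add
      (Nh.const_mul _ (Nh.fst ((hf' e he).pow 2)))
      (Nh.const_mul _ (Nh.fst (((VLD_eg hS hl e).pow 2).mul (hf.pow 2))))]
  refine hR.Ex_mono (Nh.fst ((hg e he).pow 2)) (Nh.add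
    (Nh.const_mul _ (Nh.fst ((hf' e he).pow 2)))
    (Nh.const_mul _ (Nh.fst (((VLD_eg hS hl e).pow 2).mul (hf.pow 2))))) fun z _ => ?_
  nlinarith [sq_nonneg (f' e z - 1 / 2 * VLD S D l e z * f z)]

end gen

section sk

variable {n K l : ℕ} {m b w : ℕ → ℝ}

/-- the sum of the squares of the amplitudes of the levels `≤ l` -/
noncomputable def SB (b : ℕ → ℝ) (l : ℕ) : ℝ := ∑ c ∈ Finset.range l, b (c + 1) ^ 2

lemma SB_nonneg (b : ℕ → ℝ) (l : ℕ) : 0 ≤ SB b l := Finset.sum_nonneg fun _ _ => sq_nonneg _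

/-- sums over a row -/
lemma row_sum_le {Y : ((Fin n → ℤˣ) → ℝ) → ℝ} (hY : ∀ f, 0 ≤ Y f) (b w : ℕ → ℝ) (i : Fin n)
    (hl : l ≤ K) :
    ∑ e ∈ rwl K i l, am b w e.1 (e.2 + 1) ^ 2 * Y (st e.1) ≤
      SB b l * ∑ a, Y (fun x => sp x i * sp x a) + SB w l * Y (fun x => sp x i) := by
  rw [sum_rwl i hl, Finset.sum_add_distrib]
  have h1 : ∑ k : Fin l, ∑ j : {j : Fin n // j ≠ i},
      am b w (Sum.inl (bnd i j.1 j.2.symm), Fin.castLE hl k).1
        (((Sum.inl (bnd i j.1 j.2.symm), Fin.castLE hl k) : Cd n K).2 + 1) ^ 2 *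
        Y (st (Sum.inl (bnd i j.1 j.2.symm), Fin.castLE hl k).1) ≤
      SB b l * ∑ a, Y (fun x => sp x i * sp x a) := by
    unfold SB
    rw [← Fin.sum_univ_eq_sum_range (fun c => b (c + 1) ^ 2) l, Finset.sum_mul]
    refine Finset.sum_le_sum fun k _ => ?_
    have e1 : ∀ j : {j : Fin n // j ≠ i}, st (Sum.inl (bnd i j.1 j.2.symm)) =
        fun x : Fin n → ℤˣ => sp x i * sp x j.1 := by
      intro j
      funext x
      exact SkS_bnd i j.1 j.2.symm x
    simp only [e1]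
    show ∑ j : {j : Fin n // j ≠ i}, b (k + 1) ^ 2 * Y (fun x => sp x i * sp x j.1) ≤ _
    rw [← Finset.mul_sum]
    refine mul_le_mul_of_nonneg_left ?_ (sq_nonneg _)
    have e2 : ∑ j : {j : Fin n // j ≠ i}, Y (fun x => sp x i * sp x j.1) =
        ∑ j ∈ Finset.univ.filter (fun j => j ≠ i), Y (fun x => sp x i * sp x j) := by
      rw [← Finset.sum_subtype_eq_sum_filter]
      refine Finset.sum_bij (fun j _ => j) ?_ ?_ ?_ ?_ <;> simp
    rw [e2]
    exact Finset.sum_le_sum_of_subset_of_nonneg (Finset.filter_subset _ _) fun _ _ _ => hY _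
  have h2 : ∑ k : Fin l, am b w (Sum.inr i, Fin.castLE hl k).1
        (((Sum.inr i, Fin.castLE hl k) : Cd n K).2 + 1) ^ 2 *
        Y (st (Sum.inr i, Fin.castLE hl k).1) = SB w l * Y (fun x => sp x i) := by
    unfold SB
    rw [← Fin.sum_univ_eq_sum_range (fun c => w (c + 1) ^ 2) l, Finset.sum_mul]
    rfl
  exact add_le_add h1 h2.le

/-- the bound of the gradient of the density -/
noncomputable def YV (S : Sy (Cd n K) (Fin n → ℤˣ)) (l : ℕ) (f : (Fin n → ℤˣ) → ℝ)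
    (z : Cd n K → ℝ) : ℝ :=
  2 * S.m l * (S.m l * S.T l (fun _ x => f x) z ^ 2 +
    ∑ j ∈ Finset.Ico 0 l, S.p j * S.T j (fun _ x => f x) z ^ 2)

lemma YV_nonneg {S : Sy (Cd n K) (Fin n → ℤˣ)} (hS : S.Reg) (hl : l ≤ S.K)
    (f : (Fin n → ℤˣ) → ℝ) (z : Cd n K → ℝ) : 0 ≤ YV S l f z := by
  have hm := m_nonneg hS (l := l) (by omega)
  have h1 : 0 ≤ ∑ j ∈ Finset.Ico 0 l, S.p j * S.T j (fun _ x => f x) z ^ 2 :=
    Finset.sum_nonneg fun j hj => by
      rw [Finset.mem_Ico] at hj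
      have hp := H877x.p_nonneg hS (j := j) (by omega)
      positivity
  unfold YV
  positivity

lemma eg_YV {S : Sy (Cd n K) (Fin n → ℤˣ)} (hS : S.Reg) (hl : l ≤ S.K)
    (f : (Fin n → ℤˣ) → ℝ) : EG (YV S l f) := by
  refine ((((hS.eg_T hl (Nh.snd f)).pow 2).const_mul _).add (EG.sum _ fun j hj => ?_)).const_mul _
  rw [Finset.mem_Ico] at hj
  exact ((hS.eg_T (by omega) (Nh.snd f)).pow 2).const_mul _

/-- `Ex YV ≤ 4 m² Ex (T_l f)²` -/
lemma Ex_YV_le {S : Sy (Cd n K) (Fin n → ℤˣ)} (hS : S.Reg) (hl : l ≤ S.K)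
    (f : (Fin n → ℤˣ) → ℝ) : S.Ex (fun z _ => YV S l f z) ≤
      4 * S.m l ^ 2 * S.Ex (fun z _ => S.T l (fun _ x => f x) z ^ 2) := by
  have hm := m_nonneg hS (l := l) (by omega)
  have hN : ∀ j ≤ S.K, Nh (X := Fin n → ℤˣ) fun z _ => S.T j (fun _ x => f x) z ^ 2 :=
    fun j hj => Nh.fst ((hS.eg_T hj (Nh.snd f)).pow 2)
  have hj' : ∀ j ∈ Finset.Ico 0 l, j ≤ S.K := fun j hj => by
    rw [Finset.mem_Ico] at hj; omega
  unfold YV
  rw [Ex_const_mul, hS.Ex_add (Nh.const_mul _ (hN l hl))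
    (Nh.sum _ fun j hj => Nh.const_mul _ (hN j (hj' j hj))), Ex_const_mul,
    hS.Ex_sum _ fun j hj => Nh.const_mul _ (hN j (hj' j hj))]
  simp_rw [Ex_const_mul]
  set E := S.Ex (fun z _ => S.T l (fun _ x => f x) z ^ 2) with hE
  have h1 : ∑ j ∈ Finset.Ico 0 l, S.p j * S.Ex (fun z _ => S.T j (fun _ x => f x) z ^ 2) ≤
      S.m l * E := by
    rw [← sum_p_bot hS l, Finset.sum_mul]
    refine Finset.sum_le_sum fun j hj => ?_
    have hp := H877x.p_nonneg hS (hj' j hj)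
    rw [Finset.mem_Ico] at hj
    exact mul_le_mul_of_nonneg_left (Ex_sq_T_mono hS (by omega) hl f) hp
  calc 2 * S.m l * (S.m l * E + _) ≤ 2 * S.m l * (S.m l * E + S.m l * E) :=
        mul_le_mul_of_nonneg_left (by linarith) (by positivity)
    _ = _ := by ring

lemma VLD_sq_le (hm : Em K m) (b w : ℕ → ℝ) (hl : l ≤ K) (e : Cd n K) (z : Cd n K → ℝ) :
    VLD (skS n K m b w) (fun e _ x => aSK n K b w x e) l e z ^ 2 ≤
      am b w e.1 (e.2 + 1) ^ 2 * YV (skS n K m b w) l (st e.1) z := by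
  have hS : (skS n K m b w).Reg := (linS_sk hm b w).reg
  set S := skS n K m b w with hSd
  have hlK : l ≤ S.K := hl
  rw [VLD_eq, mul_pow]
  refine mul_le_mul_of_nonneg_left ?_ (sq_nonneg _)
  have hml := m_nonneg hS (l := l) (by omega)
  unfold Rm YV
  set x := S.T l (fun _ x => st e.1 x) z with hx
  set Y := ∑ j ∈ Finset.Ico 0 l, S.p j *
    (if (e.2 : ℕ) + 1 ≤ j then S.T j (fun _ x => st e.1 x) z else 0) with hY
  have h1 : Y ^ 2 ≤ S.m l * ∑ j ∈ Finset.Ico 0 l, S.p j * S.T j (fun _ x => st e.1 x) z ^ 2 := by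
    have h2 := Finset.sum_sq_le_sum_mul_sum_of_sq_le_mul (Finset.Ico 0 l)
      (r := fun j => S.p j * (if (e.2 : ℕ) + 1 ≤ j then S.T j (fun _ x => st e.1 x) z else 0))
      (f := fun j => S.p j)
      (g := fun j => S.p j * (if (e.2 : ℕ) + 1 ≤ j then S.T j (fun _ x => st e.1 x) z else 0) ^ 2)
      (fun j hj => H877x.p_nonneg hS (by rw [Finset.mem_Ico] at hj; omega))
      (fun j hj => mul_nonneg (H877x.p_nonneg hS (by rw [Finset.mem_Ico] at hj; omega))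
        (sq_nonneg _)) (fun j _ => le_of_eq (by ring))
    rw [sum_p_bot hS l] at h2
    refine h2.trans (mul_le_mul_of_nonneg_left (Finset.sum_le_sum fun j hj => ?_) hml)
    have hp := H877x.p_nonneg hS (j := j) (by rw [Finset.mem_Ico] at hj; omega)
    refine mul_le_mul_of_nonneg_left ?_ hp
    split_ifs
    · exact le_rfl
    · rw [zero_pow (by norm_num)]; exact sq_nonneg _
  nlinarith [sq_nonneg (S.m l * x + Y)]

/-- the half density times the conditional vector -/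
noncomputable def FV (S : Sy (Cd n K) (Fin n → ℤˣ)) (l : ℕ) (j k : Fin n) (z : Cd n K → ℝ) : ℝ :=
  Real.exp (VL S l z / 2) * Vf S l j (fun x => sp x k) z

lemma sum_Ex_T2 {S : Sy (Cd n K) (Fin n → ℤˣ)} (hS : S.Reg) (hl : l ≤ S.K) :
    ∑ a, ∑ c, S.Ex (fun z _ => S.T l (fun _ x => sp x a * sp x c) z ^ 2) =
      (n : ℝ) ^ 2 * S.pairEx l (fun x x' => Rs n x x' ^ 2) := by
  rw [← Ex_pp, ← Ex_const_mul]
  simp_rw [← sum_sq_T2 hS hl]
  have e : ∀ a c : Fin n, Nh (X := Fin n → ℤˣ)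
      fun z _ => S.T l (fun _ x => sp x a * sp x c) z ^ 2 := fun a c =>
    Nh.fst ((hS.eg_T hl (Nh.snd fun x => sp x a * sp x c)).pow 2)
  rw [hS.Ex_sum _ fun a _ => Nh.sum _ fun c _ => e a c]
  exact Finset.sum_congr rfl fun a _ => (hS.Ex_sum _ fun c _ => e a c).symm

lemma sum_Ex_T1 {S : Sy (Cd n K) (Fin n → ℤˣ)} (hS : S.Reg) (hl : l ≤ S.K) :
    ∑ a, S.Ex (fun z _ => S.T l (fun _ x => sp x a) z ^ 2) = n * S.pairEx l (Rs n) := by
  rw [← Ex_pp, ← Ex_const_mul]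
  simp_rw [← sum_sq_T1 hS hl]
  exact (hS.Ex_sum _ fun a _ => Nh.fst ((hS.eg_T hl (Nh.snd fun x => sp x a)).pow 2)).symm

/-- **(Ib), summed**: the influence of all rows `i` on `e^(VL/2) V_k^(j)`. -/
theorem Ib_sum (hm : Em K m) (b w : ℕ → ℝ) (hl : l ≤ K) {μ : ℝ} (hμ : 0 < μ) (ρ : ℝ) :
    ∑ j, ∑ k, ∑ i, ∫ z, (FV (skS n K m b w) l j k z -
        PA (rwl K i l) (FV (skS n K m b w) l j k) z) ^ 2 ∂(gI (Cd n K)) ≤
      (n : ℝ) ^ 4 * SB b l * (2 * KV ^ 2 * (2 / μ * (skS n K m b w).pairEx l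
          (fun x x' => (Rs n x x' - ρ) ^ 2) + μ * (9 * (skS n K m b w).pairEx l
          (fun x x' => Rs n x x' ^ 4) + 8 * ρ ^ 4)) +
          8 * m l ^ 2 * (skS n K m b w).pairEx l (fun x x' => Rs n x x' ^ 2)) +
        (n : ℝ) ^ 3 * SB w l * (2 * KV ^ 2 * (skS n K m b w).pairEx l
          (fun x x' => Rs n x x' ^ 2) + 8 * m l ^ 2 * (skS n K m b w).pairEx l (Rs n)) := by
  have hS : (skS n K m b w).Reg := (linS_sk hm b w).reg
  have hSD := regD_sk (n := n) hm b w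
  set S := skS n K m b w with hSd
  have hlK : l ≤ S.K := hl
  have hVD : ∀ j : Fin n, ∃ V1 V2, VD S (fun e _ x => aSK n K b w x e) l j V1 V2 := fun j =>
    exists_VD hSD hlK j
  choose V1 V2 hV using hVD
  set Y : Fin n → Fin n → ((Fin n → ℤˣ) → ℝ) → ℝ := fun j k f =>
    2 * S.Ex (fun z _ => V1 j (fun x => sp x k) f z ^ 2) + 2 * S.Ex (fun z _ => YV S l f z)
    with hYd
  have hY0 : ∀ j k f, 0 ≤ Y j k f := fun j k f => by
    have h1 := Ex_nn hS (Nh.fst (X := Fin n → ℤˣ) (((hV j).eg1 (fun x => sp x k) f).pow 2))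
      fun z _ => sq_nonneg _
    have h2 := Ex_nn hS (Nh.fst (X := Fin n → ℤˣ) (eg_YV hS hlK f))
      fun z _ => YV_nonneg hS hlK f z
    simp only [hYd]
    linarith
  -- one row
  have h1 : ∀ j k i, ∫ z, (FV S l j k z - PA (rwl K i l) (FV S l j k) z) ^ 2 ∂(gI (Cd n K)) ≤
      SB b l * ∑ a, Y j k (fun x => sp x i * sp x a) + SB w l * Y j k (fun x => sp x i) := by
    intro j k i
    refine le_trans ?_ (row_sum_le (hY0 j k) b w i hl)
    have hAl : ∀ e ∈ rwl K i l, S.lev e ≤ l := fun e he => (mem_rwl.1 he).1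
    refine (infl hSD hlK hAl (eg_Vf hS hlK j fun x => sp x k) (dep_Vf S l j _)
      (f' := fun e z => am b w e.1 (e.2 + 1) * V1 j (fun x => sp x k) (st e.1) z)
      (fun e he => (hV j).pd0 e (hAl e he) _ (st e.1) (fun z x => rfl) _)
      (fun e he => ((hV j).eg1 _ _).const_mul _)).trans (Finset.sum_le_sum fun e he => ?_)
    have e1 : S.Ex (fun z _ => (am b w e.1 (e.2 + 1) *
        V1 j (fun x => sp x k) (st e.1) z) ^ 2) = am b w e.1 (e.2 + 1) ^ 2 *
        S.Ex (fun z _ => V1 j (fun x => sp x k) (st e.1) z ^ 2) := by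
      rw [← Ex_const_mul]
      congr 1
      funext z _
      rw [mul_pow]
    have e2 : S.Ex (fun z _ => VLD S (fun e _ x => aSK n K b w x e) l e z ^ 2 *
        Vf S l j (fun x => sp x k) z ^ 2) ≤ 4 * (am b w e.1 (e.2 + 1) ^ 2 *
        S.Ex (fun z _ => YV S l (st e.1) z)) := by
      rw [← Ex_const_mul, ← Ex_const_mul]
      refine hS.Ex_mono (Nh.fst (((VLD_eg hSD hlK e).pow 2).mul
        ((eg_Vf hS hlK j fun x => sp x k).pow 2)))
        (Nh.const_mul _ (Nh.const_mul _ (Nh.fst (eg_YV hS hlK (st e.1))))) fun z _ => ?_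
      have h2 := VLD_sq_le (n := n) hm b w hl e z
      have h3 := abs_Vf_le hS hlK j (f := fun x => sp x k) (fun x => (abs_sp x k).le) z
      have h4 : Vf S l j (fun x => sp x k) z ^ 2 ≤ 4 := by
        rw [← sq_abs]
        nlinarith [abs_nonneg (Vf S l j (fun x => sp x k) z)]
      calc _ ≤ (am b w e.1 (e.2 + 1) ^ 2 * YV S l (st e.1) z) * 4 :=
            mul_le_mul h2 h4 (sq_nonneg _)
              (mul_nonneg (sq_nonneg _) (YV_nonneg hS hlK _ z))
        _ = _ := by ring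
    rw [e1]
    simp only [hYd]
    linarith
  -- sum over everything
  refine (Finset.sum_le_sum fun j _ => Finset.sum_le_sum fun k _ =>
    Finset.sum_le_sum fun i _ => h1 j k i).trans ?_
  have e3 : ∀ j, ∑ k, ∑ i, (SB b l * ∑ a, Y j k (fun x => sp x i * sp x a) +
      SB w l * Y j k (fun x => sp x i)) = SB b l * (∑ k, ∑ i, ∑ a,
      Y j k (fun x => sp x i * sp x a)) + SB w l * ∑ k, ∑ i, Y j k (fun x => sp x i) := by
    intro j
    rw [Finset.mul_sum, Finset.mul_sum, ← Finset.sum_add_distrib]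
    refine Finset.sum_congr rfl fun k _ => ?_
    rw [Finset.mul_sum, Finset.mul_sum, ← Finset.sum_add_distrib]
  simp_rw [e3]
  have hn0 : (0 : ℝ) ≤ n := Nat.cast_nonneg n
  set P2 := S.pairEx l (fun x x' => Rs n x x' ^ 2) with hP2
  set P1 := S.pairEx l (Rs n) with hP1
  set Pc := 2 / μ * S.pairEx l (fun x x' => (Rs n x x' - ρ) ^ 2) +
    μ * (9 * S.pairEx l (fun x x' => Rs n x x' ^ 4) + 8 * ρ ^ 4) with hPc
  have hSm : S.m l = m l := rfl
  have hA : ∀ j, ∑ k, ∑ i, ∑ a, Y j k (fun x => sp x i * sp x a) ≤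
      2 * (KV ^ 2 * ((n : ℝ) ^ 3 * Pc)) + 2 * (n * (4 * m l ^ 2 * ((n : ℝ) ^ 2 * P2))) := by
    intro j
    have hN : ∀ k i a, Nh (X := Fin n → ℤˣ) fun z _ =>
        V1 j (fun x => sp x k) (fun x => sp x i * sp x a) z ^ 2 := fun k i a =>
      Nh.fst (((hV j).eg1 _ _).pow 2)
    have h2 : ∑ k, ∑ i, ∑ a, S.Ex (fun z _ =>
        V1 j (fun x => sp x k) (fun x => sp x i * sp x a) z ^ 2) ≤
        KV ^ 2 * ((n : ℝ) ^ 3 * Pc) := by
      have e4 : ∑ k, ∑ i, ∑ a, S.Ex (fun z _ =>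
          V1 j (fun x => sp x k) (fun x => sp x i * sp x a) z ^ 2) = S.Ex (fun z _ =>
          ∑ k, ∑ i, ∑ a, V1 j (fun x => sp x k) (fun x => sp x i * sp x a) z ^ 2) := by
        rw [hS.Ex_sum _ fun k _ => Nh.sum _ fun i _ => Nh.sum _ fun a _ => hN k i a]
        refine Finset.sum_congr rfl fun k _ => ?_
        rw [hS.Ex_sum _ fun i _ => Nh.sum _ fun a _ => hN k i a]
        refine Finset.sum_congr rfl fun i _ => ?_
        rw [hS.Ex_sum _ fun a _ => hN k i a]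
      have e5 : KV ^ 2 * ((n : ℝ) ^ 3 * Pc) = S.Ex (fun z _ => KV ^ 2 * ((n : ℝ) ^ 3 *
          (2 / μ * pp S l z (fun x x' => (Rs n x x' - ρ) ^ 2) +
          μ * (9 * pp S l z (fun x x' => Rs n x x' ^ 4) + 8 * ρ ^ 4)))) := by
        have n1 : Nh (X := Fin n → ℤˣ) fun z _ => pp S l z (fun x x' => (Rs n x x' - ρ) ^ 2) :=
          Nh.fst (eg_pp hS hlK _)
        have n2 : Nh (X := Fin n → ℤˣ) fun z _ => pp S l z (fun x x' => Rs n x x' ^ 4) :=
          Nh.fst (eg_pp hS hlK _)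
        have n3 : Nh (ι := Cd n K) (X := Fin n → ℤˣ) fun _ _ => 8 * ρ ^ 4 :=
          Nh.fst (EG.const _)
        rw [Ex_const_mul, Ex_const_mul, hS.Ex_add (Nh.const_mul _ n1)
          (Nh.const_mul _ (Nh.add (Nh.const_mul _ n2) n3)), Ex_const_mul, Ex_const_mul,
          hS.Ex_add (Nh.const_mul _ n2) n3, Ex_const_mul, hS.Ex_const, Ex_pp, Ex_pp]
      rw [e4, e5]
      refine hS.Ex_mono (Nh.sum _ fun k _ => Nh.sum _ fun i _ => Nh.sum _ fun a _ => hN k i a)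
        (Nh.fst ?_) fun z _ => conn_bound hS hlK (hV j) z hμ ρ
      have g1 := eg_pp hS hlK (fun x x' => (Rs n x x' - ρ) ^ 2)
      have g2 := eg_pp hS hlK (fun x x' => Rs n x x' ^ 4)
      exact (((g1.const_mul _).add (((g2.const_mul _).add (EG.const _)).const_mul _)).const_mul
        _).const_mul _
    have h3 : ∑ k : Fin n, ∑ i : Fin n, ∑ a : Fin n, S.Ex (fun z _ =>
        YV S l (fun x => sp x i * sp x a) z) ≤ n * (4 * m l ^ 2 * ((n : ℝ) ^ 2 * P2)) := by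
      rw [Finset.sum_const, Finset.card_univ, Fintype.card_fin, nsmul_eq_mul]
      refine mul_le_mul_of_nonneg_left ?_ hn0
      rw [hP2, ← sum_Ex_T2 hS hlK, Finset.mul_sum]
      refine Finset.sum_le_sum fun i _ => ?_
      rw [Finset.mul_sum]
      exact Finset.sum_le_sum fun a _ => Ex_YV_le hS hlK fun x => sp x i * sp x a
    have e6 : ∑ k, ∑ i, ∑ a, Y j k (fun x => sp x i * sp x a) =
        2 * (∑ k, ∑ i, ∑ a, S.Ex (fun z _ =>
          V1 j (fun x => sp x k) (fun x => sp x i * sp x a) z ^ 2)) +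
        2 * ∑ k : Fin n, ∑ i : Fin n, ∑ a : Fin n, S.Ex (fun z _ =>
          YV S l (fun x => sp x i * sp x a) z) := by
      simp only [hYd, Finset.sum_add_distrib, Finset.mul_sum]
    rw [e6]
    linarith
  have hB : ∀ j, ∑ k, ∑ i, Y j k (fun x => sp x i) ≤
      2 * (KV ^ 2 * ((n : ℝ) ^ 2 * P2)) + 2 * (n * (4 * m l ^ 2 * (n * P1))) := by
    intro j
    have hN : ∀ k i, Nh (X := Fin n → ℤˣ) fun z _ =>
        V1 j (fun x => sp x k) (fun x => sp x i) z ^ 2 := fun k i =>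
      Nh.fst (((hV j).eg1 _ _).pow 2)
    have h2 : ∑ k, ∑ i, S.Ex (fun z _ =>
        V1 j (fun x => sp x k) (fun x => sp x i) z ^ 2) ≤ KV ^ 2 * ((n : ℝ) ^ 2 * P2) := by
      have e4 : ∑ k, ∑ i, S.Ex (fun z _ =>
          V1 j (fun x => sp x k) (fun x => sp x i) z ^ 2) = S.Ex (fun z _ =>
          ∑ k, ∑ i, V1 j (fun x => sp x k) (fun x => sp x i) z ^ 2) := by
        rw [hS.Ex_sum _ fun k _ => Nh.sum _ fun i _ => hN k i]
        refine Finset.sum_congr rfl fun k _ => ?_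
        rw [hS.Ex_sum _ fun i _ => hN k i]
      rw [e4, hP2, ← Ex_pp, ← Ex_const_mul, ← Ex_const_mul]
      refine hS.Ex_mono (Nh.sum _ fun k _ => Nh.sum _ fun i _ => hN k i)
        (Nh.fst (((eg_pp hS hlK _).const_mul _).const_mul _)) fun z _ => ?_
      have h4 := (hV j).b1 (fun k x => sp x k) (fun k x => sp x k) z
        (fun x x' => (n : ℝ) ^ 2 * (1 / 2 * Rs n x x' ^ 2))
        (fun x x' => (n : ℝ) ^ 2 * (1 / 2 * Rs n x x' ^ 2))
        (fun x x' => by positivity) (fun x x' => by positivity) (fun x x' y y' => by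
          rw [sum_sp, sum_sp, abs_mul, abs_mul, Nat.abs_cast]
          have h5 : |Rs n x x'| * |Rs n y y'| ≤ 1 / 2 * Rs n x x' ^ 2 + 1 / 2 * Rs n y y' ^ 2 := by
            rw [← sq_abs (Rs n x x'), ← sq_abs (Rs n y y')]
            nlinarith [sq_nonneg (|Rs n x x'| - |Rs n y y'|)]
          have h6 := mul_le_mul_of_nonneg_left h5 (by positivity : (0 : ℝ) ≤ (n : ℝ) ^ 2)
          linarith)
      refine h4.trans (le_of_eq ?_)
      rw [pp_const_mul, pp_const_mul]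
      ring
    have h3 : ∑ k : Fin n, ∑ i : Fin n, S.Ex (fun z _ => YV S l (fun x => sp x i) z) ≤
        n * (4 * m l ^ 2 * (n * P1)) := by
      rw [Finset.sum_const, Finset.card_univ, Fintype.card_fin, nsmul_eq_mul]
      refine mul_le_mul_of_nonneg_left ?_ hn0
      rw [hP1, ← sum_Ex_T1 hS hlK, Finset.mul_sum]
      exact Finset.sum_le_sum fun i _ => Ex_YV_le hS hlK fun x => sp x i
    have e6 : ∑ k, ∑ i, Y j k (fun x => sp x i) =
        2 * (∑ k, ∑ i, S.Ex (fun z _ => V1 j (fun x => sp x k) (fun x => sp x i) z ^ 2)) +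
        2 * ∑ k : Fin n, ∑ i : Fin n, S.Ex (fun z _ => YV S l (fun x => sp x i) z) := by
      simp only [hYd, Finset.sum_add_distrib, Finset.mul_sum]
    rw [e6]
    linarith
  have h7 : ∑ j : Fin n, (SB b l * (∑ k, ∑ i, ∑ a, Y j k (fun x => sp x i * sp x a)) +
      SB w l * ∑ k, ∑ i, Y j k (fun x => sp x i)) ≤ ∑ _j : Fin n,
      (SB b l * (2 * (KV ^ 2 * ((n : ℝ) ^ 3 * Pc)) + 2 * (n * (4 * m l ^ 2 * ((n : ℝ) ^ 2 * P2))))
      + SB w l * (2 * (KV ^ 2 * ((n : ℝ) ^ 2 * P2)) + 2 * (n * (4 * m l ^ 2 * (n * P1))))) :=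
    Finset.sum_le_sum fun j _ => add_le_add
      (mul_le_mul_of_nonneg_left (hA j) (SB_nonneg b l))
      (mul_le_mul_of_nonneg_left (hB j) (SB_nonneg w l))
  refine h7.trans (le_of_eq ?_)
  rw [Finset.sum_const, Finset.card_univ, Fintype.card_fin, nsmul_eq_mul]
  ring

end sk

end Vale.Agent.P146.H877x
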