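import Vale.Agent.P146.H877x.Cls

/-!
# P146: norm bound of a contraction family (helper877)
-/

open MeasureTheory ProbabilityTheory

namespace Vale.Agent.P146.H877x

open Vale.Agent.P157 Vale.Agent.P157.Lv Vale.Agent.P157.Lv.Sy

set_option linter.unusedSectionVars false

variable {ι X : Type} [Fintype ι] [DecidableEq ι] [Fintype X] [DecidableEq X] [Nonempty X]
variable {S : Sy ι X} {l : ℕ} {κ κ' : Type} [Fintype κ] [DecidableEq κ] [Fintype κ']
  [DecidableEq κ'] {C C' : ℝ}

/-- arithmetic-geometric mean -/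
lemma prod_le_mean [Nonempty κ] (a : κ → ℝ) (ha : ∀ r, 0 ≤ a r) :
    ∏ r, a r ≤ 1 / Fintype.card κ * ∑ r, a r ^ Fintype.card κ := by
  have hc : (0 : ℝ) < Fintype.card κ := by exact_mod_cast Fintype.card_pos
  have h1 := Real.geom_mean_le_arith_mean_weighted Finset.univ
    (fun _ : κ => (1 : ℝ) / Fintype.card κ) (fun r => a r ^ Fintype.card κ)
    (fun _ _ => by positivity) (by
      rw [Finset.sum_const, Finset.card_univ, nsmul_eq_mul]; field_simp)
    (fun r _ => pow_nonneg (ha r) _)
  have h2 : ∀ r, (a r ^ Fintype.card κ) ^ ((1 : ℝ) / Fintype.card κ) = a r := by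
    intro r
    rw [one_div]
    exact Real.pow_rpow_inv_natCast (ha r) Fintype.card_ne_zero
  simp only [h2] at h1
  rw [Finset.mul_sum]
  exact h1

/-- two independent configurations given the levels at most `l` -/
noncomputable def pp (S : Sy ι X) (l : ℕ) (z : ι → ℝ) (ψ : X → X → ℝ) : ℝ :=
  ∑ x, ∑ x', S.pr l z x * S.pr l z x' * ψ x x'

/-- the pointwise bound of a contraction of replicas, slot functions `φ r I` indexed by `I : J r`,
overlaps `Q r` -/
lemma ct_bound [Nonempty κ] (hS : S.Reg) (hl : l ≤ S.K) (hC : 0 ≤ C) {θ π : (κ → X) → (ι → ℝ) → X → ℝ}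
    (hk : Kr S l κ C θ π) {J : Type} [Fintype J] (φ : κ → X → J → ℝ) (z : ι → ℝ) :
    ∑ I : κ → J, (S.T l (fun z x => ct θ (fun r s => φ r s (I r)) z x) z) ^ 2 ≤
      C ^ 2 * (1 / Fintype.card κ * ∑ r, pp S l z fun x x' =>
        |∑ j, φ r x j * φ r x' j| ^ Fintype.card κ) := by
  set t : (κ → X) → ℝ := fun s => S.T l (θ s) z with ht
  set p : (κ → X) → ℝ := fun s => S.T l (π s) z with hp
  have hp0 : ∀ s, 0 ≤ p s := by
    intro s
    have h1 := hS.T_mono hl (f := fun _ _ => (0 : ℝ)) (Nh.snd fun _ => 0) (hk.nπ s)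
      (fun z x => hk.π0 s z x) z
    rwa [hS.T_const hl] at h1
  have htp : ∀ s, |t s| ≤ C * p s := by
    intro s
    rw [hp, ht]
    simp only
    rw [← T_const_mul]
    exact abs_T_le_T hS hl (hk.nθ s) (Nh.const_mul _ (hk.nπ s)) (fun z x => hk.le s z x) z
  have hT : ∀ I : κ → J, S.T l (fun z x => ct θ (fun r s => φ r s (I r)) z x) z =
      ∑ s : κ → X, (∏ r, φ r (s r) (I r)) * t s := by
    intro I
    unfold ct
    rw [hS.T_sum hl Finset.univ (fun s _ => Nh.const_mul _ (hk.nθ s))]
    exact Finset.sum_congr rfl fun s _ => T_const_mul _ _ _ _ _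
  have hsq : ∑ I : κ → J, (∑ s : κ → X, (∏ r, φ r (s r) (I r)) * t s) ^ 2 =
      ∑ s : κ → X, ∑ s' : κ → X, t s * t s' * ∏ r, ∑ j, φ r (s r) j * φ r (s' r) j := by
    have e1 : ∀ I : κ → J, (∑ s : κ → X, (∏ r, φ r (s r) (I r)) * t s) ^ 2 =
        ∑ s : κ → X, ∑ s' : κ → X, t s * t s' * ∏ r, (φ r (s r) (I r) * φ r (s' r) (I r)) := by
      intro I
      rw [sq, Finset.sum_mul_sum]
      refine Finset.sum_congr rfl fun s _ => Finset.sum_congr rfl fun s' _ => ?_
      rw [Finset.prod_mul_distrib]
      ring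
    simp_rw [e1]
    rw [Finset.sum_comm]
    refine Finset.sum_congr rfl fun s _ => ?_
    rw [Finset.sum_comm]
    refine Finset.sum_congr rfl fun s' _ => ?_
    rw [← Finset.mul_sum]
    congr 1
    rw [Finset.prod_univ_sum]
    simp only [Fintype.piFinset_univ]
  simp_rw [hT]
  rw [hsq]
  have hc : (0 : ℝ) < Fintype.card κ := by exact_mod_cast Fintype.card_pos
  calc ∑ s : κ → X, ∑ s' : κ → X, t s * t s' * ∏ r, ∑ j, φ r (s r) j * φ r (s' r) j
      ≤ ∑ s : κ → X, ∑ s' : κ → X, (C * p s) * (C * p s') * (1 / Fintype.card κ *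
        ∑ r, |∑ j, φ r (s r) j * φ r (s' r) j| ^ Fintype.card κ) := by
        refine Finset.sum_le_sum fun s _ => Finset.sum_le_sum fun s' _ => ?_
        refine (le_abs_self _).trans ?_
        rw [abs_mul, abs_mul, Finset.abs_prod]
        refine mul_le_mul (mul_le_mul (htp s) (htp s') (abs_nonneg _)
          (mul_nonneg hC (hp0 s))) (prod_le_mean _ fun r => abs_nonneg _)
          (Finset.prod_nonneg fun r _ => abs_nonneg _)
          (mul_nonneg (mul_nonneg hC (hp0 s)) (mul_nonneg hC (hp0 s')))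
    _ = C ^ 2 * (1 / Fintype.card κ * ∑ r, ∑ s : κ → X, ∑ s' : κ → X, p s * p s' *
        |∑ j, φ r (s r) j * φ r (s' r) j| ^ Fintype.card κ) := by
        have e1 : ∀ s s' : κ → X, (C * p s) * (C * p s') * (1 / Fintype.card κ *
            ∑ r, |∑ j, φ r (s r) j * φ r (s' r) j| ^ Fintype.card κ) =
            ∑ r, C ^ 2 * (1 / Fintype.card κ) * (p s * p s' *
              |∑ j, φ r (s r) j * φ r (s' r) j| ^ Fintype.card κ) := by
          intro s s'
          rw [Finset.mul_sum, Finset.mul_sum]
          exact Finset.sum_congr rfl fun r _ => by ring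
        simp_rw [e1]
        have e2 : ∀ F : (κ → X) → (κ → X) → κ → ℝ, ∑ s, ∑ s', ∑ r, F s s' r =
            ∑ r, ∑ s, ∑ s', F s s' r := by
          intro F
          calc ∑ s, ∑ s', ∑ r, F s s' r = ∑ s, ∑ r, ∑ s', F s s' r :=
                Finset.sum_congr rfl fun s _ => Finset.sum_comm
            _ = _ := Finset.sum_comm
        rw [e2]
        simp_rw [← Finset.mul_sum]
        ring
    _ ≤ _ := by
        refine mul_le_mul_of_nonneg_left (mul_le_mul_of_nonneg_left (Finset.sum_le_sum fun r _ => ?_)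
          (by positivity)) (sq_nonneg C)
        set ψ : X → X → ℝ := fun x x' => |∑ j, φ r x j * φ r x' j| ^ Fintype.card κ with hψ
        have hψ0 : ∀ x x', 0 ≤ ψ x x' := fun x x' => by positivity
        set q : X → ℝ := fun u => ∑ s : κ → X, if s r = u then p s else 0 with hq
        have hq0 : ∀ u, 0 ≤ q u := fun u => Finset.sum_nonneg fun s _ => by
          split_ifs
          · exact hp0 s
          · exact le_rfl
        have hqp : ∀ u, q u ≤ S.pr l z u := by
          intro u
          refine le_of_eq_of_le ?_ (hk.mg r u z)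
          rw [hS.T_sum hl Finset.univ (fun s _ => nh_ite (hk.nπ s))]
          refine Finset.sum_congr rfl fun s _ => ?_
          by_cases hs : s r = u
          · simp only [hs, if_true]; rfl
          · simp only [hs, if_false]
            exact (hS.T_const hl 0 z).symm
        have hg : ∀ F : X → ℝ, ∑ s : κ → X, p s * F (s r) = ∑ u, q u * F u := by
          intro F
          rw [hq]
          simp only [Finset.sum_mul]
          rw [Finset.sum_comm]
          refine Finset.sum_congr rfl fun s _ => ?_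
          rw [Finset.sum_eq_single (s r)]
          · simp
          · intro u _ hu
            simp [Ne.symm hu]
          · simp
        have h1 : ∑ s : κ → X, ∑ s' : κ → X, p s * p s' * ψ (s r) (s' r) =
            ∑ u, ∑ u', q u * q u' * ψ u u' := by
          have e3 : ∀ s : κ → X, ∑ s' : κ → X, p s * p s' * ψ (s r) (s' r) =
              p s * (∑ u', q u' * ψ (s r) u') := by
            intro s
            rw [← hg (fun u' => ψ (s r) u'), Finset.mul_sum]
            exact Finset.sum_congr rfl fun s' _ => by ring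
          simp_rw [e3]
          rw [hg (fun u => ∑ u', q u' * ψ u u')]
          refine Finset.sum_congr rfl fun u _ => ?_
          rw [Finset.mul_sum]
          exact Finset.sum_congr rfl fun u' _ => by ring
        refine le_of_eq_of_le h1 ?_
        unfold pp
        refine Finset.sum_le_sum fun u _ => Finset.sum_le_sum fun u' _ => ?_
        exact mul_le_mul_of_nonneg_right (mul_le_mul (hqp u) (hqp u') (hq0 u')
          (hS.pr_nonneg hl z u)) (hψ0 u u')

/-- **Norm bound**, one vector of slot functions `φ j`. -/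
theorem Cl.norm [Nonempty κ] (hS : S.Reg) (hl : l ≤ S.K) (hC : 0 ≤ C)
    {h : (κ → X → ℝ) → (ι → ℝ) → X → ℝ} (hh : Cl S l κ C h) {J : Type} [Fintype J]
    (φ : X → J → ℝ) (z : ι → ℝ) :
    ∑ I : κ → J, (S.T l (h fun r s => φ s (I r)) z) ^ 2 ≤
      C ^ 2 * pp S l z fun x x' => |∑ j, φ x j * φ x' j| ^ Fintype.card κ := by
  obtain ⟨θ, π, hk, he⟩ := hh
  have h1 := ct_bound hS hl hC hk (fun _ => φ) z
  have e : ∀ I : κ → J, S.T l (h fun r s => φ s (I r)) z =
      S.T l (fun z x => ct θ (fun r s => φ s (I r)) z x) z := by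
    intro I
    congr 1
    funext z x
    exact he _ z x
  simp_rw [e]
  refine h1.trans (le_of_eq ?_)
  rw [Finset.sum_const, Finset.card_univ, nsmul_eq_mul]
  have hc : (0 : ℝ) < Fintype.card κ := by exact_mod_cast Fintype.card_pos
  field_simp

end Vale.Agent.P146.H877x
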