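import Vale.Agent.P146.H877x.Vvb
import Vale.Agent.P146.H379.RowG

/-!
# P146: the own and the cross influence `OwS`, `CrS` of the SK system with `K` levels (helper877)
-/

open MeasureTheory ProbabilityTheory

namespace Vale.Agent.P146.H877x

open Vale.Agent.P157 Vale.Agent.P157.Lv Vale.Agent.P157.Lv.Sy
open Vale.Agent.P146.H425 Vale.Agent.P146.H946 Vale.Agent.P146.H985
open Vale.Agent.P146.H93 Vale.Agent.P146.H325 Vale.Agent.P146.H379.Row

set_option linter.unusedSectionVars false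

variable {n K l : ℕ} {m b w : ℕ → ℝ}

lemma FF_eq_FV (S : Sy (Cd n K) (Fin n → ℤˣ)) (l : ℕ) (i k : Fin n) : FF S l i k = FV S l i k :=
  rfl

lemma bt2_eq (n : ℕ) (b : ℕ → ℝ) (l : ℕ) : bt2 n b l = n * SB b l := by
  unfold bt2 SB
  rw [Finset.mul_sum, ← Fin.sum_univ_eq_sum_range (fun c => (n : ℝ) * b (c + 1) ^ 2) l]

/-- **The own influence.** -/
theorem OwS_le (hm : Em K m) (b w : ℕ → ℝ) (hl : l ≤ K)
    (hL : 4 * m l ^ 2 * (n * SB b l + SB w l) ≤ 1 / 4) :
    OwS (skS n K m b w) l ≤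
      KV ^ 2 * (6 * ((n * SB b l) * ((n * SB b l) *
          (skS n K m b w).pairEx l (fun x x' => |Rs n x x'| ^ 3) + SB w l *
          (skS n K m b w).pairEx l (fun x x' => Rs n x x' ^ 2))) +
        2 * SB w l * (skS n K m b w).pairEx l (fun x x' => |Rs n x x'|) +
        2 * m l ^ 2 * ((n * SB b l) * (skS n K m b w).pairEx l (fun x x' => Rs n x x' ^ 2) +
          SB w l * (skS n K m b w).pairEx l (fun x x' => |Rs n x x'|))) := by
  have hS : (skS n K m b w).Reg := (linS_sk hm b w).reg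
  set X := KV ^ 2 * (6 * ((n * SB b l) * ((n * SB b l) *
          (skS n K m b w).pairEx l (fun x x' => |Rs n x x'| ^ 3) + SB w l *
          (skS n K m b w).pairEx l (fun x x' => Rs n x x' ^ 2))) +
        2 * SB w l * (skS n K m b w).pairEx l (fun x x' => |Rs n x x'|) +
        2 * m l ^ 2 * ((n * SB b l) * (skS n K m b w).pairEx l (fun x x' => Rs n x x' ^ 2) +
          SB w l * (skS n K m b w).pairEx l (fun x x' => |Rs n x x'|))) with hX
  have hX0 : 0 ≤ X := by
    have h1 : 0 ≤ (skS n K m b w).pairEx l (fun x x' => |Rs n x x'| ^ 3) :=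
      hS.pairEx_nonneg hl fun x x' => by positivity
    have h2 : 0 ≤ (skS n K m b w).pairEx l (fun x x' => Rs n x x' ^ 2) :=
      hS.pairEx_nonneg hl fun x x' => by positivity
    have h3 : 0 ≤ (skS n K m b w).pairEx l (fun x x' => |Rs n x x'|) :=
      hS.pairEx_nonneg hl fun x x' => by positivity
    have h4 := SB_nonneg b l
    have h5 := SB_nonneg w l
    rw [hX]
    positivity
  rcases Nat.eq_zero_or_pos n with hn | hn
  · subst hn
    unfold OwS
    simpa using hX0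
  have hn' : (0 : ℝ) < n := by exact_mod_cast hn
  have h1 : ∀ i : Fin n, ∑ k, (if k ≠ i then Ow (skS n K m b w) l i k else 0) ≤ n * X := by
    intro i
    rw [← Finset.sum_filter, Finset.filter_ne']
    exact VVb hm b w hl hL i
  unfold OwS
  calc 1 / (n : ℝ) ^ 2 * ∑ i, ∑ k, (if k ≠ i then Ow (skS n K m b w) l i k else 0) ≤
        1 / (n : ℝ) ^ 2 * ∑ _i : Fin n, n * X :=
        mul_le_mul_of_nonneg_left (Finset.sum_le_sum fun i _ => h1 i) (by positivity)
    _ = X := by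
        rw [Finset.sum_const, Finset.card_univ, Fintype.card_fin, nsmul_eq_mul]
        field_simp

/-- **The cross influence.** -/
theorem CrS_le (hm : Em K m) (b w : ℕ → ℝ) (hn : 0 < n) (hl : l ≤ K) {μ : ℝ} (hμ : 0 < μ)
    (ρ : ℝ) :
    CrS (skS n K m b w) l ≤
      (n * SB b l) * (2 * KV ^ 2 * (2 / μ * (skS n K m b w).pairEx l
          (fun x x' => (Rs n x x' - ρ) ^ 2) + μ * (9 * (skS n K m b w).pairEx l
          (fun x x' => Rs n x x' ^ 4) + 8 * ρ ^ 4)) +
          8 * m l ^ 2 * (skS n K m b w).pairEx l (fun x x' => Rs n x x' ^ 2)) +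
        SB w l * (2 * KV ^ 2 * (skS n K m b w).pairEx l
          (fun x x' => Rs n x x' ^ 2) + 8 * m l ^ 2 * (skS n K m b w).pairEx l (Rs n)) := by
  have h1 := Ib_sum hm b w hl hμ ρ (n := n)
  have hn' : (0 : ℝ) < n := by exact_mod_cast hn
  have h2 : ∑ i, ∑ j, ∑ k, (if i ≠ j ∧ k ≠ i ∧ k ≠ j then Cr (skS n K m b w) l i j k else 0) ≤
      ∑ j, ∑ k, ∑ i, ∫ z, (FV (skS n K m b w) l j k z -
        PA (rwl K i l) (FV (skS n K m b w) l j k) z) ^ 2 ∂(gI (Cd n K)) := by
    refine Finset.sum_le_sum fun i _ => ?_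
    rw [Finset.sum_comm]
    refine Finset.sum_le_sum fun k _ => Finset.sum_le_sum fun j _ => ?_
    split_ifs
    · exact le_rfl
    · exact integral_nonneg fun _ => sq_nonneg _
  unfold CrS
  have h3 := mul_le_mul_of_nonneg_left (h2.trans h1) (by positivity : 0 ≤ 1 / (n : ℝ) ^ 3)
  refine h3.trans (le_of_eq ?_)
  field_simp

/-- the optimal parameter -/
lemma opt_mu {X P Q a c : ℝ} (hQ : 0 ≤ Q) (ha : 0 ≤ a) (hc : 0 ≤ c)
    (h : ∀ μ : ℝ, 0 < μ → X ≤ P + Q * (2 / μ * a + μ * (17 * c))) :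
    X ≤ P + Q * (19 * √(a * c)) := by
  have h1 : ∀ ε : ℝ, 0 < ε → X ≤ P + Q * (19 * √((a + ε) * (c + ε))) := by
    intro ε hε
    have ha' : 0 < a + ε := by linarith
    have hc' : 0 < c + ε := by linarith
    set s := √((a + ε) * (c + ε)) with hs
    have hs0 : 0 < s := Real.sqrt_pos.2 (mul_pos ha' hc')
    have hs2 : s * s = (a + ε) * (c + ε) := Real.mul_self_sqrt (mul_pos ha' hc').le
    have h2 := h (s / (c + ε)) (by positivity)
    refine h2.trans ?_
    have e1 : 2 / (s / (c + ε)) * a ≤ 2 * s := by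
      have e2 : 2 / (s / (c + ε)) * a = 2 * ((c + ε) * a) / s := by field_simp
      rw [e2, div_le_iff₀ hs0]
      have : (c + ε) * a ≤ s * s := by rw [hs2]; nlinarith
      linarith
    have e3 : s / (c + ε) * (17 * c) ≤ 17 * s := by
      rw [div_mul_eq_mul_div, div_le_iff₀ hc']
      nlinarith
    have h4 := mul_le_mul_of_nonneg_left (add_le_add e1 e3) hQ
    linarith
  have ht : Filter.Tendsto (fun ε : ℝ => P + Q * (19 * √((a + ε) * (c + ε))))
      (nhdsWithin 0 (Set.Ioi 0)) (nhds (P + Q * (19 * √((a + 0) * (c + 0))))) := by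
    have hc : Continuous fun ε : ℝ => P + Q * (19 * √((a + ε) * (c + ε))) := by fun_prop
    exact (hc.tendsto 0).mono_left nhdsWithin_le_nhds
  simp only [add_zero] at ht
  refine ge_of_tendsto ht ?_
  filter_upwards [self_mem_nhdsWithin] with ε hε
  exact h1 ε hε

/-- `ρ⁴ ≤ E R⁴` for the mean overlap -/
lemma pow_four_le (hm : Em K m) (b w : ℕ → ℝ) (hl : l ≤ K) :
    ((skS n K m b w).pairEx l (Rs n)) ^ 4 ≤
      (skS n K m b w).pairEx l (fun x x' => Rs n x x' ^ 4) := by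
  have hS : (skS n K m b w).Reg := (linS_sk hm b w).reg
  have hlK : l ≤ (skS n K m b w).K := hl
  set S := skS n K m b w with hSd
  have key : ∀ ψ : (Fin n → ℤˣ) → (Fin n → ℤˣ) → ℝ,
      S.pairEx l ψ ^ 2 ≤ S.pairEx l (fun x x' => ψ x x' ^ 2) := by
    intro ψ
    have h1 := hS.Ex_cs (Nh.fst (X := Fin n → ℤˣ) (eg_pp hS hlK ψ))
      (Nh.fst (X := Fin n → ℤˣ) (EG.const (1 : ℝ)))
    simp only [mul_one, one_pow, hS.Ex_const] at h1
    refine h1.trans (hS.Ex_mono (Nh.fst ((eg_pp hS hlK ψ).pow 2))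
      (Nh.fst (eg_pp hS hlK _)) fun z _ => sq_pp_le hS hlK z ψ)
  have h1 := key (Rs n)
  have h2 := key (fun x x' => Rs n x x' ^ 2)
  have e1 : S.pairEx l (Rs n) ^ 4 = (S.pairEx l (Rs n) ^ 2) ^ 2 := by ring
  have e2 : (fun x x' : Fin n → ℤˣ => (Rs n x x' ^ 2) ^ 2) = fun x x' => Rs n x x' ^ 4 := by
    funext x x'; ring
  rw [e2] at h2
  rw [e1]
  exact (pow_le_pow_left₀ (sq_nonneg _) h1 2).trans h2

/-- **The cross influence**, optimised: `ρ = E R`. -/
theorem CrS_le' (hm : Em K m) (b w : ℕ → ℝ) (hn : 0 < n) (hl : l ≤ K) :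
    CrS (skS n K m b w) l ≤
      (n * SB b l) * (38 * KV ^ 2 * √((skS n K m b w).pairEx l
          (fun x x' => (Rs n x x' - (skS n K m b w).pairEx l (Rs n)) ^ 2) *
          (skS n K m b w).pairEx l (fun x x' => Rs n x x' ^ 4)) +
          8 * m l ^ 2 * (skS n K m b w).pairEx l (fun x x' => Rs n x x' ^ 2)) +
        SB w l * (2 * KV ^ 2 * (skS n K m b w).pairEx l
          (fun x x' => Rs n x x' ^ 2) + 8 * m l ^ 2 * (skS n K m b w).pairEx l (Rs n)) := by
  have hS : (skS n K m b w).Reg := (linS_sk hm b w).reg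
  have hlK : l ≤ (skS n K m b w).K := hl
  have h4 := pow_four_le (n := n) hm b w hl
  have h1 := fun (μ : ℝ) (hμ : 0 < μ) => CrS_le hm b w hn hl hμ
    ((skS n K m b w).pairEx l (Rs n))
  set S := skS n K m b w with hSd
  set ρ := S.pairEx l (Rs n) with hρ
  set a := S.pairEx l (fun x x' => (Rs n x x' - ρ) ^ 2) with ha
  set c := S.pairEx l (fun x x' => Rs n x x' ^ 4) with hc
  have ha0 : 0 ≤ a := hS.pairEx_nonneg hlK fun x x' => sq_nonneg _
  have hc0 : 0 ≤ c := hS.pairEx_nonneg hlK fun x x' => by positivity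
  have hB := SB_nonneg b l
  have hn0 : (0 : ℝ) ≤ n := Nat.cast_nonneg n
  set P := (n * SB b l) * (8 * m l ^ 2 * S.pairEx l (fun x x' => Rs n x x' ^ 2)) +
    SB w l * (2 * KV ^ 2 * S.pairEx l (fun x x' => Rs n x x' ^ 2) + 8 * m l ^ 2 * ρ) with hP
  have h2 : CrS S l ≤ P + (n * SB b l) * (2 * KV ^ 2) * (19 * √(a * c)) := by
    refine opt_mu (by positivity) ha0 hc0 fun μ hμ => (h1 μ hμ).trans ?_
    have h5 : μ * (9 * c + 8 * ρ ^ 4) ≤ μ * (17 * c) :=
      mul_le_mul_of_nonneg_left (by linarith) hμ.le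
    have h6 := mul_le_mul_of_nonneg_left h5 (by positivity : 0 ≤ (n * SB b l) * (2 * KV ^ 2))
    rw [hP]
    linarith
  refine h2.trans (le_of_eq ?_)
  rw [hP]
  ring

end Vale.Agent.P146.H877x
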