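import Vale.Agent.P146.H877x.PerN
import Vale.Agent.P146.H607.X4

/-!
# P146: (P4) at the bundled cross law (helper877)

`p4X`: `θ ≤ (1 + C A) (v - y) / (4 (2v - y)²) A² + error`, `A = (α - s)₊`.
-/

open MeasureTheory ProbabilityTheory

namespace Vale.Agent.P146.H877x

open Vale.Agent.P157 Vale.Agent.P157.Lv Vale.Agent.P157.Lv.Sy
open Vale.Agent.P146.H425 Vale.Agent.P146.H985
open Vale.Agent.P146.H93 (Cd st am aSK skS Em linS_sk)
open Vale.Agent.P146.H379.Row Vale.Agent.P146.H946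
open Vale.Agent.P146.H295 (spn zs)
open Vale.Agent.P146.H93.Pnum (CU KU)
open Vale.Agent.P146.H186 (amp)
open Vale.Agent.P146.H607

set_option linter.unusedSectionVars false

section bt

variable {n : ℕ} {b w : ℕ → ℝ} {l : ℕ}

lemma bt2_zero' (n : ℕ) (b : ℕ → ℝ) : bt2 n b 0 = 0 := by
  unfold bt2
  simp

lemma bt2_succ' (n : ℕ) (b : ℕ → ℝ) (l : ℕ) :
    bt2 n b (l + 1) = bt2 n b l + n * b (l + 1) ^ 2 := by
  unfold bt2
  rw [Fin.sum_univ_eq_sum_range (fun q => (n : ℝ) * b (q + 1) ^ 2) (l + 1),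
    Fin.sum_univ_eq_sum_range (fun q => (n : ℝ) * b (q + 1) ^ 2) l, Finset.sum_range_succ]

end bt

section bx

variable {n a : ℕ} {β u y v δ e s w : ℝ} {V : {p // p ∈ PX a} → ℝ}

/-- the bonds of the levels `≤ 2a` -/
lemma bt2_bX_C (hn : 0 < n) (_ha : 1 ≤ a) (hs : s * u ^ 2 ≤ 1) {l : ℕ} (h1 : 1 ≤ l)
    (h2 : l ≤ 2 * a) : bt2 n (bX n a β u e s) l = β ^ 2 * (1 - s * u ^ 2) := by
  have hn' : (n : ℝ) ≠ 0 := by exact_mod_cast hn.ne'
  induction l, h1 using Nat.le_induction with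
  | base =>
    rw [bt2_succ', bt2_zero', sq_one hn hs]
    field_simp
    ring
  | succ l hl ih =>
    rw [bt2_succ', ih (by omega)]
    have : bX n a β u e s (l + 1) = 0 := by
      unfold bX
      rw [if_neg (by omega), if_neg (by omega), if_neg (by omega)]
    rw [this]
    ring

/-- the bonds of the levels `2a + 1 .. 3a + 1` -/
lemma bt2_bX_D (hn : 0 < n) (ha : 1 ≤ a) (hs : s * u ^ 2 ≤ 1) (he : 0 ≤ e) {l : ℕ}
    (h1 : 2 * a + 1 ≤ l) (h2 : l ≤ 3 * a + 1) :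
    bt2 n (bX n a β u e s) l = β ^ 2 * (1 - s * u ^ 2) + β ^ 2 * (e * u ^ 2) := by
  have hn' : (n : ℝ) ≠ 0 := by exact_mod_cast hn.ne'
  have hn0 : (0 : ℝ) ≤ n := Nat.cast_nonneg n
  induction l, h1 using Nat.le_induction with
  | base =>
    rw [bt2_succ', bt2_bX_C hn ha hs (by omega) le_rfl]
    have : bX n a β u e s (2 * a + 1) = β / √n * √(e * u ^ 2) := by
      unfold bX
      rw [if_neg (by omega), if_pos rfl]
    rw [this, mul_pow, div_pow, Real.sq_sqrt hn0, Real.sq_sqrt (by positivity)]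
    field_simp
  | succ l hl ih =>
    rw [bt2_succ', ih (by omega)]
    have : bX n a β u e s (l + 1) = 0 := by
      unfold bX
      rw [if_neg (by omega), if_neg (by omega), if_neg (by omega)]
    rw [this]
    ring

/-- the visible fields of the levels `≤ 3a + 1` -/
lemma SB_amp (hV : ∀ p, 0 < V p) {l : ℕ} (hl : l ≤ 3 * a + 1) :
    SB (amp (wX a u w) (PX a) V) l ≤ ∑ p, V p := by
  unfold SB
  set f : ℕ → ℝ := fun p => if h : p ∈ PX a then V ⟨p, h⟩ else 0 with hf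
  have hf0 : ∀ p, 0 ≤ f p := by
    intro p
    rw [hf]
    dsimp only
    split_ifs with h
    · exact (hV _).le
    · exact le_rfl
  have h1 : ∀ c ∈ Finset.range l, amp (wX a u w) (PX a) V (c + 1) ^ 2 = f (c + 1) := by
    intro c hc
    rw [Finset.mem_range] at hc
    have hp : c + 1 ∈ PX a := by unfold PX; rw [Finset.mem_Icc]; omega
    rw [hf]
    dsimp only
    rw [dif_pos hp]
    unfold amp
    rw [dif_pos hp, Real.sq_sqrt (hV _).le]
  rw [Finset.sum_congr rfl h1]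
  have h2 : ∑ p, V p = ∑ p ∈ PX a, f p := by
    rw [← Finset.sum_coe_sort (PX a) f]
    refine Finset.sum_congr rfl fun p _ => ?_
    rw [hf]
    dsimp only
    rw [dif_pos p.2]
  rw [h2]
  have h3 : ∑ c ∈ Finset.range l, f (c + 1) ≤ ∑ c ∈ Finset.range (3 * a + 1), f (c + 1) :=
    Finset.sum_le_sum_of_subset_of_nonneg (Finset.range_mono hl) fun _ _ _ => hf0 _
  refine h3.trans (le_of_eq ?_)
  unfold PX
  rw [Finset.sum_bij (fun c _ => c + 1)]
  · intro c hc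
    rw [Finset.mem_range] at hc
    rw [Finset.mem_Icc]
    omega
  · intro c _ c' _ h
    omega
  · intro p hp
    rw [Finset.mem_Icc] at hp
    exact ⟨p - 1, by rw [Finset.mem_range]; omega, by omega⟩
  · intro c _
    rfl

lemma alX_eq (hn : 0 < n) : alX n a β u y v δ e s w V =
    H479.alU n (KX a) (mX a u y v δ) (bX n a β u e s) (amp (wX a u w) (PX a) V) β u
      (3 * a + 2) := by
  have hn' : (n : ℝ) ≠ 0 := by exact_mod_cast hn.ne'
  unfold alX H479.alU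
  rw [cSK_chX hn]
  have : β * (n * chX n a β u y v δ e s w V (3 * a + 2)) / n =
      β * chX n a β u y v δ e s w V (3 * a + 2) := by field_simp
  rw [this]

/-- the slope from above -/
lemma thX_le (hn : 0 < n) (ha1 : 1 ≤ a) (hm : Em (KX a) (mX a u y v δ)) (hu : 0 < u)
    (hy : 0 < y) (hv0 : 0 < v) (hδ : 0 ≤ δ) {ϑ₀ : ℝ} (hϑ0 : 0 ≤ ϑ₀)
    (hϑ : TX n a β u y v δ e s w V (3 * a + 1) ≤ ϑ₀ * u ^ 2) :
    thX n a β u y v δ e s w V ≤ β ^ 2 / 4 * ((v - y) * (TX n a β u y v δ e s w V a / u ^ 2)) +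
      β ^ 2 / 4 * ((y + v) * δ * ϑ₀) := by
  have hn' : (0 : ℝ) < n := by exact_mod_cast hn
  have hKa : a ≤ KX a := by unfold KX; omega
  have hm10 := hm.pos
  have hT0 : 0 ≤ TX n a β u y v δ e s w V a := TX_nonneg hn hm hKa
  have hTa : TX n a β u y v δ e s w V a ≤ ϑ₀ * u ^ 2 :=
    (TX_mono hn hm (by omega) (by unfold KX; omega)).trans hϑ
  have hm1 : u * (y * (1 - δ)) ≤ mX a u y v δ 1 := mX_one_ge ha1 hu.le hy.le hδ
  have hmq := mX_q_le (a := a) (y := y) hu hv0 hδ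
  have hmq0 := mX_q_ge (a := a) (y := y) hu hv0 hδ
  have hE : mX a u y v δ (3 * a + 2) = u * v := mX_E
  have h1 : ∑ l ∈ Finset.Ico 1 (3 * a + 2),
      (mX a u y v δ (l + 1) - mX a u y v δ l) * (TX n a β u y v δ e s w V l - 1 / n) ≤
      (mX a u y v δ (a + 1) - mX a u y v δ 1) * TX n a β u y v δ e s w V a +
      (mX a u y v δ (3 * a + 2) - mX a u y v δ (a + 1)) * (ϑ₀ * u ^ 2) := by
    rw [← Finset.sum_Ico_consecutive _ (show 1 ≤ a + 1 by omega) (show a + 1 ≤ 3 * a + 2 by omega)]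
    refine add_le_add ?_ ?_
    · rw [← Finset.sum_Ico_sub (fun i => mX a u y v δ i) (show 1 ≤ a + 1 by omega),
        Finset.sum_mul]
      refine Finset.sum_le_sum fun l hl => ?_
      rw [Finset.mem_Ico] at hl
      refine mul_le_mul_of_nonneg_left ?_ (by linarith [hm.mono l (by unfold KX; omega)])
      have h2 := TX_mono (β := β) (e := e) (s := s) (w := w) (V := V) hn hm
        (show l ≤ a by omega) hKa
      have : (0 : ℝ) ≤ 1 / n := by positivity
      linarith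
    · rw [← Finset.sum_Ico_sub (fun i => mX a u y v δ i) (show a + 1 ≤ 3 * a + 2 by omega),
        Finset.sum_mul]
      refine Finset.sum_le_sum fun l hl => ?_
      rw [Finset.mem_Ico] at hl
      refine mul_le_mul_of_nonneg_left ?_ (by linarith [hm.mono l (by unfold KX; omega)])
      have h2 := (TX_mono (β := β) (e := e) (s := s) (w := w) (V := V) hn hm
        (show l ≤ 3 * a + 1 by omega) (by unfold KX; omega)).trans hϑ
      have : (0 : ℝ) ≤ 1 / n := by positivity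
      linarith
  have h2 : (mX a u y v δ (a + 1) - mX a u y v δ 1) * TX n a β u y v δ e s w V a ≤
      u * (v - y) * TX n a β u y v δ e s w V a + u * (y * δ) * (ϑ₀ * u ^ 2) := by
    have h3 : mX a u y v δ (a + 1) - mX a u y v δ 1 ≤ u * (v - y) + u * (y * δ) := by
      have e1 : u * (v - y) + u * (y * δ) = u * v - u * (y * (1 - δ)) := by ring
      linarith
    have h4 := mul_le_mul_of_nonneg_right h3 hT0
    have h5 : u * (y * δ) * TX n a β u y v δ e s w V a ≤ u * (y * δ) * (ϑ₀ * u ^ 2) :=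
      mul_le_mul_of_nonneg_left hTa (by positivity)
    linarith [show (u * (v - y) + u * (y * δ)) * TX n a β u y v δ e s w V a =
      u * (v - y) * TX n a β u y v δ e s w V a + u * (y * δ) * TX n a β u y v δ e s w V a by ring]
  have h3 : (mX a u y v δ (3 * a + 2) - mX a u y v δ (a + 1)) * (ϑ₀ * u ^ 2) ≤
      u * (v * δ) * (ϑ₀ * u ^ 2) := by
    refine mul_le_mul_of_nonneg_right ?_ (by positivity)
    rw [hE]
    linarith [show u * (v * δ) = u * v - u * (v * (1 - δ)) by ring]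
  have hu3 : 0 < u ^ 3 := by positivity
  unfold thX
  rw [div_le_iff₀ hu3]
  have e2 : (β ^ 2 / 4 * ((v - y) * (TX n a β u y v δ e s w V a / u ^ 2)) +
      β ^ 2 / 4 * ((y + v) * δ * ϑ₀)) * u ^ 3 = β ^ 2 / 4 *
      (u * (v - y) * TX n a β u y v δ e s w V a + u * (y * δ) * (ϑ₀ * u ^ 2) +
        u * (v * δ) * (ϑ₀ * u ^ 2)) := by
    field_simp
    ring
  rw [e2]
  exact mul_le_mul_of_nonneg_left (by linarith) (by positivity)

/-- **(P4): the cross row, upper side, in unit-scale numbers.** -/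
theorem p4X (hn : 0 < n) (ha : 2 < a) (hu : 0 < u) (hy : 0 < y)
    (hyv : y < v) (hv : y ≤ v * (1 - δ)) (hδ : 0 ≤ δ) (hδ1 : δ < 1) (hv1 : u * v ≤ 1)
    (hβ : 1 ≤ β) (hs : 0 ≤ s) (hsu : s * u ^ 2 ≤ 1 / 2) (he : 0 < e) (he1 : e ≤ 1)
    (hes : e ≤ s) (hV : ∀ p, 0 < V p) {κ₂ k C4 π₀ γ₀ ϑ₀ D t ε x : ℝ} (hκ : 0 < κ₂)
    (hVκ : ∀ p, κ₂ * u ^ 3 ≤ V p) (hVk : ∑ p, V p ≤ k * u ^ 3)
    (hπ : 0 < π₀) (hπV : π₀ ≤ v * δ / (2 * a + 2))
    (hγ : ∀ l, 1 ≤ l → l ≤ 3 * a + 1 → H295.gg (SX n a β u y v δ e s w V) (spn n)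
      (zs (KX_pos (a := a))) (amp (wX a u w) (PX a) V) l l ≤ γ₀ * u ^ 4)
    (hϑ0 : 0 ≤ ϑ₀) (hϑC : ϑ₀ ≤ C4 ^ 2)
    (hϑ : TX n a β u y v δ e s w V (3 * a + 1) ≤ ϑ₀ * u ^ 2)
    (h4 : ∀ l < KX a, (SX n a β u y v δ e s w V).pairEx l
      (fun x x' => Rov (spn n) x x' ^ 4) ≤ (C4 * u) ^ 4)
    (hD0 : 0 < D) (hDC : D ≤ C4) (hD : 5 * ϑ₀ / (a - 2) + 20 * γ₀ / π₀ ^ 2 ≤ D ^ 2)
    (hC4 : 0 < C4) (hvC : v ≤ C4) (hCu : C4 * u ≤ 1)
    (hsm : 4 * (C4 * u) ^ 2 * (β ^ 2 + k * u ^ 3) ≤ 1 / 4)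
    (hκθ : k * u ^ 3 + β ^ 2 / n ≤ C4 * u) (ht : 0 < t) (ht1 : t ≤ 1)
    (hχ : |β * chX n a β u y v δ e s w V (a + 1) - 1| ≤ 1 / 4)
    (hv2 : 1 / 2 ≤ v) (hε : 0 < ε) (hε1 : ε ≤ 1)
    (hE : eT n (C4 * u) (D * u) (k * u ^ 3) (β ^ 2) (γ₀ * u ^ 4) (π₀ * u) (κ₂ * u ^ 3) t
      (v * δ * u) ≤ x * u ^ 3)
    (c1 : C4 ^ 2 * β ^ 2 * u ^ 2 ≤ ε / 200) (c2 : x ≤ ε ^ 2 * e / 400)
    (c3 : KV ^ 2 * (60 * (β ^ 2) ^ 3) * (D * C4 ^ 2 + C4 ^ 4 * u + k) + 16 * k + 2 * x ≤ ε)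
    (c4 : D ^ 2 ≤ ε) (c5 : 48 * k ≤ ε) :
    thX n a β u y v δ e s w V ≤
      (1 + CU β (KV ^ 2 * (60 * (β ^ 2) ^ 3)) * max (alX n a β u y v δ e s w V - s) 0) *
        ((v - y) / (4 * (2 * v - y) ^ 2) * max (alX n a β u y v δ e s w V - s) 0 ^ 2) +
      β ^ 2 / 4 * ((y + v) * δ * ϑ₀ + (v - y) * (KU (KV ^ 2 * (60 * (β ^ 2) ^ 3)) (v - y) * ε +
        6 * (s * u ^ 2) / (β * (2 * v - y)) ^ 2)) := by
  have ha1 : 1 ≤ a := by omega
  have hn' : (0 : ℝ) < n := by exact_mod_cast hn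
  have hv0 : 0 < v := hy.trans hyv
  have hβ0 : 0 < β := by linarith
  have hβ2 : 1 ≤ β ^ 2 := one_le_pow₀ hβ
  have hm := em_mX (u := u) (y := y) (v := v) (δ := δ) ha1 hu hy hv hδ hδ1 hv1
  have hk0 : 0 ≤ k * u ^ 3 := (Finset.sum_nonneg fun p _ => (hV p).le).trans hVk
  have hK : KX a = 3 * a + 2 := rfl
  have hsu1 : s * u ^ 2 ≤ 1 := by linarith
  obtain ⟨l0, h0a, h0b, h0c⟩ := goodX (β := β) (e := e) (s := s) (w := w) hn ha1 hu hm hV hπ hπV
    hγ hϑ0 hϑ (a' := a + 1) (c' := 2 * a) (by omega) (by omega) (by omega) ha (by omega) hD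
  obtain ⟨l1, h1a, h1b, h1c⟩ := goodX (β := β) (e := e) (s := s) (w := w) hn ha1 hu hm hV hπ hπV
    hγ hϑ0 hϑ (a' := 2 * a + 2) (c' := 3 * a) (by omega) (by omega) (by omega) ha (by omega) hD
  have hle : ∀ l, 1 ≤ l → l ≤ 3 * a + 2 → mX a u y v δ l ≤ u * v := by
    intro l _ h2
    have h3 := Em.mono' hm (i := l) (j := 3 * a + 2) h2 (by unfold KX; omega)
    rwa [mX_E] at h3
  have hvC' : u * v ≤ C4 * u := by
    calc u * v = v * u := mul_comm _ _
      _ ≤ C4 * u := mul_le_mul_of_nonneg_right hvC hu.le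
  -- the two good levels
  have hG : ∀ l, a < l → l < 3 * a + 1 → Gd n (KX a) (mX a u y v δ) (bX n a β u e s)
      (amp (wX a u w) (PX a) V) l (γ₀ * u ^ 4) (π₀ * u) (κ₂ * u ^ 3) := by
    intro l h1 h2
    have hmem : l + 1 ∈ PX a := by unfold PX; rw [Finset.mem_Icc]; omega
    refine ⟨by omega, by unfold KX; omega, amp_pos hV (by omega) (by omega),
      amp_pos hV (by omega) (by omega), by positivity, gapV hu.le hπV h1 (by omega),
      by positivity, ?_, hγ l (by omega) (by omega), hγ (l + 1) (by omega) (by omega)⟩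
    unfold amp
    rw [dif_pos hmem, Real.sq_sqrt (hV _).le]
    exact hVκ _
  have hH : ∀ l, a < l → l < 3 * a + 1 → (SX n a β u y v δ e s w V).pairEx l
      (fun x x' => (Rov (spn n) x x' - (SX n a β u y v δ e s w V).Rl (spn n) l) ^ 2) ≤
        (D * u) ^ 2 → Hz n (KX a) (mX a u y v δ) (bX n a β u e s)
      (amp (wX a u w) (PX a) V) l (C4 * u) (D * u) (k * u ^ 3) (β ^ 2) := by
    intro l h1 h2 h3
    refine ⟨by positivity, hCu, by positivity, mul_le_mul_of_nonneg_right hDC hu.le,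
      (hle (l + 1) (by omega) (by omega)).trans hvC', (SB_amp hV (by omega)).trans hVk, hβ2, ?_,
      hsm, h4 l (by unfold KX; omega), h3⟩
    rcases Nat.lt_or_ge l (2 * a + 1) with h5 | h5
    · rw [bt2_bX_C hn ha1 hsu1 (by omega) (by omega)]
      have : β ^ 2 * (1 - s * u ^ 2) ≤ β ^ 2 * 1 :=
        mul_le_mul_of_nonneg_left (by linarith [show 0 ≤ s * u ^ 2 by positivity]) (by positivity)
      linarith
    · rw [bt2_bX_D hn ha1 hsu1 he.le h5 (by omega)]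
      have : e * u ^ 2 ≤ s * u ^ 2 := mul_le_mul_of_nonneg_right hes (by positivity)
      have h6 : β ^ 2 * (1 - s * u ^ 2) + β ^ 2 * (e * u ^ 2) ≤ β ^ 2 * 1 := by
        rw [← mul_add]
        exact mul_le_mul_of_nonneg_left (by linarith) (by positivity)
      linarith
  have hG0 := hG l0 (by omega) (by omega)
  have hG1 := hG l1 (by omega) (by omega)
  have hH0 := hH l0 (by omega) (by omega) h0c
  have hH1 := hH l1 (by omega) (by omega) h1c
  -- the numbers of the law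
  have hma : mX a u y v δ a = u * y := mX_a ha1
  have hmq : mX a u y v δ (3 * a + 2) = u * v := mX_E
  have hmq0 := mX_q_ge (a := a) (y := y) hu hv0 hδ
  have hRq : H479.Rq n (KX a) (mX a u y v δ) (bX n a β u e s) (amp (wX a u w) (PX a) V)
      (3 * a + 2 - 1) ≤ C4 * u := by
    rw [show 3 * a + 2 - 1 = 3 * a + 1 by omega]
    have h1 := (RX_sq_le (β := β) (e := e) (s := s) (w := w) (V := V) hn hm
      (show 3 * a + 1 ≤ KX a by unfold KX; omega)).trans hϑ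
    have h2 : RX n a β u y v δ e s w V (3 * a + 1) ^ 2 ≤ (C4 * u) ^ 2 := by
      refine h1.trans ?_
      rw [mul_pow]
      exact mul_le_mul_of_nonneg_right hϑC (by positivity)
    exact abs_le_of_sq_le_sq' h2 (by positivity) |>.2
  -- the response
  have hχm : chX n a β u y v δ e s w V (a + 1) ≤ chX n a β u y v δ e s w V (3 * a + 2) := by
    unfold chX
    rw [← Finset.sum_Ico_consecutive _ (show a + 1 ≤ 3 * a + 2 by omega)
      (show 3 * a + 2 ≤ KX a + 1 by unfold KX; omega)]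
    have h1 : 0 ≤ ∑ i ∈ Finset.Ico (a + 1) (3 * a + 2),
        (mX a u y v δ (i + 1) - mX a u y v δ i) * RX n a β u y v δ e s w V i := by
      refine Finset.sum_nonneg fun i hi => ?_
      rw [Finset.mem_Ico] at hi
      exact mul_nonneg (by linarith [hm.mono i (by unfold KX; omega)])
        (RX_nonneg hn hm (by unfold KX; omega))
    linarith
  have hal : alX n a β u y v δ e s w V * u ^ 2 =
      2 * (β * chX n a β u y v δ e s w V (3 * a + 2) - 1) := by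
    unfold alX
    field_simp
  have hh : -1 ≤ alX n a β u y v δ e s w V * u ^ 2 := by
    rw [hal]
    have h1 := (abs_le.1 hχ).1
    have h2 := mul_le_mul_of_nonneg_left hχm hβ0.le
    linarith
  have key := perU_unit (n := n) (K := KX a) (m := mX a u y v δ) (b := bX n a β u e s)
    (w := amp (wX a u w) (PX a) V) (a := a + 1) (l0 := l0) (l1 := l1) (q := 3 * a + 2)
    (κ := k * u ^ 3) (B0 := β ^ 2) (δ := v * δ * u) (γ := γ₀ * u ^ 4) (π := π₀ * u)
    (R := κ₂ * u ^ 3) (t := t) (β := β) (u := u) (s := s) (v := v) (g := v - y) (e := e) (ε := ε)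
    (C4 := C4) (d := D) (k := k) (x := x) hm hn (by omega) h0a (by omega) (by omega)
    (by unfold KX; omega) hG0 hG1 ht ht1
    (by rw [hmq]; linarith [show u * (v * (1 - δ)) = u * v - v * δ * u by ring])
    (by rw [hmq]; exact hvC') (by
      rw [hK, hmq]
      have : 0 ≤ C4 * u := by positivity
      linarith) hRq hH0 hH1 hκθ hβ hu hs hsu
    (by rw [← alX_eq hn]; exact hh)
    (bt2_bX_C hn ha1 hsu1 (by omega) (by omega))
    (by rw [show a + 1 - 1 = a by omega, bt2_bX_C hn ha1 hsu1 ha1 (by omega),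
      bt2_bX_C hn ha1 hsu1 (by omega) (by omega)])
    (by rw [bt2_bX_C hn ha1 hsu1 (show 1 ≤ l0 by omega) (by omega),
      bt2_bX_D hn ha1 hsu1 he.le (show 2 * a + 1 ≤ l1 by omega) (by omega)]; ring)
    he he1 hv2 (by linarith) (by linarith) (by rw [hmq]; ring)
    (by rw [hmq, show a + 1 - 1 = a by omega, hma]; ring) hε hε1 le_rfl hE c1 c2 c3 c4 c5
  rw [← alX_eq hn, show a + 1 - 1 = a by omega] at key
  have hth := thX_le (β := β) (e := e) (s := s) (w := w) (V := V) hn ha1 hm hu hy hv0 hδ hϑ0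
    hϑ
  have e0 : TX n a β u y v δ e s w V a = H479.Tq n (KX a) (mX a u y v δ) (bX n a β u e s)
    (amp (wX a u w) (PX a) V) a := rfl
  rw [← e0] at key
  set A := max (alX n a β u y v δ e s w V - s) 0 with hA
  set P := KV ^ 2 * (60 * (β ^ 2) ^ 3) with hP
  have hG2 : 0 ≤ β ^ 2 / 4 * (v - y) := mul_nonneg (by positivity) (by linarith)
  have h9 := mul_le_mul_of_nonneg_left key hG2
  have hvy : (0 : ℝ) < 2 * v - y := by linarith
  have e1 : β ^ 2 / 4 * (v - y) * ((1 + CU β P * A) * (A / (β * (v + (v - y)))) ^ 2 +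
      (KU P (v - y) * ε + 6 * (s * u ^ 2) / (β * (v + (v - y))) ^ 2)) =
      (1 + CU β P * A) * ((v - y) / (4 * (2 * v - y) ^ 2) * A ^ 2) +
      β ^ 2 / 4 * ((v - y) * (KU P (v - y) * ε + 6 * (s * u ^ 2) / (β * (2 * v - y)) ^ 2)) := by
    rw [show v + (v - y) = 2 * v - y by ring]
    have : (2 * v - y) ≠ 0 := hvy.ne'
    field_simp
  rw [e1] at h9
  linarith [show β ^ 2 / 4 * (v - y) * (TX n a β u y v δ e s w V a / u ^ 2) =
    β ^ 2 / 4 * ((v - y) * (TX n a β u y v δ e s w V a / u ^ 2)) by ring,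
    show β ^ 2 / 4 * ((y + v) * δ * ϑ₀ + (v - y) * (KU P (v - y) * ε +
      6 * (s * u ^ 2) / (β * (2 * v - y)) ^ 2)) = β ^ 2 / 4 * ((y + v) * δ * ϑ₀) +
      β ^ 2 / 4 * ((v - y) * (KU P (v - y) * ε + 6 * (s * u ^ 2) / (β * (2 * v - y)) ^ 2)) by ring]

end bx

end Vale.Agent.P146.H877x
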