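import Vale.Agent.P146.H877x.Vd
import Vale.Agent.P146.H985.Exch

/-!
# P146: pointwise bounds of the derivatives of the conditional vectors (helper877)
-/

open MeasureTheory ProbabilityTheory

namespace Vale.Agent.P146.H877x

open Vale.Agent.P157 Vale.Agent.P157.Lv Vale.Agent.P157.Lv.Sy
open Vale.Agent.P146.H425 Vale.Agent.P146.H946 Vale.Agent.P146.H985
open Vale.Agent.P146.H93 Vale.Agent.P146.H325 Vale.Agent.P146.H379.Row

set_option linter.unusedSectionVars false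

variable {ι : Type} [Fintype ι] [DecidableEq ι] {n : ℕ} {S : Sy ι (Fin n → ℤˣ)} {l : ℕ}
  {D : ι → (ι → ℝ) → (Fin n → ℤˣ) → ℝ}

/-- the overlap of two configurations -/
noncomputable abbrev Rs (n : ℕ) : (Fin n → ℤˣ) → (Fin n → ℤˣ) → ℝ := Rov fun x i => sp x i

lemma Rs_def (x x' : Fin n → ℤˣ) : Rs n x x' = 1 / n * ∑ i, sp x i * sp x' i := rfl

lemma sum_sp (x x' : Fin n → ℤˣ) : ∑ i, sp x i * sp x' i = n * Rs n x x' := by
  rw [Rs_def]
  rcases Nat.eq_zero_or_pos n with h | h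
  · subst h; simp
  · have : (n : ℝ) ≠ 0 := by positivity
    field_simp

lemma abs_Rs_le (x x' : Fin n → ℤˣ) : |Rs n x x'| ≤ 1 := by
  rcases Nat.eq_zero_or_pos n with h | h
  · subst h; simp [Rs_def]
  · have hn : (0 : ℝ) < n := by exact_mod_cast h
    rw [Rs_def, abs_mul, abs_of_pos (by positivity : (0 : ℝ) < 1 / n), one_div,
      inv_mul_le_iff₀ hn, mul_one]
    refine (Finset.abs_sum_le_sum_abs _ _).trans ?_
    simp [abs_mul, abs_sp]

/-! ### Averages of squares -/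

/-- the square of an average -/
lemma sq_T_pp (hS : S.Reg) (hl : l ≤ S.K) (f : (Fin n → ℤˣ) → ℝ) (z : ι → ℝ) :
    S.T l (fun _ x => f x) z ^ 2 = pp S l z fun x x' => f x * f x' := by
  rw [hS.T_pr hl, sq, Finset.sum_mul_sum]
  unfold pp
  exact Finset.sum_congr rfl fun x _ => Finset.sum_congr rfl fun x' _ => by ring

lemma pp_sum {J : Type*} (s : Finset J) (z : ι → ℝ) (ψ : J → (Fin n → ℤˣ) → (Fin n → ℤˣ) → ℝ) :
    pp S l z (fun x x' => ∑ j ∈ s, ψ j x x') = ∑ j ∈ s, pp S l z (ψ j) := by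
  unfold pp
  simp_rw [Finset.mul_sum]
  calc ∑ x, ∑ x', ∑ j ∈ s, S.pr l z x * S.pr l z x' * ψ j x x' =
        ∑ x, ∑ j ∈ s, ∑ x', S.pr l z x * S.pr l z x' * ψ j x x' :=
        Finset.sum_congr rfl fun x _ => Finset.sum_comm
    _ = _ := Finset.sum_comm

/-- `∑_a (T x_a)² = n E R` -/
lemma sum_sq_T1 (hS : S.Reg) (hl : l ≤ S.K) (z : ι → ℝ) :
    ∑ a, S.T l (fun _ x => sp x a) z ^ 2 = n * pp S l z (Rs n) := by
  simp_rw [sq_T_pp hS hl]
  rw [← pp_sum, ← pp_const_mul]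
  congr 1
  funext x x'
  rw [sum_sp]

/-- `∑_ab (T x_a x_b)² = n² E R²` -/
lemma sum_sq_T2 (hS : S.Reg) (hl : l ≤ S.K) (z : ι → ℝ) :
    ∑ a, ∑ b, S.T l (fun _ x => sp x a * sp x b) z ^ 2 =
      (n : ℝ) ^ 2 * pp S l z fun x x' => Rs n x x' ^ 2 := by
  have e : ∀ a b : Fin n, S.T l (fun _ x => sp x a * sp x b) z ^ 2 =
      pp S l z fun x x' => (sp x a * sp x b) * (sp x' a * sp x' b) := fun a b =>
    sq_T_pp hS hl (fun x => sp x a * sp x b) z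
  simp_rw [e, ← pp_sum]
  rw [← pp_const_mul]
  congr 1
  funext x x'
  rw [← mul_pow, ← sum_sp, sq, Finset.sum_mul_sum]
  exact Finset.sum_congr rfl fun a _ => Finset.sum_congr rfl fun b _ => by ring

/-- `∑_a (T x_c x_a)² ≤ n E |R|` -/
lemma sum_sq_T2' (hS : S.Reg) (hl : l ≤ S.K) (c : Fin n) (z : ι → ℝ) :
    ∑ a, S.T l (fun _ x => sp x c * sp x a) z ^ 2 ≤ n * pp S l z fun x x' => |Rs n x x'| := by
  have e : ∀ a : Fin n, S.T l (fun _ x => sp x c * sp x a) z ^ 2 =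
      pp S l z fun x x' => (sp x c * sp x a) * (sp x' c * sp x' a) := fun a =>
    sq_T_pp hS hl (fun x => sp x c * sp x a) z
  simp_rw [e]
  rw [← pp_sum, ← pp_const_mul]
  refine pp_mono hS hl z fun x x' => ?_
  have e2 : ∑ a, (sp x c * sp x a) * (sp x' c * sp x' a) =
      (sp x c * sp x' c) * (n * Rs n x x') := by
    rw [← sum_sp, Finset.mul_sum]
    exact Finset.sum_congr rfl fun a _ => by ring
  rw [e2]
  refine (le_abs_self _).trans (le_of_eq ?_)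
  rw [abs_mul, abs_mul, abs_sp, abs_sp, one_mul, one_mul, abs_mul, Nat.abs_cast]

/-- Jensen's inequality for two independent configurations -/
lemma sq_pp_le (hS : S.Reg) (hl : l ≤ S.K) (z : ι → ℝ) (ψ : (Fin n → ℤˣ) → (Fin n → ℤˣ) → ℝ) :
    pp S l z ψ ^ 2 ≤ pp S l z fun x x' => ψ x x' ^ 2 := hS.pair_cs hl ψ z

lemma eg_pp (hS : S.Reg) (hl : l ≤ S.K) (ψ : (Fin n → ℤˣ) → (Fin n → ℤˣ) → ℝ) :
    EG fun z => pp S l z ψ := hS.nh_pair hl ψ

lemma Ex_pp (ψ : (Fin n → ℤˣ) → (Fin n → ℤˣ) → ℝ) :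
    S.Ex (fun z _ => pp S l z ψ) = S.pairEx l ψ := rfl

/-- `E (T_j f)²` is nondecreasing in `j` -/
lemma Ex_sq_T_mono (hS : S.Reg) {j : ℕ} (hj : j ≤ l) (hl : l ≤ S.K) (f : (Fin n → ℤˣ) → ℝ) :
    S.Ex (fun z _ => S.T j (fun _ x => f x) z ^ 2) ≤
      S.Ex (fun z _ => S.T l (fun _ x => f x) z ^ 2) := by
  have hN : Nh (ι := ι) fun _ (x : Fin n → ℤˣ) => f x := Nh.snd f
  have e1 : ∀ z, S.T j (fun z _ => S.T l (fun _ x => f x) z) z = S.T j (fun _ x => f x) z :=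
    fun z => hS.T_T hj hl hN z
  have hT : Nh (X := Fin n → ℤˣ) fun z _ => S.T l (fun _ x => f x) z := Nh.fst (hS.eg_T hl hN)
  have hT2 : Nh (X := Fin n → ℤˣ) fun z _ => S.T l (fun _ x => f x) z ^ 2 :=
    Nh.fst ((hS.eg_T hl hN).pow 2)
  rw [← hS.Ex_T (show j ≤ S.K by omega) hT2]
  refine hS.Ex_mono (Nh.fst ((hS.eg_T (by omega) hN).pow 2))
    (Nh.fst (hS.eg_T (by omega) hT2)) fun z _ => ?_
  rw [← e1]
  exact hS.sq_T_le (by omega) hT z

/-- `E R²` is nondecreasing in the level -/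
lemma pairEx_sq_mono (hS : S.Reg) {j : ℕ} (hj : j ≤ l) (hl : l ≤ S.K) :
    S.pairEx j (fun x x' => Rs n x x' ^ 2) ≤ S.pairEx l (fun x x' => Rs n x x' ^ 2) := by
  rcases Nat.eq_zero_or_pos n with h | h
  · subst h
    simp only [Rs_def, Finset.univ_eq_empty, Finset.sum_empty, mul_zero, ne_eq,
      OfNat.ofNat_ne_zero, not_false_eq_true, zero_pow]
    rw [hS.pairEx_const (by omega), hS.pairEx_const hl]
  have hn : (0 : ℝ) < (n : ℝ) ^ 2 := by positivity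
  have h2 : ∀ i ≤ S.K, (n : ℝ) ^ 2 * S.pairEx i (fun x x' => Rs n x x' ^ 2) =
      ∑ a, ∑ b, S.Ex (fun z _ => S.T i (fun _ x => sp x a * sp x b) z ^ 2) := by
    intro i hi
    rw [← Ex_pp, ← Ex_const_mul]
    simp_rw [← sum_sq_T2 hS hi]
    have e : ∀ a b : Fin n, Nh (X := Fin n → ℤˣ)
        fun z _ => S.T i (fun _ x => sp x a * sp x b) z ^ 2 := fun a b =>
      Nh.fst ((hS.eg_T hi (Nh.snd fun x => sp x a * sp x b)).pow 2)
    rw [hS.Ex_sum _ fun a _ => Nh.sum _ fun b _ => e a b]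
    exact Finset.sum_congr rfl fun a _ => hS.Ex_sum _ fun b _ => e a b
  refine le_of_mul_le_mul_left ?_ hn
  rw [h2 j (by omega), h2 l hl]
  exact Finset.sum_le_sum fun a _ => Finset.sum_le_sum fun b _ =>
    Ex_sq_T_mono hS hj hl fun x => sp x a * sp x b

/-- `E R` is nondecreasing in the level -/
lemma pairEx_mono' (hS : S.Reg) {j : ℕ} (hj : j ≤ l) (hl : l ≤ S.K) :
    S.pairEx j (Rs n) ≤ S.pairEx l (Rs n) := by
  rcases Nat.eq_zero_or_pos n with h | h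
  · subst h
    have e : Rs 0 = fun _ _ => (0 : ℝ) := by funext x x'; simp [Rs_def]
    rw [e, hS.pairEx_const (by omega), hS.pairEx_const hl]
  have hn : (0 : ℝ) < (n : ℝ) := by positivity
  have h2 : ∀ i ≤ S.K, (n : ℝ) * S.pairEx i (Rs n) =
      ∑ a, S.Ex (fun z _ => S.T i (fun _ x => sp x a) z ^ 2) := by
    intro i hi
    rw [← Ex_pp, ← Ex_const_mul]
    simp_rw [← sum_sq_T1 hS hi]
    exact hS.Ex_sum _ fun a _ => Nh.fst ((hS.eg_T hi (Nh.snd fun x => sp x a)).pow 2)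
  refine le_of_mul_le_mul_left ?_ hn
  rw [h2 j (by omega), h2 l hl]
  exact Finset.sum_le_sum fun a _ => Ex_sq_T_mono hS hj hl fun x => sp x a

/-- `0 ≤ E R` -/
lemma pairEx_R_nonneg (hS : S.Reg) (hl : l ≤ S.K) : 0 ≤ S.pairEx l (Rs n) := by
  rcases Nat.eq_zero_or_pos n with h | h
  · subst h
    have e : Rs 0 = fun _ _ => (0 : ℝ) := by funext x x'; simp [Rs_def]
    rw [e, hS.pairEx_const hl]
  have hn : (0 : ℝ) < (n : ℝ) := by positivity
  refine nonneg_of_mul_nonneg_right ?_ hn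
  rw [← Ex_pp, ← Ex_const_mul]
  simp_rw [← sum_sq_T1 hS hl]
  refine Ex_nn hS (Nh.sum _ fun a _ => Nh.fst ((hS.eg_T hl (Nh.snd fun x => sp x a)).pow 2))
    fun z _ => Finset.sum_nonneg fun a _ => sq_nonneg _

/-! ### Connectedness -/

/-- weighted Jensen for the square -/
lemma jen2 (hS : S.Reg) (hl : l ≤ S.K) (z : ι → ℝ) (f : (Fin n → ℤˣ) → ℝ) :
    (∑ x, S.pr l z x * f x) ^ 2 ≤ ∑ x, S.pr l z x * f x ^ 2 :=
  lvp_sq (fun x => S.pr l z x) f (hS.pr_nonneg hl z) (hS.sum_pr hl z)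

/-- weighted Jensen for `g v = p (v - ρ)² + q v⁴` -/
lemma jen_g (hS : S.Reg) (hl : l ≤ S.K) (z : ι → ℝ) (f : (Fin n → ℤˣ) → ℝ) {p q : ℝ} (hp : 0 ≤ p)
    (hq : 0 ≤ q) (ρ : ℝ) :
    p * (∑ x, S.pr l z x * f x - ρ) ^ 2 + q * (∑ x, S.pr l z x * f x) ^ 4 ≤
      ∑ x, S.pr l z x * (p * (f x - ρ) ^ 2 + q * f x ^ 4) := by
  have h1 := jen2 hS hl z fun x => f x - ρ
  have h2 := jen2 hS hl z f
  have h3 := jen2 hS hl z fun x => f x ^ 2
  have e1 : ∑ x, S.pr l z x * (f x - ρ) = ∑ x, S.pr l z x * f x - ρ := by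
    have h := hS.sum_pr hl z
    simp_rw [mul_sub]
    rw [Finset.sum_sub_distrib, ← Finset.sum_mul, h, one_mul]
  rw [e1] at h1
  have h4 : (∑ x, S.pr l z x * f x) ^ 4 ≤ ∑ x, S.pr l z x * f x ^ 4 := by
    have e2 : ∀ x, (f x ^ 2) ^ 2 = f x ^ 4 := fun x => by ring
    simp only [e2] at h3
    refine le_trans ?_ h3
    have e3 : (∑ x, S.pr l z x * f x) ^ 4 = ((∑ x, S.pr l z x * f x) ^ 2) ^ 2 := by ring
    rw [e3]
    exact pow_le_pow_left₀ (sq_nonneg _) h2 2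
  have e4 : ∑ x, S.pr l z x * (p * (f x - ρ) ^ 2 + q * f x ^ 4) =
      p * ∑ x, S.pr l z x * (f x - ρ) ^ 2 + q * ∑ x, S.pr l z x * f x ^ 4 := by
    rw [Finset.mul_sum, Finset.mul_sum, ← Finset.sum_add_distrib]
    exact Finset.sum_congr rfl fun x _ => by ring
  rw [e4]
  exact add_le_add (mul_le_mul_of_nonneg_left h1 hp) (mul_le_mul_of_nonneg_left h4 hq)

/-- an elementary inequality -/
lemma el_young {μ : ℝ} (hμ : 0 < μ) (R v ρ : ℝ) :
    |R| * |v ^ 2 - ρ ^ 2| ≤ 1 / (2 * μ) * (v - ρ) ^ 2 + 2 * μ * v ^ 4 +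
      (μ / 4 * R ^ 4 + 2 * μ * ρ ^ 4) := by
  have e1 : v ^ 2 - ρ ^ 2 = (v - ρ) * (v + ρ) := by ring
  rw [e1, abs_mul]
  have h1 : |R| * (|v - ρ| * |v + ρ|) = |v - ρ| * (|R| * |v + ρ|) := by ring
  rw [h1]
  have h2 : |v - ρ| * (|R| * |v + ρ|) ≤ 1 / (2 * μ) * |v - ρ| ^ 2 + μ / 2 * (|R| * |v + ρ|) ^ 2 := by
    have h3 : 0 ≤ (|v - ρ| - μ * (|R| * |v + ρ|)) ^ 2 := sq_nonneg _
    have h4 : 1 / (2 * μ) * |v - ρ| ^ 2 + μ / 2 * (|R| * |v + ρ|) ^ 2 -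
        |v - ρ| * (|R| * |v + ρ|) = 1 / (2 * μ) * (|v - ρ| - μ * (|R| * |v + ρ|)) ^ 2 := by
      field_simp
      ring
    have h5 : 0 ≤ 1 / (2 * μ) * (|v - ρ| - μ * (|R| * |v + ρ|)) ^ 2 := by positivity
    linarith
  refine h2.trans ?_
  rw [mul_pow, sq_abs, sq_abs, sq_abs]
  have h6 : R ^ 2 * (v + ρ) ^ 2 ≤ 1 / 2 * R ^ 4 + 1 / 2 * (v + ρ) ^ 4 := by
    nlinarith [sq_nonneg (R ^ 2 - (v + ρ) ^ 2)]
  have h7 : (v + ρ) ^ 4 ≤ 8 * v ^ 4 + 8 * ρ ^ 4 := by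
    nlinarith [sq_nonneg (v ^ 2 - ρ ^ 2), sq_nonneg (v - ρ), sq_nonneg (v + ρ),
      sq_nonneg ((v - ρ) ^ 2), mul_self_nonneg (v * ρ), sq_nonneg (v ^ 2 + ρ ^ 2 - 2 * v * ρ),
      mul_nonneg (sq_nonneg (v - ρ)) (sq_nonneg v), mul_nonneg (sq_nonneg (v - ρ)) (sq_nonneg ρ),
      mul_nonneg (sq_nonneg (v - ρ)) (sq_nonneg (v + ρ))]
  have h8 := mul_le_mul_of_nonneg_left h6 (by positivity : 0 ≤ μ / 2)
  have h9 := mul_le_mul_of_nonneg_left h7 (by positivity : 0 ≤ μ / 4)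
  linarith

/-- **The connected bound** for `∑_kab V1(x_k, x_a x_b)²`. -/
theorem conn_bound (hS : S.Reg) (hl : l ≤ S.K) {i : Fin n}
    {V1 : ((Fin n → ℤˣ) → ℝ) → ((Fin n → ℤˣ) → ℝ) → (ι → ℝ) → ℝ}
    {V2 : ((Fin n → ℤˣ) → ℝ) → ((Fin n → ℤˣ) → ℝ) → ((Fin n → ℤˣ) → ℝ) → (ι → ℝ) → ℝ}
    (hV : VD S D l i V1 V2) (z : ι → ℝ) {μ : ℝ} (hμ : 0 < μ) (ρ : ℝ) :
    ∑ k, ∑ a, ∑ b, V1 (fun x => sp x k) (fun x => sp x a * sp x b) z ^ 2 ≤
      KV ^ 2 * ((n : ℝ) ^ 3 * (2 / μ * pp S l z (fun x x' => (Rs n x x' - ρ) ^ 2) +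
        μ * (9 * pp S l z (fun x x' => Rs n x x' ^ 4) + 8 * ρ ^ 4))) := by
  set d : Fin n → ℝ := fun a => dd S l a z with hd
  set u : (Fin n → ℤˣ) → ℝ := fun x => ∑ x', S.pr l z x' * Rs n x x' with hu
  set Q : ℝ := ∑ x, S.pr l z x * u x with hQ
  set g : ℝ → ℝ := fun v => 1 / (2 * μ) * (v - ρ) ^ 2 + 2 * μ * v ^ 4 with hg
  have hn0 : (0 : ℝ) ≤ n := Nat.cast_nonneg n
  have hda : ∀ a, d a = ∑ x, S.pr l z x * sp x a := fun a => hS.T_pr hl (fun x => sp x a) z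
  have hux : ∀ x, ∑ a, sp x a * d a = n * u x := by
    intro x
    rw [hu]
    simp only
    rw [Finset.mul_sum]
    have e1 : ∀ x', (n : ℝ) * (S.pr l z x' * Rs n x x') =
        ∑ a, S.pr l z x' * (sp x a * sp x' a) := by
      intro x'
      rw [← Finset.mul_sum, sum_sp]
      ring
    simp_rw [e1]
    rw [Finset.sum_comm]
    refine Finset.sum_congr rfl fun a _ => ?_
    rw [hda, Finset.mul_sum]
    exact Finset.sum_congr rfl fun x' _ => by ring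
  have hQd : ∑ a, d a * d a = n * Q := by
    rw [hQ, Finset.mul_sum]
    have e1 : ∀ x, (n : ℝ) * (S.pr l z x * u x) = ∑ a, S.pr l z x * (sp x a * d a) := by
      intro x
      rw [← Finset.mul_sum, hux]
      ring
    simp_rw [e1]
    rw [Finset.sum_comm]
    refine Finset.sum_congr rfl fun a _ => ?_
    nth_rewrite 1 [hda a]
    rw [Finset.sum_mul]
    exact Finset.sum_congr rfl fun x _ => by ring
  -- replace the monomials by centred ones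
  have e0 : ∀ k a b, V1 (fun x => sp x k) (fun x => sp x a * sp x b) z =
      V1 (fun x => sp x k) (fun x => sp x a * sp x b - d a * d b) z := fun k a b =>
    (hV.inv _ _ _ z).symm
  simp_rw [e0]
  have hO : ∀ y y' : Fin n → ℤˣ, ∑ p : Fin n × Fin n, (sp y p.1 * sp y p.2 - d p.1 * d p.2) *
      (sp y' p.1 * sp y' p.2 - d p.1 * d p.2) =
      (n : ℝ) ^ 2 * (Rs n y y' ^ 2 - u y ^ 2 - u y' ^ 2 + Q ^ 2) := by
    intro y y'
    rw [Fintype.sum_prod_type]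
    have e1 : ∀ F G : Fin n → ℝ, ∑ a, ∑ b, F a * G b = (∑ a, F a) * ∑ b, G b := fun F G =>
      (Finset.sum_mul_sum _ _ _ _).symm
    have e2 : ∑ a, ∑ b, (sp y a * sp y b - d a * d b) * (sp y' a * sp y' b - d a * d b) =
        (∑ a, sp y a * sp y' a) * (∑ b, sp y b * sp y' b) -
        (∑ a, sp y a * d a) * (∑ b, sp y b * d b) -
        (∑ a, sp y' a * d a) * (∑ b, sp y' b * d b) +
        (∑ a, d a * d a) * (∑ b, d b * d b) := by
      rw [← e1, ← e1, ← e1, ← e1, ← Finset.sum_sub_distrib, ← Finset.sum_sub_distrib,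
        ← Finset.sum_add_distrib]
      refine Finset.sum_congr rfl fun a _ => ?_
      rw [← Finset.sum_sub_distrib, ← Finset.sum_sub_distrib, ← Finset.sum_add_distrib]
      exact Finset.sum_congr rfl fun b _ => by ring
    rw [e2, sum_sp, hux, hux, hQd]
    ring
  have h1 := hV.b1 (J := Fin n) (J' := Fin n × Fin n) (fun k x => sp x k)
    (fun p x => sp x p.1 * sp x p.2 - d p.1 * d p.2) z
    (fun x x' => (n : ℝ) ^ 3 * (μ * Rs n x x' ^ 4))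
    (fun y y' => (n : ℝ) ^ 3 * (g (Rs n y y') + g (u y) + g (u y') + g Q + 8 * μ * ρ ^ 4))
    (fun x x' => by positivity) (fun x x' => by
      have hg0 : ∀ v, 0 ≤ g v := fun v => by rw [hg]; positivity
      have := hg0 (Rs n x x')
      have := hg0 (u x)
      have := hg0 (u x')
      have := hg0 Q
      positivity) ?_
  · have e3 : ∑ k : Fin n, ∑ a : Fin n, ∑ b : Fin n, V1 (fun x => sp x k)
        (fun x => sp x a * sp x b - d a * d b) z ^ 2 = ∑ j, ∑ j' : Fin n × Fin n,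
        V1 (fun x => sp x j) (fun x => sp x j'.1 * sp x j'.2 - d j'.1 * d j'.2) z ^ 2 := by
      refine Finset.sum_congr rfl fun k _ => ?_
      rw [Fintype.sum_prod_type]
    rw [e3]
    refine h1.trans (mul_le_mul_of_nonneg_left ?_ (sq_nonneg _))
    rw [pp_const_mul, pp_const_mul, pp_const_mul, ← mul_add]
    refine mul_le_mul_of_nonneg_left ?_ (by positivity)
    have hpp : ∀ ψ1 ψ2 : (Fin n → ℤˣ) → (Fin n → ℤˣ) → ℝ,
        pp S l z (fun x x' => ψ1 x x' + ψ2 x x') = pp S l z ψ1 + pp S l z ψ2 := fun ψ1 ψ2 =>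
      pp_add z ψ1 ψ2
    have hsplit : pp S l z (fun y y' => g (Rs n y y') + g (u y) + g (u y') + g Q +
        8 * μ * ρ ^ 4) = pp S l z (fun y y' => g (Rs n y y')) + ∑ x, S.pr l z x * g (u x) +
        ∑ x, S.pr l z x * g (u x) + g Q + 8 * μ * ρ ^ 4 := by
      rw [hpp (fun y y' => g (Rs n y y') + g (u y) + g (u y') + g Q) fun _ _ => 8 * μ * ρ ^ 4,
        hpp (fun y y' => g (Rs n y y') + g (u y) + g (u y')) fun _ _ => g Q,
        hpp (fun y y' => g (Rs n y y') + g (u y)) fun _ y' => g (u y'),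
        hpp (fun y y' => g (Rs n y y')) fun y _ => g (u y), pp_fst hS hl z fun x => g (u x),
        pp_snd hS hl z fun x => g (u x), pp_const hS hl, pp_const hS hl]
    have hj1 : ∑ x, S.pr l z x * g (u x) ≤ pp S l z (fun y y' => g (Rs n y y')) := by
      unfold pp
      refine Finset.sum_le_sum fun x _ => ?_
      have h2 := jen_g hS hl z (fun x' => Rs n x x') (p := 1 / (2 * μ)) (q := 2 * μ)
        (by positivity) (by positivity) ρ
      have h3 := mul_le_mul_of_nonneg_left h2 (hS.pr_nonneg hl z x)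
      refine h3.trans (le_of_eq ?_)
      rw [Finset.mul_sum]
      exact Finset.sum_congr rfl fun x' _ => by ring
    have hj2 : g Q ≤ ∑ x, S.pr l z x * g (u x) :=
      jen_g hS hl z u (p := 1 / (2 * μ)) (q := 2 * μ) (by positivity) (by positivity) ρ
    have hgR : pp S l z (fun y y' => g (Rs n y y')) =
        1 / (2 * μ) * pp S l z (fun x x' => (Rs n x x' - ρ) ^ 2) +
        2 * μ * pp S l z (fun x x' => Rs n x x' ^ 4) := by
      rw [← pp_const_mul, ← pp_const_mul, ← hpp]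
    rw [hsplit]
    have e5 : 2 / μ * pp S l z (fun x x' => (Rs n x x' - ρ) ^ 2) =
        4 * (1 / (2 * μ) * pp S l z (fun x x' => (Rs n x x' - ρ) ^ 2)) := by
      field_simp
      ring
    rw [e5]
    linarith
  · intro x x' y y'
    rw [sum_sp, hO, abs_mul, abs_mul, Nat.abs_cast, abs_of_nonneg (by positivity :
      (0 : ℝ) ≤ (n : ℝ) ^ 2)]
    have e6 : (n : ℝ) * |Rs n x x'| * ((n : ℝ) ^ 2 * |Rs n y y' ^ 2 - u y ^ 2 - u y' ^ 2 + Q ^ 2|) =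
        (n : ℝ) ^ 3 * (|Rs n x x'| * |Rs n y y' ^ 2 - u y ^ 2 - u y' ^ 2 + Q ^ 2|) := by ring
    rw [e6, ← mul_add]
    refine mul_le_mul_of_nonneg_left ?_ (by positivity)
    have t : |Rs n y y' ^ 2 - u y ^ 2 - u y' ^ 2 + Q ^ 2| ≤ |Rs n y y' ^ 2 - ρ ^ 2| +
        |u y ^ 2 - ρ ^ 2| + |u y' ^ 2 - ρ ^ 2| + |Q ^ 2 - ρ ^ 2| := by
      have e7 : Rs n y y' ^ 2 - u y ^ 2 - u y' ^ 2 + Q ^ 2 = (Rs n y y' ^ 2 - ρ ^ 2) -
          (u y ^ 2 - ρ ^ 2) - (u y' ^ 2 - ρ ^ 2) + (Q ^ 2 - ρ ^ 2) := by ring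
      rw [e7]
      have a1 := abs_add_le ((Rs n y y' ^ 2 - ρ ^ 2) - (u y ^ 2 - ρ ^ 2) - (u y' ^ 2 - ρ ^ 2))
        (Q ^ 2 - ρ ^ 2)
      have a2 := abs_sub ((Rs n y y' ^ 2 - ρ ^ 2) - (u y ^ 2 - ρ ^ 2)) (u y' ^ 2 - ρ ^ 2)
      have a3 := abs_sub (Rs n y y' ^ 2 - ρ ^ 2) (u y ^ 2 - ρ ^ 2)
      linarith
    have t2 := mul_le_mul_of_nonneg_left t (abs_nonneg (Rs n x x'))
    have y1 := el_young hμ (Rs n x x') (Rs n y y') ρ
    have y2 := el_young hμ (Rs n x x') (u y) ρ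
    have y3 := el_young hμ (Rs n x x') (u y') ρ
    have y4 := el_young hμ (Rs n x x') Q ρ
    rw [hg]
    simp only
    linarith

end Vale.Agent.P146.H877x
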