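import Vale.Agent.P146.H877x.FdC
import Vale.Agent.P146.H508.D3SK
import Vale.Agent.P146.H508.Tj
import Vale.Agent.P146.H508.Ur2

/-!
# P146: the U-side for any law with two good levels (helper877)
-/

open MeasureTheory ProbabilityTheory

namespace Vale.Agent.P146.H877x

open Vale.Agent.P157 Vale.Agent.P157.Lv Vale.Agent.P157.Lv.Sy
open Vale.Agent.P146.H425 Vale.Agent.P146.H985
open Vale.Agent.P146.H93 (Cd st am aSK skS Em linS_sk)
open Vale.Agent.P146.H379.Row Vale.Agent.P146.H946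
open Vale.Agent.P146.H295 (spn zs)

set_option linter.unusedSectionVars false

section sk

variable {n K : ℕ} {m b w : ℕ → ℝ} {l l1 a q : ℕ} {θ D κ B0 δ : ℝ}

/-- the part of the levels below `a` in the bracket: `∑_(1 ≤ j < a) p_j β_j² Θ_j` -/
noncomputable def Gs (n K : ℕ) (m b w : ℕ → ℝ) (a : ℕ) : ℝ :=
  ∑ j ∈ Finset.Ico 1 a, (m (j + 1) - m j) * bt2 n b j * Tt (skS n K m b w) j

lemma Em.mono' (hm : Em K m) {i j : ℕ} (h : i ≤ j) (hj : j ≤ K + 1) : m i ≤ m j := by
  induction j, h using Nat.le_induction with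
  | base => exact le_rfl
  | succ k hk ih => exact (ih (by omega)).trans (hm.mono k (by omega))

lemma bt2_mono' (n : ℕ) (b : ℕ → ℝ) {i j : ℕ} (h : i ≤ j) : bt2 n b i ≤ bt2 n b j := by
  unfold bt2
  rw [Fin.sum_univ_eq_sum_range (fun q => (n : ℝ) * b (q + 1) ^ 2) i,
    Fin.sum_univ_eq_sum_range (fun q => (n : ℝ) * b (q + 1) ^ 2) j]
  exact Finset.sum_le_sum_of_subset_of_nonneg (Finset.range_mono h)
    fun _ _ _ => by positivity

lemma sum_m_Ico (m : ℕ → ℝ) {i j : ℕ} (h : i ≤ j) :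
    ∑ k ∈ Finset.Ico i j, (m (k + 1) - m k) = m j - m i := Finset.sum_Ico_sub m h

/-- the response at a level and at a later one -/
lemma ch_diff (hm : Em K m) (hn : 0 < n) (hlq : l < q) (hq : q ≤ K)
    (hρ : (skS n K m b w).Rl H325.sp (q - 1) ≤ θ) :
    0 ≤ ch n K m b w (q - 1) - ch n K m b w l ∧
      ch n K m b w (q - 1) - ch n K m b w l ≤ (m q - m (l + 1)) * θ := by
  have F := H295.fldP_sk hn (show 0 < K by omega) hm b w (P := fun _ => False)
    (fun _ h => h.elim)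
  have e1 : ch n K m b w (q - 1) - ch n K m b w l =
      ∑ j ∈ Finset.Ico (l + 1) q, (m (j + 1) - m j) * (skS n K m b w).Rl H325.sp j := by
    unfold ch
    rw [show q - 1 + 1 = q by omega,
      ← Finset.sum_Ico_consecutive _ (show l + 1 ≤ q by omega) (show q ≤ K + 1 by omega)]
    ring
  rw [e1]
  have hR : ∀ j ∈ Finset.Ico (l + 1) q, 0 ≤ (skS n K m b w).Rl H325.sp j ∧
      (skS n K m b w).Rl H325.sp j ≤ θ := by
    intro j hj
    rw [Finset.mem_Ico] at hj
    have hjK : j ≤ (skS n K m b w).K := by show j ≤ K; omega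
    have hqK : q - 1 ≤ (skS n K m b w).K := by show q - 1 ≤ K; omega
    exact ⟨F.Rl_nonneg hjK, (H607.Rl_mono F (show j ≤ q - 1 by omega) hqK).trans hρ⟩
  have hp : ∀ j ∈ Finset.Ico (l + 1) q, 0 ≤ m (j + 1) - m j := fun j hj => by
    rw [Finset.mem_Ico] at hj
    exact Em.step hm (by omega)
  constructor
  · exact Finset.sum_nonneg fun j hj => mul_nonneg (hp j hj) (hR j hj).1
  · rw [← sum_m_Ico m (show l + 1 ≤ q by omega), Finset.sum_mul]
    exact Finset.sum_le_sum fun j hj => mul_le_mul_of_nonneg_left (hR j hj).2 (hp j hj)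

/-- the bracket in the final form -/
lemma brk_near (hm : Em K m) (hn : 0 < n) (ha : 1 ≤ a) (hal : a ≤ l) (hlq : l < q) (hq : q ≤ K)
    (hδ : m q - m a ≤ δ) (hvθ : m q ≤ θ) (H : Hz n K m b w l θ D κ B0) :
    |Br n K m b w l - (m q * bt2 n b l * (skS n K m b w).Rl H325.sp l ^ 2 +
      Gs n K m b w a)| ≤ B0 * (2 * δ * θ ^ 2 + 2 * D * θ ^ 2) ∧
    0 ≤ Br n K m b w l ∧ Br n K m b w l ≤ 3 * B0 * θ ^ 3 := by
  have hl : l < K := by omega
  have hK : 0 < K := by omega
  have hS : (skS n K m b w).Reg := (linS_sk hm b w).reg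
  obtain ⟨r0, r1, q2, q1, q3⟩ := H.mom hm hn hK hl.le
  have θ0 := H.θ0
  have θ1 := H.θ1
  have D0 := H.D0
  have Dθ := H.Dθ
  have B1 := H.B1
  have F := H295.fldP_sk hn hK hm b w (P := fun _ => False) (fun _ h => h.elim)
  set S := skS n K m b w with hSd
  have hlK : l ≤ S.K := hl.le
  -- the numbers
  have m1 : m a ≤ m l := Em.mono' hm hal (by omega)
  have m2 : m l ≤ m (l + 1) := hm.mono l hl.le
  have m3 : m (l + 1) ≤ m q := Em.mono' hm (by omega) (by omega)
  have m4 : 0 < m 1 := hm.pos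
  have m5 : m 1 ≤ m a := Em.mono' hm ha (by omega)
  have hδ0 : 0 ≤ δ := by linarith
  -- variance
  have hV : S.pairEx l (fun x x' => Rov H325.sp x x' ^ 2) - S.Rl H325.sp l ^ 2 ≤ D ^ 2 := by
    have h1 := H.h2
    have e1 : (fun x y => (Rov H325.sp x y - S.Rl H325.sp l) ^ 2) = fun x y : Fin n → ℤˣ =>
        (Rov H325.sp x y ^ 2 + (-2 * S.Rl H325.sp l) * Rov H325.sp x y) +
          S.Rl H325.sp l ^ 2 := by
      funext x y
      ring
    rw [← hSd, e1, hS.pairEx_add hlK (fun x y => Rov H325.sp x y ^ 2 +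
      (-2 * S.Rl H325.sp l) * Rov H325.sp x y) (fun _ _ => S.Rl H325.sp l ^ 2),
      hS.pairEx_add hlK (fun x y => Rov H325.sp x y ^ 2)
      (fun x y => (-2 * S.Rl H325.sp l) * Rov H325.sp x y), hS.pairEx_const_mul,
      hS.pairEx_const hlK] at h1
    have e2 : S.Rl H325.sp l = S.pairEx l (Rov H325.sp) := F.Rl_eq_pairEx hlK
    have e3 : S.pairEx l (fun x y => Rov H325.sp x y) = S.Rl H325.sp l := e2.symm
    rw [e3] at h1
    linarith
  have hT : ∀ j ≤ l, 0 ≤ Tt S j ∧ Tt S j ≤ θ ^ 2 := by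
    intro j hj
    have hjK : j ≤ S.K := hj.trans hlK
    refine ⟨H508.Tt_nonneg hS hjK, (H508.Tt_mono hS hj hlK).trans ?_⟩
    rw [Tt_eq hm hn hl.le]
    exact q2
  have htj : ∀ j ≤ l, |tj S l j - Tt S j| ≤ D * θ := by
    intro j hj
    have h1 := H508.tj_near_sk (b := b) (w := w) hm hn hj hl.le
    rw [← Tt_eq hm hn (hj.trans hl.le)] at h1
    refine h1.trans ?_
    rw [Real.sqrt_le_left (by positivity), mul_pow]
    have hv0 : 0 ≤ S.pairEx l (fun x x' => Rov H325.sp x x' ^ 2) - S.Rl H325.sp l ^ 2 := by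
      have h2 := H508.tj_self_sk (b := b) (w := w) hm hn hl.le
      linarith [h2.1, h2.2]
    exact mul_le_mul hV (hT j hj).2 (hT j hj).1 (by positivity)
  have htj0 : ∀ j ≤ l, 0 ≤ tj S l j ∧ tj S l j ≤ θ ^ 2 := by
    intro j hj
    constructor
    · exact (sq_nonneg _).trans (tau_ge F hj hlK)
    · have h1 := H607.tau_le F (k := j) (l := l) hj hlK
      have h2 : Tt S j = H295.Th S (spn n) j := Tt_eq hm hn (hj.trans hl.le)
      have h3 : tj S l j ≤ Tt S j := by
        rw [h2]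
        exact h1
      exact h3.trans (hT j hj).2
  have htjl : S.Rl H325.sp l ^ 2 ≤ tj S l l ∧ tj S l l ≤ S.Rl H325.sp l ^ 2 + D ^ 2 := by
    have h2 := H508.tj_self_sk (b := b) (w := w) hm hn hl.le
    exact ⟨h2.1, by linarith [h2.2]⟩
  have hB : ∀ j ≤ l, 0 ≤ bt2 n b j ∧ bt2 n b j ≤ B0 := fun j hj =>
    ⟨bt2_nonneg n b j, (bt2_mono' n b hj).trans H.bB⟩
  have hp : ∀ j ≤ l, 0 ≤ m (j + 1) - m j := fun j hj => Em.step hm (by omega)
  -- the three parts
  set ρ := S.Rl H325.sp l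
  have p1 : |(2 * m (l + 1) - m l) * bt2 n b l * tj S l l - m q * bt2 n b l * ρ ^ 2| ≤
      B0 * (δ * θ ^ 2 + D * θ ^ 2) := by
    have e1 : (2 * m (l + 1) - m l) * bt2 n b l * tj S l l - m q * bt2 n b l * ρ ^ 2 =
        bt2 n b l * ((2 * m (l + 1) - m l - m q) * tj S l l + m q * (tj S l l - ρ ^ 2)) := by
      ring
    rw [e1, abs_mul, abs_of_nonneg (hB l le_rfl).1]
    refine mul_le_mul (hB l le_rfl).2 ?_ (abs_nonneg _) (by linarith)
    refine (abs_add_le _ _).trans (add_le_add ?_ ?_)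
    · rw [abs_mul, abs_of_nonneg (htj0 l le_rfl).1]
      refine mul_le_mul (abs_le.2 ⟨by linarith, by linarith⟩) (htj0 l le_rfl).2
        (htj0 l le_rfl).1 hδ0
    · rw [abs_mul, abs_of_nonneg (show 0 ≤ m q by linarith),
        abs_of_nonneg (by linarith [htjl.1])]
      calc m q * (tj S l l - ρ ^ 2) ≤ θ * D ^ 2 :=
            mul_le_mul hvθ (by linarith [htjl.2]) (by linarith [htjl.1]) θ0.le
        _ ≤ D * θ ^ 2 := by nlinarith [mul_nonneg D0.le θ0.le]
  have p2 : |∑ j ∈ Finset.Ico 1 a, (m (j + 1) - m j) * bt2 n b j * tj S l j -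
      Gs n K m b w a| ≤ B0 * (D * θ ^ 2) := by
    unfold Gs
    rw [← Finset.sum_sub_distrib]
    have h1 : ∀ j ∈ Finset.Ico 1 a, |(m (j + 1) - m j) * bt2 n b j * tj S l j -
        (m (j + 1) - m j) * bt2 n b j * Tt (skS n K m b w) j| ≤
        (m (j + 1) - m j) * (B0 * (D * θ)) := by
      intro j hj
      rw [Finset.mem_Ico] at hj
      rw [← mul_sub, abs_mul, abs_mul, abs_of_nonneg (hp j (by omega)),
        abs_of_nonneg (hB j (by omega)).1, mul_assoc]
      refine mul_le_mul_of_nonneg_left ?_ (hp j (by omega))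
      exact mul_le_mul (hB j (by omega)).2 (htj j (by omega)) (abs_nonneg _) (by linarith)
    refine (Finset.abs_sum_le_sum_abs _ _).trans ((Finset.sum_le_sum h1).trans ?_)
    rw [← Finset.sum_mul, sum_m_Ico m ha]
    have h2 : m a - m 1 ≤ θ := by linarith
    calc (m a - m 1) * (B0 * (D * θ)) ≤ θ * (B0 * (D * θ)) :=
          mul_le_mul_of_nonneg_right h2 (by positivity)
      _ = _ := by ring
  have p3 : |∑ j ∈ Finset.Ico a l, (m (j + 1) - m j) * bt2 n b j * tj S l j| ≤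
      B0 * (δ * θ ^ 2) := by
    have h1 : ∀ j ∈ Finset.Ico a l, |(m (j + 1) - m j) * bt2 n b j * tj S l j| ≤
        (m (j + 1) - m j) * (B0 * θ ^ 2) := by
      intro j hj
      rw [Finset.mem_Ico] at hj
      rw [abs_mul, abs_mul, abs_of_nonneg (hp j (by omega)),
        abs_of_nonneg (hB j (by omega)).1, abs_of_nonneg (htj0 j (by omega)).1, mul_assoc]
      refine mul_le_mul_of_nonneg_left ?_ (hp j (by omega))
      exact mul_le_mul (hB j (by omega)).2 (htj0 j (by omega)).2 (htj0 j (by omega)).1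
        (by linarith)
    refine (Finset.abs_sum_le_sum_abs _ _).trans ((Finset.sum_le_sum h1).trans ?_)
    rw [← Finset.sum_mul, sum_m_Ico m hal]
    calc (m l - m a) * (B0 * θ ^ 2) ≤ δ * (B0 * θ ^ 2) :=
          mul_le_mul_of_nonneg_right (by linarith) (by positivity)
      _ = _ := by ring
  have eB : Br n K m b w l = (2 * m (l + 1) - m l) * bt2 n b l * tj S l l +
      (∑ j ∈ Finset.Ico 1 a, (m (j + 1) - m j) * bt2 n b j * tj S l j +
      ∑ j ∈ Finset.Ico a l, (m (j + 1) - m j) * bt2 n b j * tj S l j) := by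
    rw [Finset.sum_Ico_consecutive _ ha hal]
    rfl
  refine ⟨?_, ?_, ?_⟩
  · rw [eB]
    set X1 := (2 * m (l + 1) - m l) * bt2 n b l * tj S l l
    set X2 := ∑ j ∈ Finset.Ico 1 a, (m (j + 1) - m j) * bt2 n b j * tj S l j
    set X3 := ∑ j ∈ Finset.Ico a l, (m (j + 1) - m j) * bt2 n b j * tj S l j
    have a1 := abs_le.1 p1
    have a2 := abs_le.1 p2
    have a3 := abs_le.1 p3
    rw [abs_le]
    constructor <;> nlinarith [a1.1, a1.2, a2.1, a2.2, a3.1, a3.2]
  · unfold Br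
    refine add_nonneg (mul_nonneg (mul_nonneg (by linarith) (hB l le_rfl).1)
      (htj0 l le_rfl).1) (Finset.sum_nonneg fun j hj => ?_)
    rw [Finset.mem_Ico] at hj
    exact mul_nonneg (mul_nonneg (hp j (by omega)) (hB j (by omega)).1) (htj0 j (by omega)).1
  · unfold Br
    have b1 : (2 * m (l + 1) - m l) * bt2 n b l * tj S l l ≤ 2 * (B0 * θ ^ 3) := by
      calc (2 * m (l + 1) - m l) * bt2 n b l * tj S l l =
            (2 * m (l + 1) - m l) * (bt2 n b l * tj S l l) := by ring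
        _ ≤ (2 * θ) * (B0 * θ ^ 2) := by
            refine mul_le_mul (by linarith) (mul_le_mul (hB l le_rfl).2 (htj0 l le_rfl).2
              (htj0 l le_rfl).1 (by linarith)) (mul_nonneg (hB l le_rfl).1 (htj0 l le_rfl).1)
              (by linarith)
        _ = _ := by ring
    have b2 : ∑ j ∈ Finset.Ico 1 l, (m (j + 1) - m j) * bt2 n b j * tj S l j ≤
        B0 * θ ^ 3 := by
      have h1 : ∀ j ∈ Finset.Ico 1 l, (m (j + 1) - m j) * bt2 n b j * tj S l j ≤
          (m (j + 1) - m j) * (B0 * θ ^ 2) := by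
        intro j hj
        rw [Finset.mem_Ico] at hj
        rw [mul_assoc]
        refine mul_le_mul_of_nonneg_left ?_ (hp j (by omega))
        exact mul_le_mul (hB j (by omega)).2 (htj0 j (by omega)).2 (htj0 j (by omega)).1
          (by linarith)
      refine (Finset.sum_le_sum h1).trans ?_
      rw [← Finset.sum_mul, sum_m_Ico m (show 1 ≤ l by omega)]
      calc (m l - m 1) * (B0 * θ ^ 2) ≤ θ * (B0 * θ ^ 2) :=
            mul_le_mul_of_nonneg_right (by linarith) (by positivity)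
        _ = _ := by ring
    linarith

/-- the error of the row in the final form -/
noncomputable def eV (n : ℕ) (m w : ℕ → ℝ) (l : ℕ) (θ D κ B0 g0 g1 t δ : ℝ) : ℝ :=
  eU n m w l θ D κ B0 g0 g1 t + B0 * (8 * δ * θ ^ 2 + 2 * D * θ ^ 2)

lemma rowV_num {ρ N F B X Y R R' E e1 e2 : ℝ}
    (h1 : |ρ - N - F - (B * (X ^ 2 * ρ) - X * R)| ≤ E)
    (s1 : |B * (X ^ 2 * ρ) - B * (Y ^ 2 * ρ)| ≤ e1) (s2 : |X * R - Y * R'| ≤ e2) :
    |N + F - (ρ * (1 - B * Y ^ 2) + Y * R')| ≤ E + (e1 + e2) := by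
  have e : N + F - (ρ * (1 - B * Y ^ 2) + Y * R') =
      -(ρ - N - F - (B * (X ^ 2 * ρ) - X * R)) +
      (-(B * (X ^ 2 * ρ) - B * (Y ^ 2 * ρ)) + (X * R - Y * R')) := by ring
  rw [e]
  refine (abs_add_le _ _).trans (add_le_add (by rwa [abs_neg]) ?_)
  exact (abs_add_le _ _).trans (add_le_add (by rwa [abs_neg]) s2)

/-- **The row in the final form**: `v = m q`, `χ = χ_q`, the levels below `a` enter through the
exact number `Gs`. -/
theorem rowV (hm : Em K m) (ha : 1 ≤ a) (hal : a ≤ l) (hlq : l < q) (hq : q ≤ K)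
    (hw0 : 0 < w l) (hw1 : 0 < w (l + 1)) (hmm : m l < m (l + 1)) (i : Fin n)
    {t g0 g1 : ℝ} (ht : 0 < t) (ht1 : t ≤ 1)
    (hg0 : H295.gg (skS n K m b w) (spn n) (zs (by omega)) w l l ≤ g0)
    (hg1 : H295.gg (skS n K m b w) (spn n) (zs (by omega)) w (l + 1) (l + 1) ≤ g1)
    (hδ : m q - m a ≤ δ) (hvθ : m q ≤ θ) (hρ : (skS n K m b w).Rl H325.sp (q - 1) ≤ θ)
    (H : Hz n K m b w l θ D κ B0) :
    |NL K m b w l i + FdA n K m b w l -
      ((skS n K m b w).Rl H325.sp l * (1 - bt2 n b l * ch n K m b w (q - 1) ^ 2) +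
        ch n K m b w (q - 1) * (m q * bt2 n b l * (skS n K m b w).Rl H325.sp l ^ 2 +
          Gs n K m b w a))| ≤ eV n m w l θ D κ B0 g0 g1 t δ := by
  have hn : 0 < n := by
    have := i.2
    omega
  have hl : l < K := by omega
  have hK : 0 < K := by omega
  have h1 := rowU hm (by omega : 1 ≤ l) hl hw0 hw1 hmm i ht ht1 hg0 hg1 H
  obtain ⟨h2, h3, h4⟩ := brk_near hm hn ha hal hlq hq hδ hvθ H
  obtain ⟨h5, h6⟩ := ch_diff (l := l) hm hn hlq hq hρ
  obtain ⟨r0, r1, q2, q1, q3⟩ := H.mom hm hn hK hl.le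
  have θ0 := H.θ0
  have θ1 := H.θ1
  have D0 := H.D0
  have B1 := H.B1
  have hB := H.bB
  have hBn := bt2_nonneg n b l
  obtain ⟨c0, c1⟩ := ch_mem (b := b) (w := w) hm hn hl
  have c2 : 0 ≤ ch n K m b w (q - 1) ∧ ch n K m b w (q - 1) ≤ 1 :=
    ch_mem (b := b) (w := w) hm hn (show q - 1 < K by omega)
  have m1 : m a ≤ m (l + 1) := Em.mono' hm (by omega) (by omega)
  have m3 : m (l + 1) ≤ m q := Em.mono' hm (by omega) (by omega)
  have hδ0 : 0 ≤ δ := by linarith
  have h7 : (m q - m (l + 1)) * θ ≤ δ * θ := mul_le_mul_of_nonneg_right (by linarith) θ0.le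
  set X := ch n K m b w l
  set Y := ch n K m b w (q - 1)
  set ρ := (skS n K m b w).Rl H325.sp l
  set B := bt2 n b l
  set R := Br n K m b w l
  set R' := m q * B * ρ ^ 2 + Gs n K m b w a
  have h8 : |Y - X| ≤ δ * θ := by
    rw [abs_of_nonneg h5]
    linarith
  -- the differences
  have s1 : |B * (X ^ 2 * ρ) - B * (Y ^ 2 * ρ)| ≤ 2 * (B0 * (δ * θ ^ 2)) := by
    have e1 : B * (X ^ 2 * ρ) - B * (Y ^ 2 * ρ) = -(B * ρ * (Y + X) * (Y - X)) := by ring
    rw [e1, abs_neg, abs_mul, abs_of_nonneg (mul_nonneg (mul_nonneg hBn r0) (by linarith))]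
    calc B * ρ * (Y + X) * |Y - X| ≤ B0 * θ * 2 * (δ * θ) := by
          refine mul_le_mul (mul_le_mul (mul_le_mul hB r1 r0 (by linarith)) (by linarith [c2.2])
            (by linarith [c2.1]) (by positivity)) h8 (abs_nonneg _) (by positivity)
      _ = _ := by ring
  have s2 : |X * R - Y * R'| ≤ 3 * (B0 * (δ * θ ^ 2)) + B0 * (2 * δ * θ ^ 2 + 2 * D * θ ^ 2) := by
    have e1 : X * R - Y * R' = -((Y - X) * R) + Y * (R - R') := by ring
    rw [e1]
    refine (abs_add_le _ _).trans (add_le_add ?_ ?_)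
    · rw [abs_neg, abs_mul, abs_of_nonneg h3]
      calc |Y - X| * R ≤ (δ * θ) * (3 * B0 * θ ^ 3) :=
            mul_le_mul h8 h4 h3 (by positivity)
        _ = 3 * (B0 * (δ * θ ^ 2)) * θ ^ 2 := by ring
        _ ≤ 3 * (B0 * (δ * θ ^ 2)) * 1 :=
            mul_le_mul_of_nonneg_left (by nlinarith) (by positivity)
        _ = _ := mul_one _
    · rw [abs_mul, abs_of_nonneg c2.1]
      calc Y * |R - R'| ≤ 1 * (B0 * (2 * δ * θ ^ 2 + 2 * D * θ ^ 2)) :=
            mul_le_mul c2.2 h2 (abs_nonneg _) zero_le_one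
        _ = _ := one_mul _
  refine (rowV_num h1 s1 s2).trans ?_
  have p1 : 0 ≤ B0 * (δ * θ ^ 2) := by positivity
  unfold eV
  linarith

end sk

end Vale.Agent.P146.H877x
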