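import Vale.Agent.P146.H877x.Nrm

/-!
# P146: smooth contraction families (helper877)

Directions: a family `ψ δ : (κ0 δ → X → ℝ) → X → ℝ` of multilinear functions of the configuration.
`Dr δ h h'`: in every coordinate `e` of level at most `l` with the energy coefficient
`β * ψ δ g x` the family `h f` has the partial derivative `β * h' (f, g)`, and `h' (f, g) = 0` if
`ψ δ g` does not depend on the configuration.  `Sm N κ C h`: `N` derivatives, all contraction
families.  Closed under sums, products and averages.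
-/

open MeasureTheory ProbabilityTheory

namespace Vale.Agent.P146.H877x

open Vale.Agent.P157 Vale.Agent.P157.Lv Vale.Agent.P157.Lv.Sy

set_option linter.unusedSectionVars false

variable {ι X : Type} [Fintype ι] [DecidableEq ι] [Fintype X] [DecidableEq X] [Nonempty X]

/-- the derivative relation -/
structure Dr (S : Sy ι X) (D : ι → (ι → ℝ) → X → ℝ) (l : ℕ) {κ κ0 : Type}
    (ψ : (κ0 → X → ℝ) → X → ℝ)
    (h : (κ → X → ℝ) → (ι → ℝ) → X → ℝ)
    (h' : (κ ⊕ κ0 → X → ℝ) → (ι → ℝ) → X → ℝ) : Prop where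
  pd : ∀ e, S.lev e ≤ l → ∀ (β : ℝ) (g : κ0 → X → ℝ), (∀ z x, D e z x = β * ψ g x) →
    ∀ f x, PD e (fun z => h f z x) (fun z => β * h' (Sum.elim f g) z x)
  inv : ∀ (g : κ0 → X → ℝ) (c : ℝ), (∀ x, ψ g x = c) → ∀ f z x, h' (Sum.elim f g) z x = 0

variable {Δ : Type} {κ0 : Δ → Type} [∀ δ, Fintype (κ0 δ)] [∀ δ, DecidableEq (κ0 δ)]

/-- `N` derivatives in the directions `ψ` -/
def Sm (S : Sy ι X) (D : ι → (ι → ℝ) → X → ℝ) (l : ℕ) (ψ : ∀ δ, (κ0 δ → X → ℝ) → X → ℝ) :
    ℕ → (κ : Type) → [Fintype κ] → [DecidableEq κ] → ℝ →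
      ((κ → X → ℝ) → (ι → ℝ) → X → ℝ) → Prop
  | 0, κ, _, _, C, h => Cl S l κ C h
  | N + 1, κ, _, _, C, h => Cl S l κ C h ∧
      ∀ δ, ∃ h', Dr S D l (ψ δ) h h' ∧ Sm S D l ψ N (κ ⊕ κ0 δ) C h'

variable {S : Sy ι X} {D : ι → (ι → ℝ) → X → ℝ} {l : ℕ} {ψ : ∀ δ, (κ0 δ → X → ℝ) → X → ℝ}
  {κ κ' : Type} [Fintype κ] [DecidableEq κ] [Fintype κ'] [DecidableEq κ'] {C C' : ℝ} {N : ℕ}
  {h g : (κ → X → ℝ) → (ι → ℝ) → X → ℝ}

lemma Sm.cl (hh : Sm S D l ψ N κ C h) : Cl S l κ C h := by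
  cases N with
  | zero => exact hh
  | succ N => exact hh.1

lemma Sm.mono (hC : C ≤ C') (hh : Sm S D l ψ N κ C h) : Sm S D l ψ N κ C' h := by
  induction N generalizing κ with
  | zero => exact Cl.mono hh hC
  | succ N ih =>
    refine ⟨hh.1.mono hC, fun δ => ?_⟩
    obtain ⟨h', h1, h2⟩ := hh.2 δ
    exact ⟨h', h1, ih h2⟩

lemma Sm.le {M : ℕ} (hM : M ≤ N) (hh : Sm S D l ψ N κ C h) : Sm S D l ψ M κ C h := by
  induction M generalizing N κ with
  | zero => exact hh.cl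
  | succ M ih =>
    obtain ⟨N, rfl⟩ : ∃ N', N = N' + 1 := ⟨N - 1, by omega⟩
    refine ⟨hh.1, fun δ => ?_⟩
    obtain ⟨h', h1, h2⟩ := hh.2 δ
    exact ⟨h', h1, ih (by omega) h2⟩

lemma Sm.congr (hh : Sm S D l ψ N κ C h) (e : ∀ f z x, g f z x = h f z x) :
    Sm S D l ψ N κ C g := by
  have : g = h := by funext f z x; exact e f z x
  rw [this]; exact hh

/-- renaming of the slots -/
def eqv (e : κ ≃ κ') (κ1 : Type) : κ ⊕ κ1 ≃ κ' ⊕ κ1 := Equiv.sumCongr e (Equiv.refl κ1)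

lemma Sm.reindex (hh : Sm S D l ψ N κ C h) (e : κ ≃ κ') :
    Sm S D l ψ N κ' C fun f z x => h (fun r => f (e r)) z x := by
  induction N generalizing κ κ' with
  | zero => exact Cl.reindex hh e
  | succ N ih =>
    refine ⟨hh.1.reindex e, fun δ => ?_⟩
    obtain ⟨h', h1, h2⟩ := hh.2 δ
    refine ⟨fun f z x => h' (fun r => f (eqv e (κ0 δ) r)) z x, ⟨?_, ?_⟩, ih h2 (eqv e (κ0 δ))⟩
    · intro i hi β g hD f x
      have h3 := h1.pd i hi β g hD (fun r => f (e r)) x
      have e1 : (fun r => (Sum.elim f g : κ' ⊕ κ0 δ → X → ℝ) (eqv e (κ0 δ) r)) =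
          Sum.elim (fun r => f (e r)) g := by
        funext r
        rcases r with r | r <;> rfl
      rw [e1]
      exact h3
    · intro g c hc f z x
      have e1 : (fun r => (Sum.elim f g : κ' ⊕ κ0 δ → X → ℝ) (eqv e (κ0 δ) r)) =
          Sum.elim (fun r => f (e r)) g := by
        funext r
        rcases r with r | r <;> rfl
      show h' _ z x = 0
      rw [e1]
      exact h1.inv g c hc _ z x

lemma Sm.zero (hS : S.Reg) (hl : l ≤ S.K) : Sm S D l ψ N κ 0 fun _ _ _ => 0 := by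
  induction N generalizing κ with
  | zero => exact Cl.zero hS hl
  | succ N ih =>
    refine ⟨Cl.zero hS hl, fun δ => ⟨fun _ _ _ => 0, ⟨?_, fun _ _ _ _ _ _ => rfl⟩, ih⟩⟩
    intro i hi β g hD f x
    simpa using PD.const (e := i) (0 : ℝ)

lemma Sm.add (hS : S.Reg) (hl : l ≤ S.K) (hC : 0 ≤ C) (hC' : 0 ≤ C')
    (hh : Sm S D l ψ N κ C h) (hg : Sm S D l ψ N κ C' g) :
    Sm S D l ψ N κ (C + C') fun f z x => h f z x + g f z x := by
  induction N generalizing κ with
  | zero => exact Cl.add hS hl hC hC' hh hg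
  | succ N ih =>
    refine ⟨hh.1.add hS hl hC hC' hg.1, fun δ => ?_⟩
    obtain ⟨h', h1, h2⟩ := hh.2 δ
    obtain ⟨g', h3, h4⟩ := hg.2 δ
    refine ⟨_, ⟨?_, ?_⟩, ih h2 h4⟩
    · intro i hi β q hD f x
      refine ((h1.pd i hi β q hD f x).add (h3.pd i hi β q hD f x)).congr fun z => ?_
      ring
    · intro q c hc f z x
      show h' _ z x + g' _ z x = 0
      rw [h1.inv q c hc, h3.inv q c hc, add_zero]

lemma Sm.const_mul (hh : Sm S D l ψ N κ C h) (k : ℝ) :
    Sm S D l ψ N κ (|k| * C) fun f z x => k * h f z x := by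
  induction N generalizing κ with
  | zero => exact Cl.const_mul hh k
  | succ N ih =>
    refine ⟨hh.1.const_mul k, fun δ => ?_⟩
    obtain ⟨h', h1, h2⟩ := hh.2 δ
    refine ⟨_, ⟨?_, ?_⟩, ih h2⟩
    · intro i hi β q hD f x
      refine ((h1.pd i hi β q hD f x).const_mul k).congr fun z => ?_
      ring
    · intro q c hc f z x
      show k * h' _ z x = 0
      rw [h1.inv q c hc, mul_zero]

lemma Sm.sum (hS : S.Reg) (hl : l ≤ S.K) {J : Type*} (s : Finset J) {c : J → ℝ}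
    {F : J → (κ → X → ℝ) → (ι → ℝ) → X → ℝ} (hc : ∀ j ∈ s, 0 ≤ c j)
    (hF : ∀ j ∈ s, Sm S D l ψ N κ (c j) (F j)) :
    Sm S D l ψ N κ (∑ j ∈ s, c j) fun f z x => ∑ j ∈ s, F j f z x := by
  classical
  induction s using Finset.induction_on with
  | empty => simpa using Sm.zero hS hl
  | insert a s ha ih =>
    simp only [Finset.sum_insert ha]
    exact Sm.add hS hl (hc a (Finset.mem_insert_self a s))
      (Finset.sum_nonneg fun j hj => hc j (Finset.mem_insert_of_mem hj))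
      (hF a (Finset.mem_insert_self a s))
      (ih (fun j hj => hc j (Finset.mem_insert_of_mem hj))
        fun j hj => hF j (Finset.mem_insert_of_mem hj))

/-- slots `(κ, κ0), κ1` to `(κ, κ1), κ0` -/
def sw1 (κ κ0 κ1 : Type) : (κ ⊕ κ0) ⊕ κ1 ≃ (κ ⊕ κ1) ⊕ κ0 where
  toFun := Sum.elim (Sum.elim (fun a => Sum.inl (Sum.inl a)) fun b => Sum.inr b)
    fun c => Sum.inl (Sum.inr c)
  invFun := Sum.elim (Sum.elim (fun a => Sum.inl (Sum.inl a)) fun c => Sum.inr c)
    fun b => Sum.inl (Sum.inr b)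
  left_inv := by rintro ((a | b) | c) <;> rfl
  right_inv := by rintro ((a | b) | c) <;> rfl

/-- slots `κ, (κ1, κ0)` to `(κ, κ1), κ0` -/
def sw2 (κ κ0 κ1 : Type) : κ ⊕ (κ1 ⊕ κ0) ≃ (κ ⊕ κ1) ⊕ κ0 where
  toFun := Sum.elim (fun a => Sum.inl (Sum.inl a))
    (Sum.elim (fun c => Sum.inl (Sum.inr c)) fun b => Sum.inr b)
  invFun := Sum.elim (Sum.elim (fun a => Sum.inl a) fun c => Sum.inr (Sum.inl c))
    fun b => Sum.inr (Sum.inr b)
  left_inv := by rintro (a | (b | c)) <;> rfl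
  right_inv := by rintro ((a | b) | c) <;> rfl

/-- **Products.** -/
lemma Sm.mul (hS : S.Reg) (hl : l ≤ S.K) (hC : 0 ≤ C) (hC' : 0 ≤ C')
    {g : (κ' → X → ℝ) → (ι → ℝ) → X → ℝ}
    (hh : Sm S D l ψ N κ C h) (hg : Sm S D l ψ N κ' C' g) :
    Sm S D l ψ N (κ ⊕ κ') (2 ^ N * (C * C')) fun f z x => h (fun r => f (Sum.inl r)) z x *
      g (fun r => f (Sum.inr r)) z x := by
  induction N generalizing κ κ' C C' with
  | zero => exact Cl.mono (Cl.mul hS hl hh hg) (by rw [pow_zero, one_mul])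
  | succ N ih =>
    have h0 : 0 ≤ C * C' := mul_nonneg hC hC'
    refine ⟨(hh.1.mul hS hl hg.1).mono (le_mul_of_one_le_left h0 (one_le_pow₀ (by norm_num))),
      fun δ => ?_⟩
    obtain ⟨h', h1, h2⟩ := hh.2 δ
    obtain ⟨g', h3, h4⟩ := hg.2 δ
    have k1 := (ih hC hC' h2 (hg.le (Nat.le_succ N))).reindex (sw1 κ (κ0 δ) κ')
    have k2 := (ih hC hC' (hh.le (Nat.le_succ N)) h4).reindex (sw2 κ (κ0 δ) κ')
    have k3 := Sm.add hS hl (by positivity) (by positivity) k1 k2
    have e1 : (2 : ℝ) ^ N * (C * C') + 2 ^ N * (C * C') = 2 ^ (N + 1) * (C * C') := by ring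
    rw [e1] at k3
    have a1 : ∀ (f : κ ⊕ κ' → X → ℝ) (q : κ0 δ → X → ℝ),
        (fun r => (Sum.elim f q : (κ ⊕ κ') ⊕ κ0 δ → X → ℝ) (sw1 κ (κ0 δ) κ' (Sum.inl r))) =
        Sum.elim (fun r => f (Sum.inl r)) q := by
      intro f q; funext r; rcases r with r | r <;> rfl
    have a2 : ∀ (f : κ ⊕ κ' → X → ℝ) (q : κ0 δ → X → ℝ),
        (fun r => (Sum.elim f q : (κ ⊕ κ') ⊕ κ0 δ → X → ℝ) (sw1 κ (κ0 δ) κ' (Sum.inr r))) =
        fun r => f (Sum.inr r) := by
      intro f q; rfl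
    have a3 : ∀ (f : κ ⊕ κ' → X → ℝ) (q : κ0 δ → X → ℝ),
        (fun r => (Sum.elim f q : (κ ⊕ κ') ⊕ κ0 δ → X → ℝ) (sw2 κ (κ0 δ) κ' (Sum.inl r))) =
        fun r => f (Sum.inl r) := by
      intro f q; rfl
    have a4 : ∀ (f : κ ⊕ κ' → X → ℝ) (q : κ0 δ → X → ℝ),
        (fun r => (Sum.elim f q : (κ ⊕ κ') ⊕ κ0 δ → X → ℝ) (sw2 κ (κ0 δ) κ' (Sum.inr r))) =
        Sum.elim (fun r => f (Sum.inr r)) q := by
      intro f q; funext r; rcases r with r | r <;> rfl
    refine ⟨_, ⟨?_, ?_⟩, k3⟩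
    · intro i hi β q hD f x
      refine ((h1.pd i hi β q hD (fun r => f (Sum.inl r)) x).mul
        (h3.pd i hi β q hD (fun r => f (Sum.inr r)) x)).congr fun z => ?_
      rw [a1, a2, a3, a4]
      ring
    · intro q c hc f z x
      show h' _ z x * g _ z x + h _ z x * g' _ z x = 0
      rw [a1, a4, h1.inv q c hc, h3.inv q c hc, mul_zero, zero_mul, add_zero]

/-- the constants of the averages -/
noncomputable def tc : ℕ → ℝ
  | 0 => 1
  | N + 1 => tc N * (1 + 2 ^ N * (1 + tc N))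

lemma one_le_tc (N : ℕ) : 1 ≤ tc N := by
  induction N with
  | zero => simp [tc]
  | succ N ih =>
    have h1 : (1 : ℝ) ≤ 1 + 2 ^ N * (1 + tc N) := by
      have : (0 : ℝ) ≤ 2 ^ N * (1 + tc N) := by positivity
      linarith
    unfold tc
    nlinarith

lemma tc_nonneg (N : ℕ) : 0 ≤ tc N := zero_le_one.trans (one_le_tc N)

/-- functions of the configuration only -/
lemma Sm.of_x (hS : S.Reg) (hl : l ≤ S.K) {F : (κ → X → ℝ) → X → ℝ}
    (hC : 0 ≤ C) (hF : Cl S l κ C fun f _ x => F f x) : Sm S D l ψ N κ C fun f _ x => F f x := by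
  cases N with
  | zero => exact hF
  | succ N =>
    refine ⟨hF, fun δ => ⟨fun _ _ _ => 0, ⟨?_, fun _ _ _ _ _ _ => rfl⟩,
      (Sm.zero hS hl).mono hC⟩⟩
    intro i hi β g hD f x
    refine (PD.const (e := i) (F f x)).congr fun z => ?_
    simp

lemma sum_p (hS : S.Reg) {i : ℕ} (hi : i ≤ S.K) :
    ∑ j ∈ Finset.Ico (i + 1) (S.K + 1), S.p j + S.m (i + 1) = 1 := by
  have h : ∀ k, i ≤ k → k ≤ S.K → ∑ j ∈ Finset.Ico (i + 1) (k + 1), S.p j + S.m (i + 1) =
      S.m (k + 1) := by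
    intro k hk
    induction k, hk using Nat.le_induction with
    | base => intro _; simp
    | succ k hk ih =>
      intro hk2
      rw [Finset.sum_Ico_succ_top (by omega)]
      have := ih (by omega)
      have e : S.p (k + 1) = S.m (k + 1 + 1) - S.m (k + 1) := rfl
      rw [e]
      linarith
  rw [h S.K hi le_rfl, hS.mK]

lemma p_nonneg (hS : S.Reg) {j : ℕ} (hj : j ≤ S.K) : 0 ≤ S.p j := by
  unfold p
  linarith [hS.mono j hj]

/-- **Averages.** -/
theorem Sm.T (hS : S.RegD D) (hl : l ≤ S.K)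
    (hψ : ∀ δ, Cl S l (κ0 δ) 1 fun g _ x => ψ δ g x) {i : ℕ} (hi : l ≤ i) (hiK : i ≤ S.K)
    (hC : 0 ≤ C) (hh : Sm S D l ψ N κ C h) :
    Sm S D l ψ N κ (tc N * C) fun f z _ => S.T i (h f) z := by
  have hR := hS.toReg
  induction N generalizing κ C i with
  | zero => exact Cl.mono (Cl.T hR hi hiK hh) (by simp [tc])
  | succ N ih =>
    refine ⟨(hh.1.T hR hi hiK).mono (le_mul_of_one_le_left hC (one_le_tc _)), fun δ => ?_⟩
    obtain ⟨h', h1, h2⟩ := hh.2 δ
    have hψN : Sm S D l ψ N (κ0 δ) 1 fun g _ x => ψ δ g x := Sm.of_x hR hl zero_le_one (hψ δ)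
    have hTj : ∀ j ∈ Finset.Ico (i + 1) (S.K + 1), Sm S D l ψ N (κ0 δ) (S.p j * tc N)
        fun g z x => (-S.p j) * S.T j (fun _ x => ψ δ g x) z := by
      intro j hj
      rw [Finset.mem_Ico] at hj
      have hp := p_nonneg hR (j := j) (by omega)
      have k := (ih (i := j) (by omega) (by omega) zero_le_one hψN).const_mul (-S.p j)
      rw [abs_neg, abs_of_nonneg hp, mul_one] at k
      exact k
    have hm : Sm S D l ψ N (κ0 δ) (S.m (i + 1) * tc N)
        fun g z x => (-S.m (i + 1)) * S.T i (fun _ x => ψ δ g x) z := by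
      have hp : 0 ≤ S.m (i + 1) := (hR.m_pos (by omega) (by omega)).le
      have k := (ih hi hiK zero_le_one hψN).const_mul (-S.m (i + 1))
      rw [abs_neg, abs_of_nonneg hp, mul_one] at k
      exact k
    have hcen : Sm S D l ψ N (κ0 δ) (1 + tc N) fun g z x => ψ δ g x +
        (∑ j ∈ Finset.Ico (i + 1) (S.K + 1), (-S.p j) * S.T j (fun _ x => ψ δ g x) z +
          (-S.m (i + 1)) * S.T i (fun _ x => ψ δ g x) z) := by
      have k1 := Sm.sum hR hl (Finset.Ico (i + 1) (S.K + 1))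
        (c := fun j => S.p j * tc N)
        (F := fun j g z x => (-S.p j) * S.T j (fun _ x => ψ δ g x) z)
        (fun j hj => mul_nonneg (p_nonneg hR (by rw [Finset.mem_Ico] at hj; omega))
          (tc_nonneg N)) hTj
      have hp : 0 ≤ S.m (i + 1) := (hR.m_pos (by omega) (by omega)).le
      have k2 := Sm.add hR hl (Finset.sum_nonneg fun j hj => mul_nonneg
        (p_nonneg hR (by rw [Finset.mem_Ico] at hj; omega)) (tc_nonneg N))
        (mul_nonneg hp (tc_nonneg N)) k1 hm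
      rw [← Finset.sum_mul, ← add_mul, sum_p hR hiK, one_mul] at k2
      exact Sm.add hR hl zero_le_one (tc_nonneg N) hψN k2
    have hprod := Sm.mul hR hl hC (by linarith [tc_nonneg N]) (hh.le (Nat.le_succ N)) hcen
    have hsum := Sm.add hR hl hC (by
      have := tc_nonneg N
      positivity) h2 hprod
    have hT := ih hi hiK (by
      have := tc_nonneg N
      positivity) hsum
    have e1 : tc N * (C + 2 ^ N * (C * (1 + tc N))) = tc (N + 1) * C := by
      rw [tc]; ring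
    rw [e1] at hT
    refine ⟨_, ⟨?_, ?_⟩, hT⟩
    · intro e he β g hD f x
      have hn1 : Nh (h f) := hh.cl.nh f
      have hn2 : Nh fun z x => β * h' (Sum.elim f g) z x := Nh.const_mul _ (h2.cl.nh _)
      have k := hS.pd_T hiK (he.trans hi) (h := h f)
        (h' := fun z x => β * h' (Sum.elim f g) z x) (fun x => h1.pd e he β g hD f x) hn1 hn2
      have hTD : ∀ j z, S.T j (D e) z = β * S.T j (fun _ x => ψ δ g x) z := by
        intro j z
        have e2 : D e = fun z x => β * (fun (_ : ι → ℝ) (x : X) => ψ δ g x) z x := by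
          funext z x; exact hD z x
        rw [e2, T_const_mul]
      refine k.congr fun z => ?_
      rw [← T_const_mul]
      congr 1
      funext z x
      simp only [Sum.elim_inl, Sum.elim_inr, hTD, hD z x]
      have e3 : ∑ j ∈ Finset.Ico (i + 1) (S.K + 1), S.p j * (β * S.T j (fun _ x => ψ δ g x) z) =
          β * ∑ j ∈ Finset.Ico (i + 1) (S.K + 1), S.p j * S.T j (fun _ x => ψ δ g x) z := by
        rw [Finset.mul_sum]
        exact Finset.sum_congr rfl fun j _ => by ring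
      have e4 : ∑ j ∈ Finset.Ico (i + 1) (S.K + 1), (-S.p j) * S.T j (fun _ x => ψ δ g x) z =
          -∑ j ∈ Finset.Ico (i + 1) (S.K + 1), S.p j * S.T j (fun _ x => ψ δ g x) z := by
        rw [← Finset.sum_neg_distrib]
        exact Finset.sum_congr rfl fun j _ => by ring
      rw [e3, e4]
      ring
    · intro g c hc f z x
      show S.T i _ z = 0
      have e5 : (fun (z : ι → ℝ) (x : X) => h' (Sum.elim f g) z x +
          h (fun r => (Sum.elim f g : κ ⊕ κ0 δ → X → ℝ) (Sum.inl r)) z x *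
          (ψ δ (fun r => (Sum.elim f g : κ ⊕ κ0 δ → X → ℝ) (Sum.inr r)) x +
          (∑ j ∈ Finset.Ico (i + 1) (S.K + 1), (-S.p j) *
            S.T j (fun _ x => ψ δ (fun r => (Sum.elim f g : κ ⊕ κ0 δ → X → ℝ) (Sum.inr r)) x) z +
          (-S.m (i + 1)) * S.T i (fun _ x => ψ δ (fun r =>
            (Sum.elim f g : κ ⊕ κ0 δ → X → ℝ) (Sum.inr r)) x) z))) = fun _ _ => 0 := by
        funext z x
        simp only [Sum.elim_inr]
        rw [h1.inv g c hc]
        have e6 : ∀ j, j ≤ S.K → S.T j (fun (_ : ι → ℝ) x => ψ δ (fun r => g r) x) z = c := by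
          intro j hj
          have e7 : (fun (_ : ι → ℝ) (x : X) => ψ δ (fun r => g r) x) = fun _ _ => c := by
            funext _ x; exact hc x
          rw [e7, hR.T_const hj]
        have e8 : ∑ j ∈ Finset.Ico (i + 1) (S.K + 1), (-S.p j) *
            S.T j (fun (_ : ι → ℝ) x => ψ δ (fun r => g r) x) z =
            ∑ j ∈ Finset.Ico (i + 1) (S.K + 1), (-S.p j) * c :=
          Finset.sum_congr rfl fun j hj => by
            rw [Finset.mem_Ico] at hj
            rw [e6 j (by omega)]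
        rw [e8, e6 i hiK, hc x, ← Finset.sum_mul, Finset.sum_neg_distrib]
        have := sum_p hR hiK
        have e9 : c + (-∑ j ∈ Finset.Ico (i + 1) (S.K + 1), S.p j * c + -S.m (i + 1) * c) = 0 := by
          rw [← Finset.sum_mul]
          have : ∑ j ∈ Finset.Ico (i + 1) (S.K + 1), S.p j = 1 - S.m (i + 1) := by linarith
          rw [this]; ring
        rw [← Finset.sum_mul] at e9
        have e10 : c + (-∑ j ∈ Finset.Ico (i + 1) (S.K + 1), S.p j) * c +
            -S.m (i + 1) * c = 0 := by linarith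
        rw [zero_add, ← add_assoc, e10, mul_zero]
      rw [e5, hR.T_const hiK]

/-- the evaluation -/
lemma Sm.ev (hS : S.Reg) (hl : l ≤ S.K) : Sm S D l ψ N Unit 1 fun f (_ : ι → ℝ) (x : X) => f () x :=
  Sm.of_x hS hl zero_le_one (Cl.ev S l)

/-- a bounded function of the configuration -/
lemma Sm.bdd (hS : S.Reg) (hl : l ≤ S.K) {b : X → ℝ} (hC : 0 ≤ C) (hb : ∀ x, |b x| ≤ C) :
    Sm S D l ψ N PEmpty C fun _ (_ : ι → ℝ) (x : X) => b x :=
  Sm.of_x hS hl hC (Cl.bdd (Nh.snd b) fun _ x => hb x)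

end Vale.Agent.P146.H877x
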