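import Vale.Agent.P146.H877x.Gen
import Vale.Agent.P146.H379.RowB

/-!
# P146: the derivatives of the conditional vectors `Vf S l i f = T_l (f Mm_i)` (helper877)
-/

open MeasureTheory ProbabilityTheory

namespace Vale.Agent.P146.H877x

open Vale.Agent.P157 Vale.Agent.P157.Lv Vale.Agent.P157.Lv.Sy
open Vale.Agent.P146.H425 Vale.Agent.P146.H946 Vale.Agent.P146.H985
open Vale.Agent.P146.H93 Vale.Agent.P146.H325 Vale.Agent.P146.H379.Row

set_option linter.unusedSectionVars false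

section gen

variable {ι X : Type} [Fintype ι] [DecidableEq ι] [Fintype X] [DecidableEq X] [Nonempty X]
variable {S : Sy ι X} {l : ℕ} {κ κ' : Type} [Fintype κ] [DecidableEq κ] [Fintype κ']
  [DecidableEq κ'] {C C' : ℝ} {D : ι → (ι → ℝ) → X → ℝ} {N : ℕ}
variable {Δ : Type} {κ0 : Δ → Type} [∀ δ, Fintype (κ0 δ)] [∀ δ, DecidableEq (κ0 δ)]
  {ψ : ∀ δ, (κ0 δ → X → ℝ) → X → ℝ}

/-- product with a family without slots -/
lemma Sm.mulP (hS : S.Reg) (hl : l ≤ S.K) (hC : 0 ≤ C) (hC' : 0 ≤ C')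
    {h : (κ → X → ℝ) → (ι → ℝ) → X → ℝ} {g : (ι → ℝ) → X → ℝ}
    (hh : Sm S D l ψ N κ C h) (hg : Sm S D l ψ N PEmpty C' fun _ => g) :
    Sm S D l ψ N κ (2 ^ N * (C * C')) fun f z x => h f z x * g z x :=
  (Sm.mul hS hl hC hC' hh hg).reindex (Equiv.sumEmpty κ PEmpty)

/-- one direction, given by the slot function -/
abbrev ψu (X : Type) : ∀ _ : Unit, ((Unit → X → ℝ) → X → ℝ) := fun _ g x => g () x

end gen

/-- the common constant -/
noncomputable def KV : ℝ := 11772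

lemma KV_pos : 0 < KV := by unfold KV; norm_num

section spin

variable {ι : Type} [Fintype ι] [DecidableEq ι] {n : ℕ} {S : Sy ι (Fin n → ℤˣ)} {l : ℕ}
  {D : ι → (ι → ℝ) → (Fin n → ℤˣ) → ℝ} {N : ℕ}

lemma hψu (S : Sy ι (Fin n → ℤˣ)) (l : ℕ) :
    ∀ δ : Unit, Cl S l Unit 1 fun g (_ : ι → ℝ) x => ψu (Fin n → ℤˣ) δ g x :=
  fun _ => Cl.ev S l

/-- `Mm` has all derivatives -/
lemma mm_sm (hS : S.RegD D) (hl : l ≤ S.K) (i : Fin n) :
    Sm S D l (κ0 := fun _ => Unit) (ψu (Fin n → ℤˣ)) N PEmpty (1 + 2 ^ N * tc N)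
      fun _ => Mm S l i := by
  have hR := hS.toReg
  have hb : ∀ x : Fin n → ℤˣ, |sp x i| ≤ 1 := fun x => (abs_sp x i).le
  have k1 : Sm S D l (κ0 := fun _ => Unit) (ψu (Fin n → ℤˣ)) N PEmpty 1
      fun _ (_ : ι → ℝ) (x : Fin n → ℤˣ) => sp x i := Sm.bdd hR hl zero_le_one hb
  have k2 : ∀ j ∈ Finset.Ico (l + 1) (S.K + 1), Sm S D l (κ0 := fun _ => Unit)
      (ψu (Fin n → ℤˣ)) N PEmpty (S.p j * (2 ^ N * (1 * (tc N * 1))))
      fun _ z x => (-S.p j) * (sp x i * dd S j i z) := by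
    intro j hj
    rw [Finset.mem_Ico] at hj
    have k3 := Sm.T hS hl (hψu S l) (i := j) (by omega) (by omega) zero_le_one k1
    have k4 := Sm.mulP hR hl zero_le_one (by
      have := tc_nonneg N; positivity) k1 (g := fun z x => dd S j i z) k3
    have k5 := k4.const_mul (-S.p j)
    rw [abs_neg, abs_of_nonneg (H877x.p_nonneg hR (j := j) (by omega))] at k5
    exact k5
  have k6 := Sm.sum hR hl (Finset.Ico (l + 1) (S.K + 1)) (fun j hj => by
    rw [Finset.mem_Ico] at hj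
    have h1 := H877x.p_nonneg hR (j := j) (by omega)
    have h2 := tc_nonneg N
    positivity) k2
  have k7 : Sm S D l (κ0 := fun _ => Unit) (ψu (Fin n → ℤˣ)) N PEmpty 1
      fun _ (_ : ι → ℝ) (_ : Fin n → ℤˣ) => (1 : ℝ) :=
    Sm.bdd hR hl zero_le_one fun _ => by rw [abs_one]
  have h3 : 0 ≤ ∑ j ∈ Finset.Ico (l + 1) (S.K + 1), S.p j * (2 ^ N * (1 * (tc N * 1))) :=
    Finset.sum_nonneg fun j hj => by
      rw [Finset.mem_Ico] at hj
      have h1 := H877x.p_nonneg hR (j := j) (by omega)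
      have h2 := tc_nonneg N
      positivity
  refine ((Sm.add hR hl zero_le_one h3 k7 k6).mono ?_).congr fun f z x => ?_
  · have h4 := sum_p hR hl
    have h5 : 0 ≤ S.m (l + 1) := (hR.m_pos (by omega) (by omega)).le
    rw [← Finset.sum_mul]
    have h6 : 0 ≤ 2 ^ N * tc N := by have := tc_nonneg N; positivity
    have h7 : (∑ j ∈ Finset.Ico (l + 1) (S.K + 1), S.p j) * (2 ^ N * tc N) ≤ 1 * (2 ^ N * tc N) :=
      mul_le_mul_of_nonneg_right (by linarith) h6
    simp only [one_mul, mul_one] at h7 ⊢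
    linarith
  · unfold Mm
    rw [sub_eq_add_neg, ← Finset.sum_neg_distrib]
    congr 1
    exact Finset.sum_congr rfl fun j _ => by ring

/-- the slots of the integrand of `Vf` -/
lemma fm_sm (hS : S.RegD D) (hl : l ≤ S.K) (i : Fin n) :
    Sm S D l (κ0 := fun _ => Unit) (ψu (Fin n → ℤˣ)) N Unit (2 ^ N * (1 * (1 + 2 ^ N * tc N)))
      fun f z x => f () x * Mm S l i z x :=
  Sm.mulP hS.toReg hl zero_le_one (by have := tc_nonneg N; positivity)
    (Sm.ev hS.toReg hl) (mm_sm hS hl i)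

/-- **The derivatives of `Vf`.** -/
structure VD (S : Sy ι (Fin n → ℤˣ)) (D : ι → (ι → ℝ) → (Fin n → ℤˣ) → ℝ) (l : ℕ) (i : Fin n)
    (V1 : ((Fin n → ℤˣ) → ℝ) → ((Fin n → ℤˣ) → ℝ) → (ι → ℝ) → ℝ)
    (V2 : ((Fin n → ℤˣ) → ℝ) → ((Fin n → ℤˣ) → ℝ) → ((Fin n → ℤˣ) → ℝ) → (ι → ℝ) → ℝ) :
    Prop where
  pd0 : ∀ e, S.lev e ≤ l → ∀ (β : ℝ) (g : (Fin n → ℤˣ) → ℝ), (∀ z x, D e z x = β * g x) →
    ∀ f, PD e (Vf S l i f) (fun z => β * V1 f g z)
  pd1 : ∀ e, S.lev e ≤ l → ∀ (β : ℝ) (g' : (Fin n → ℤˣ) → ℝ), (∀ z x, D e z x = β * g' x) →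
    ∀ f g, PD e (V1 f g) (fun z => β * V2 f g g' z)
  eg1 : ∀ f g, EG (V1 f g)
  eg2 : ∀ f g g', EG (V2 f g g')
  dep1 : ∀ f g, Dep S.lev l (V1 f g)
  dep2 : ∀ f g g', Dep S.lev l (V2 f g g')
  inv : ∀ f g (c : ℝ) z, V1 f (fun x => g x - c) z = V1 f g z
  b0 : ∀ {J : Type} [Fintype J] (φ : J → (Fin n → ℤˣ) → ℝ) (z : ι → ℝ),
    ∑ j, Vf S l i (φ j) z ^ 2 ≤ KV ^ 2 * pp S l z fun x x' => |∑ j, φ j x * φ j x'|
  b1 : ∀ {J J' : Type} [Fintype J] [Fintype J'] (φ : J → (Fin n → ℤˣ) → ℝ)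
    (χ : J' → (Fin n → ℤˣ) → ℝ) (z : ι → ℝ) (G G' : (Fin n → ℤˣ) → (Fin n → ℤˣ) → ℝ),
    (∀ x x', 0 ≤ G x x') → (∀ x x', 0 ≤ G' x x') →
    (∀ x x' y y', |∑ j, φ j x * φ j x'| * |∑ j, χ j y * χ j y'| ≤ G x x' + G' y y') →
    ∑ j, ∑ j', V1 (φ j) (χ j') z ^ 2 ≤ KV ^ 2 * (pp S l z G + pp S l z G')
  b2 : ∀ {J J' J'' : Type} [Fintype J] [Fintype J'] [Fintype J''] (φ : J → (Fin n → ℤˣ) → ℝ)
    (χ : J' → (Fin n → ℤˣ) → ℝ) (ω : J'' → (Fin n → ℤˣ) → ℝ) (z : ι → ℝ)
    (G G' G'' : (Fin n → ℤˣ) → (Fin n → ℤˣ) → ℝ),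
    (∀ x x', 0 ≤ G x x') → (∀ x x', 0 ≤ G' x x') → (∀ x x', 0 ≤ G'' x x') →
    (∀ x x' y y' u u', |∑ j, φ j x * φ j x'| * |∑ j, χ j y * χ j y'| * |∑ j, ω j u * ω j u'| ≤
      G x x' + G' y y' + G'' u u') →
    ∑ j, ∑ j', ∑ j'', V2 (φ j) (χ j') (ω j'') z ^ 2 ≤
      KV ^ 2 * (pp S l z G + pp S l z G' + pp S l z G'')

/-- the types of the indices of two slots -/
def J2 (J J' : Type) : Unit ⊕ Unit → Type := Sum.elim (fun _ => J) (fun _ => J')

instance (J J' : Type) [Fintype J] [Fintype J'] : ∀ r, Fintype (J2 J J' r) := fun r =>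
  match r with
  | Sum.inl _ => inferInstanceAs (Fintype J)
  | Sum.inr _ => inferInstanceAs (Fintype J')

/-- the types of the indices of three slots -/
def J3 (J J' J'' : Type) : (Unit ⊕ Unit) ⊕ Unit → Type := Sum.elim (J2 J J') (fun _ => J'')

instance (J J' J'' : Type) [Fintype J] [Fintype J'] [Fintype J''] :
    ∀ r, Fintype (J3 J J' J'' r) := fun r =>
  match r with
  | Sum.inl r => inferInstanceAs (Fintype (J2 J J' r))
  | Sum.inr _ => inferInstanceAs (Fintype J'')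

/-- the pairs of indices -/
def piJ2 (J J' : Type) : J × J' ≃ (∀ r, J2 J J' r) where
  toFun p := fun r => match r with
    | Sum.inl _ => p.1
    | Sum.inr _ => p.2
  invFun I := (I (Sum.inl ()), I (Sum.inr ()))
  left_inv p := rfl
  right_inv I := by
    funext r
    rcases r with ⟨⟩ | ⟨⟩ <;> rfl

/-- the triples of indices -/
def piJ3 (J J' J'' : Type) : (J × J') × J'' ≃ (∀ r, J3 J J' J'' r) where
  toFun p := fun r => match r with
    | Sum.inl (Sum.inl _) => p.1.1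
    | Sum.inl (Sum.inr _) => p.1.2
    | Sum.inr _ => p.2
  invFun I := ((I (Sum.inl (Sum.inl ())), I (Sum.inl (Sum.inr ()))), I (Sum.inr ()))
  left_inv p := rfl
  right_inv I := by
    funext r
    rcases r with (⟨⟩ | ⟨⟩) | ⟨⟩ <;> rfl

theorem exists_VD (hS : S.RegD D) (hl : l ≤ S.K) (i : Fin n) : ∃ V1 V2, VD S D l i V1 V2 := by
  have hR := hS.toReg
  have t0 : tc 0 = 1 := rfl
  have t1 : tc 1 = 3 := by rw [tc, t0]; norm_num
  have t2 : tc 2 = 27 := by rw [tc, t1]; norm_num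
  have k0 := fm_sm (N := 2) hS hl i
  obtain ⟨q1, hq1, hd1⟩ := Sm.T_dr hS hl (hψu S l) le_rfl hl (by rw [t2]; norm_num) k0 ()
  obtain ⟨q2, hq2, hd2⟩ := Sm.T_dr hS hl (hψu S l) le_rfl hl (by rw [t2, t1]; norm_num) hq1 ()
  have c0 : Cl S l Unit KV fun f z x => f () x * Mm S l i z x :=
    k0.cl.mono (by rw [t2]; unfold KV; norm_num)
  have c1 : Cl S l (Unit ⊕ Unit) KV q1 := hq1.cl.mono (by rw [t2, t1]; unfold KV; norm_num)
  have c2 : Cl S l ((Unit ⊕ Unit) ⊕ Unit) KV q2 :=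
    hq2.cl.mono (by rw [t2, t1, t0]; unfold KV; norm_num)
  refine ⟨fun f g => S.T l (q1 (Sum.elim (fun _ => f) (fun _ => g))),
    fun f g g' => S.T l (q2 (Sum.elim (Sum.elim (fun _ => f) (fun _ => g)) (fun _ => g'))),
    ⟨?_, ?_, ?_, ?_, ?_, ?_, ?_, ?_, ?_, ?_⟩⟩
  · intro e he β g hD f
    exact hd1.pd e he β (fun _ => g) hD (fun _ => f) (fun _ => 1)
  · intro e he β g' hD f g
    exact hd2.pd e he β (fun _ => g') hD (Sum.elim (fun _ => f) (fun _ => g)) (fun _ => 1)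
  · exact fun f g => hR.eg_T hl (c1.nh _)
  · exact fun f g g' => hR.eg_T hl (c2.nh _)
  · exact fun f g => dep_T S l _
  · exact fun f g g' => dep_T S l _
  · intro f g c z
    show S.T l (q1 (Sum.elim (fun _ => f) (fun _ => fun x => g x - c))) z =
      S.T l (q1 (Sum.elim (fun _ => f) (fun _ => g))) z
    rw [c1.T_sub hR hl z (fun _ => f) g c]
    have h2 := hd1.inv (fun _ _ => c) c (fun _ => rfl) (fun _ => f) z (fun _ => 1)
    rw [h2, sub_zero]
  · intro J _ φ z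
    have h1 := c0.gen hR hl KV_pos.le (J := fun _ => J) (fun _ x j => φ j x) z
      (fun _ x x' => |∑ j, φ j x * φ j x'|) (fun _ _ _ => abs_nonneg _) (fun s s' => by simp)
    rw [← (Equiv.funUnique Unit J).symm.sum_comp] at h1
    simp only [Finset.univ_unique, Finset.sum_singleton, Equiv.funUnique_symm_apply,
      uniqueElim_const] at h1
    exact h1
  · intro J J' _ _ φ χ z G G' hG hG' hb
    have h1 := c1.gen hR hl KV_pos.le (J := J2 J J')
      (fun r x => match r with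
        | Sum.inl _ => fun j => φ j x
        | Sum.inr _ => fun j => χ j x) z
      (fun r => match r with
        | Sum.inl _ => G
        | Sum.inr _ => G') (fun r x x' => by
          rcases r with r | r
          · exact hG x x'
          · exact hG' x x') (fun s s' => by
        simp only [Fintype.prod_sum_type, Fintype.sum_sum_type, Finset.univ_unique,
          Finset.prod_singleton, Finset.sum_singleton]
        exact hb _ _ _ _)
    rw [← (piJ2 J J').sum_comp, Fintype.sum_prod_type] at h1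
    simp only [Fintype.sum_sum_type, Finset.univ_unique, Finset.sum_singleton] at h1
    refine le_trans (le_of_eq ?_) h1
    refine Finset.sum_congr rfl fun j _ => Finset.sum_congr rfl fun j' _ => ?_
    congr 3
    funext r
    rcases r with r | r <;> rfl
  · intro J J' J'' _ _ _ φ χ ω z G G' G'' hG hG' hG'' hb
    have h1 := c2.gen hR hl KV_pos.le (J := J3 J J' J'')
      (fun r x => match r with
        | Sum.inl (Sum.inl _) => fun j => φ j x
        | Sum.inl (Sum.inr _) => fun j => χ j x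
        | Sum.inr _ => fun j => ω j x) z
      (fun r => match r with
        | Sum.inl (Sum.inl _) => G
        | Sum.inl (Sum.inr _) => G'
        | Sum.inr _ => G'') (fun r x x' => by
          rcases r with (r | r) | r
          · exact hG x x'
          · exact hG' x x'
          · exact hG'' x x') (fun s s' => by
        simp only [Fintype.prod_sum_type, Fintype.sum_sum_type, Finset.univ_unique,
          Finset.prod_singleton, Finset.sum_singleton]
        exact hb _ _ _ _ _ _)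
    rw [← (piJ3 J J' J'').sum_comp, Fintype.sum_prod_type, Fintype.sum_prod_type] at h1
    simp only [Fintype.sum_sum_type, Finset.univ_unique, Finset.sum_singleton] at h1
    refine le_trans (le_of_eq ?_) h1
    refine Finset.sum_congr rfl fun j _ => Finset.sum_congr rfl fun j' _ =>
      Finset.sum_congr rfl fun j'' _ => ?_
    congr 3
    funext r
    rcases r with (r | r) | r <;> rfl

end spin

end Vale.Agent.P146.H877x
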