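import Vale.Agent.P146.H877x.Inf

/-!
# P146: the influence of the other rows and of the own row on `e^(VL/2) V_k^(i)` (helper877)
-/

open MeasureTheory ProbabilityTheory

namespace Vale.Agent.P146.H877x

open Vale.Agent.P157 Vale.Agent.P157.Lv Vale.Agent.P157.Lv.Sy
open Vale.Agent.P146.H425 Vale.Agent.P146.H946 Vale.Agent.P146.H985
open Vale.Agent.P146.H93 Vale.Agent.P146.H325 Vale.Agent.P146.H379.Row

set_option linter.unusedSectionVars false

variable {n K l : ℕ} {m b w : ℕ → ℝ}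

/-! ### Exchangeability -/

lemma dd_perm (hm : Em K m) (b w : ℕ → ℝ) (ρ : Equiv.Perm (Fin n)) (l : ℕ) (i : Fin n)
    (z : Cd n K → ℝ) :
    dd (skS n K m b w) l (ρ i) (gz (pC K ρ) (fun _ => 1) z) = dd (skS n K m b w) l i z :=
  T_sp_pC hm b w ρ l i z

lemma Vf_perm (hm : Em K m) (b w : ℕ → ℝ) (ρ : Equiv.Perm (Fin n)) (l : ℕ) (j k : Fin n)
    (z : Cd n K → ℝ) :
    Vf (skS n K m b w) l (ρ j) (fun x => sp x (ρ k)) (gz (pC K ρ) (fun _ => 1) z) =
      Vf (skS n K m b w) l j (fun x => sp x k) z := by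
  refine T_pC hm b w ρ l (fun z x => ?_) z
  unfold Mm
  simp only [sp_pX_symm, Equiv.symm_apply_apply, dd_perm hm]

lemma FV_perm (hm : Em K m) (b w : ℕ → ℝ) (ρ : Equiv.Perm (Fin n)) (l : ℕ) (j k : Fin n)
    (z : Cd n K → ℝ) :
    FV (skS n K m b w) l (ρ j) (ρ k) (gz (pC K ρ) (fun _ => 1) z) =
      FV (skS n K m b w) l j k z := by
  unfold FV
  rw [(sys_perm hm b w ρ).VL l z, Vf_perm hm]

/-- the total influence of the row `i` on the vectors of the site `j` -/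
noncomputable def If (S : Sy (Cd n K) (Fin n → ℤˣ)) (l : ℕ) (i j : Fin n) : ℝ :=
  ∑ k, ∫ z, (FV S l j k z - PA (rwl K i l) (FV S l j k) z) ^ 2 ∂(gI (Cd n K))

lemma If_nonneg (S : Sy (Cd n K) (Fin n → ℤˣ)) (l : ℕ) (i j : Fin n) : 0 ≤ If S l i j :=
  Finset.sum_nonneg fun _ _ => integral_nonneg fun _ => sq_nonneg _

lemma If_perm (hm : Em K m) (b w : ℕ → ℝ) (l : ℕ) (ρ : Equiv.Perm (Fin n)) (i j : Fin n) :
    If (skS n K m b w) l (ρ i) (ρ j) = If (skS n K m b w) l i j := by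
  unfold If
  rw [← Equiv.sum_comp ρ]
  refine Finset.sum_congr rfl fun k _ => ?_
  refine int_gz_one ρ fun z => ?_
  unfold PA
  rw [J_row_pC, FV_perm hm]
  simp only [FV_perm hm]

/-- **(Ib)**: the cross influence, for one pair of different sites. -/
theorem Ib (hm : Em K m) (b w : ℕ → ℝ) (hl : l ≤ K) {μ : ℝ} (hμ : 0 < μ) (ρ : ℝ) {i j : Fin n}
    (hij : i ≠ j) :
    ∑ k, ∫ z, (FV (skS n K m b w) l j k z -
        PA (rwl K i l) (FV (skS n K m b w) l j k) z) ^ 2 ∂(gI (Cd n K)) ≤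
      2 * n * ((n * SB b l) * (2 * KV ^ 2 * (2 / μ * (skS n K m b w).pairEx l
          (fun x x' => (Rs n x x' - ρ) ^ 2) + μ * (9 * (skS n K m b w).pairEx l
          (fun x x' => Rs n x x' ^ 4) + 8 * ρ ^ 4)) +
          8 * m l ^ 2 * (skS n K m b w).pairEx l (fun x x' => Rs n x x' ^ 2)) +
        SB w l * (2 * KV ^ 2 * (skS n K m b w).pairEx l
          (fun x x' => Rs n x x' ^ 2) + 8 * m l ^ 2 * (skS n K m b w).pairEx l (Rs n))) := by
  have hS : (skS n K m b w).Reg := (linS_sk hm b w).reg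
  have h1 := Ib_sum hm b w hl hμ ρ (n := n)
  set S := skS n K m b w with hSd
  have hlK : l ≤ S.K := hl
  have hn2 : 2 ≤ n := by
    have h2 := i.2
    have h3 := j.2
    by_contra h
    exact hij (Fin.ext (by omega))
  have hnR : (2 : ℝ) ≤ n := by exact_mod_cast hn2
  have h2 := exch2_split (Ψ := fun i j => If S l i j) (fun ρ i j => If_perm hm b w l ρ i j) hij
  have h3 : ∑ i, ∑ j, If S l i j = ∑ j, ∑ k, ∑ i, ∫ z, (FV S l j k z -
      PA (rwl K i l) (FV S l j k) z) ^ 2 ∂(gI (Cd n K)) := by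
    unfold If
    rw [Finset.sum_comm]
    refine Finset.sum_congr rfl fun j _ => ?_
    rw [Finset.sum_comm]
  have h4 : (n : ℝ) * ((n : ℝ) - 1) * If S l i j ≤ ∑ i, ∑ j, If S l i j := by
    rw [h2]
    have := mul_nonneg (by linarith : (0 : ℝ) ≤ n) (If_nonneg S l i i)
    linarith
  have h5 : (n : ℝ) ^ 2 / 2 * If S l i j ≤ (n : ℝ) * ((n : ℝ) - 1) * If S l i j := by
    refine mul_le_mul_of_nonneg_right ?_ (If_nonneg S l i j)
    nlinarith
  rw [h3] at h4
  have h6 := (h5.trans h4).trans h1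
  show If S l i j ≤ _
  have h7 : (0 : ℝ) < (n : ℝ) ^ 2 / 2 := by positivity
  refine le_of_mul_le_mul_left (h6.trans (le_of_eq ?_)) h7
  ring

/-! ### The own row -/

lemma Vf_even (hm : Em K m) (b w : ℕ → ℝ) (l : ℕ) {i k : Fin n} (hik : k ≠ i)
    (z : Cd n K → ℝ) :
    Vf (skS n K m b w) l i (fun x => sp x k) (gz (Equiv.refl _) (fE i) z) =
      Vf (skS n K m b w) l i (fun x => sp x k) z := by
  unfold Vf
  rw [(sys_flip hm b w i).T]
  congr 1
  funext z x
  unfold Mm dd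
  simp only [fX_symm, sp_fX_ne hik, sp_fX_self, T_sp_flip hm]
  congr 2
  refine Finset.sum_congr rfl fun j _ => ?_
  ring

/-- the derivative of an even function in a coordinate which is flipped is odd -/
lemma odd_of_even {ι : Type} [DecidableEq ι] {ε : ι → ℝ} {F F' : (ι → ℝ) → ℝ} {e : ι}
    (hε : ε e = -1) (hd : PD e F F') (ho : ∀ z, F (gz (Equiv.refl ι) ε z) = F z) (z : ι → ℝ) :
    F' (gz (Equiv.refl ι) ε z) = -F' z := by
  have h1 := PD.gz (π := Equiv.refl ι) (ε := ε) (e := e) hd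
  simp only [ho] at h1
  have a := h1 z (z e)
  have b := hd z (z e)
  rw [Function.update_eq_self] at a b
  have h2 := a.unique b
  simp only [hε] at h2
  linarith

/-! #### The three sums of squares -/

section sums

variable {S : Sy (Cd n K) (Fin n → ℤˣ)} {D : Cd n K → (Cd n K → ℝ) → (Fin n → ℤˣ) → ℝ} {i : Fin n}
  {V1 : ((Fin n → ℤˣ) → ℝ) → ((Fin n → ℤˣ) → ℝ) → (Cd n K → ℝ) → ℝ}
  {V2 : ((Fin n → ℤˣ) → ℝ) → ((Fin n → ℤˣ) → ℝ) → ((Fin n → ℤˣ) → ℝ) → (Cd n K → ℝ) → ℝ}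

lemma sum_two (i : Fin n) (y y' : Fin n → ℤˣ) :
    |∑ a, (sp y i * sp y a) * (sp y' i * sp y' a)| = n * |Rs n y y'| := by
  have e6 : ∑ a, (sp y i * sp y a) * (sp y' i * sp y' a) =
      (sp y i * sp y' i) * (n * Rs n y y') := by
    rw [← sum_sp, Finset.mul_sum]
    exact Finset.sum_congr rfl fun a _ => by ring
  rw [e6, abs_mul, abs_mul, abs_sp, abs_sp, one_mul, one_mul, abs_mul, Nat.abs_cast]

lemma sum_one (i : Fin n) (y y' : Fin n → ℤˣ) : |∑ _j : Unit, sp y i * sp y' i| = 1 := by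
  rw [Finset.univ_unique, Finset.sum_singleton, abs_mul, abs_sp, abs_sp, one_mul]

lemma s3_le (hS : S.Reg) (hl : l ≤ S.K) (hV : VD S D l i V1 V2) :
    ∑ k, ∑ a, ∑ c, S.Ex (fun z _ => V2 (fun x => sp x k) (fun x => sp x i * sp x a)
        (fun x => sp x i * sp x c) z ^ 2) ≤
      KV ^ 2 * ((n : ℝ) ^ 3 * S.pairEx l (fun x x' => |Rs n x x'| ^ 3)) := by
  have hN : ∀ k a c, Nh (X := Fin n → ℤˣ) fun z _ => V2 (fun x => sp x k)
      (fun x => sp x i * sp x a) (fun x => sp x i * sp x c) z ^ 2 := fun k a c =>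
    Nh.fst ((hV.eg2 _ _ _).pow 2)
  have e4 : ∑ k, ∑ a, ∑ c, S.Ex (fun z _ => V2 (fun x => sp x k)
      (fun x => sp x i * sp x a) (fun x => sp x i * sp x c) z ^ 2) = S.Ex (fun z _ =>
      ∑ k, ∑ a, ∑ c, V2 (fun x => sp x k) (fun x => sp x i * sp x a)
        (fun x => sp x i * sp x c) z ^ 2) := by
    rw [hS.Ex_sum _ fun k _ => Nh.sum _ fun a _ => Nh.sum _ fun c _ => hN k a c]
    refine Finset.sum_congr rfl fun k _ => ?_
    rw [hS.Ex_sum _ fun a _ => Nh.sum _ fun c _ => hN k a c]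
    refine Finset.sum_congr rfl fun a _ => ?_
    rw [hS.Ex_sum _ fun c _ => hN k a c]
  rw [e4, ← Ex_pp, ← Ex_const_mul, ← Ex_const_mul]
  refine hS.Ex_mono (Nh.sum _ fun k _ => Nh.sum _ fun a _ => Nh.sum _ fun c _ => hN k a c)
    (Nh.fst (((eg_pp hS hl _).const_mul _).const_mul _)) fun z _ => ?_
  have h5 := hV.b2 (fun k x => sp x k) (fun a x => sp x i * sp x a)
    (fun a x => sp x i * sp x a) z
    (fun x x' => (n : ℝ) ^ 3 * (1 / 3 * |Rs n x x'| ^ 3))
    (fun x x' => (n : ℝ) ^ 3 * (1 / 3 * |Rs n x x'| ^ 3))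
    (fun x x' => (n : ℝ) ^ 3 * (1 / 3 * |Rs n x x'| ^ 3))
    (fun x x' => by positivity) (fun x x' => by positivity) (fun x x' => by positivity)
    (fun x x' y y' u u' => by
      rw [sum_two, sum_two, sum_sp, abs_mul, Nat.abs_cast]
      have h6 : |Rs n x x'| * |Rs n y y'| * |Rs n u u'| ≤ 1 / 3 * |Rs n x x'| ^ 3 +
          1 / 3 * |Rs n y y'| ^ 3 + 1 / 3 * |Rs n u u'| ^ 3 := by
        have := prod_le_mean (κ := Fin 3) ![|Rs n x x'|, |Rs n y y'|, |Rs n u u'|]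
          (fun r => by fin_cases r <;> simp)
        simp only [Fin.prod_univ_three, Fin.sum_univ_three, Fintype.card_fin,
          Matrix.cons_val_zero, Matrix.cons_val_one, Matrix.cons_val] at this
        push_cast at this
        linarith
      have h7 := mul_le_mul_of_nonneg_left h6 (by positivity : (0 : ℝ) ≤ (n : ℝ) ^ 3)
      linarith)
  refine h5.trans (le_of_eq ?_)
  rw [pp_const_mul, pp_const_mul]
  ring

lemma s2_le (hS : S.Reg) (hl : l ≤ S.K) (hV : VD S D l i V1 V2) :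
    ∑ k, ∑ a, S.Ex (fun z _ => V2 (fun x => sp x k) (fun x => sp x i * sp x a)
        (fun x => sp x i) z ^ 2) ≤
      KV ^ 2 * ((n : ℝ) ^ 2 * S.pairEx l (fun x x' => Rs n x x' ^ 2)) := by
  have hN : ∀ k a, Nh (X := Fin n → ℤˣ) fun z _ => V2 (fun x => sp x k)
      (fun x => sp x i * sp x a) (fun x => sp x i) z ^ 2 := fun k a =>
    Nh.fst ((hV.eg2 _ _ _).pow 2)
  have e4 : ∑ k, ∑ a, S.Ex (fun z _ => V2 (fun x => sp x k)
      (fun x => sp x i * sp x a) (fun x => sp x i) z ^ 2) = S.Ex (fun z _ =>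
      ∑ k, ∑ a, V2 (fun x => sp x k) (fun x => sp x i * sp x a)
        (fun x => sp x i) z ^ 2) := by
    rw [hS.Ex_sum _ fun k _ => Nh.sum _ fun a _ => hN k a]
    refine Finset.sum_congr rfl fun k _ => ?_
    rw [hS.Ex_sum _ fun a _ => hN k a]
  rw [e4, ← Ex_pp, ← Ex_const_mul, ← Ex_const_mul]
  refine hS.Ex_mono (Nh.sum _ fun k _ => Nh.sum _ fun a _ => hN k a)
    (Nh.fst (((eg_pp hS hl _).const_mul _).const_mul _)) fun z _ => ?_
  have h5 := hV.b2 (J'' := Unit) (fun k x => sp x k) (fun a x => sp x i * sp x a)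
    (fun _ x => sp x i) z
    (fun x x' => (n : ℝ) ^ 2 * (1 / 2 * Rs n x x' ^ 2))
    (fun x x' => (n : ℝ) ^ 2 * (1 / 2 * Rs n x x' ^ 2))
    (fun x x' => 0)
    (fun x x' => by positivity) (fun x x' => by positivity) (fun x x' => le_rfl)
    (fun x x' y y' u u' => by
      rw [sum_one, sum_two, sum_sp, abs_mul, Nat.abs_cast]
      have h6 : |Rs n x x'| * |Rs n y y'| ≤ 1 / 2 * Rs n x x' ^ 2 + 1 / 2 * Rs n y y' ^ 2 := by
        rw [← sq_abs (Rs n x x'), ← sq_abs (Rs n y y')]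
        nlinarith [sq_nonneg (|Rs n x x'| - |Rs n y y'|)]
      have h7 := mul_le_mul_of_nonneg_left h6 (by positivity : (0 : ℝ) ≤ (n : ℝ) ^ 2)
      linarith)
  simp only [Finset.univ_unique, Finset.sum_singleton] at h5
  refine h5.trans (le_of_eq ?_)
  rw [pp_const_mul, pp_const_mul, pp_const hS hl]
  ring

lemma s1_le (hS : S.Reg) (hl : l ≤ S.K) (hV : VD S D l i V1 V2) :
    ∑ k, S.Ex (fun z _ => V1 (fun x => sp x k) (fun x => sp x i) z ^ 2) ≤
      KV ^ 2 * (n * S.pairEx l (fun x x' => |Rs n x x'|)) := by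
  have hN : ∀ k, Nh (X := Fin n → ℤˣ) fun z _ => V1 (fun x => sp x k)
      (fun x => sp x i) z ^ 2 := fun k => Nh.fst ((hV.eg1 _ _).pow 2)
  rw [← hS.Ex_sum _ fun k _ => hN k, ← Ex_pp, ← Ex_const_mul, ← Ex_const_mul]
  refine hS.Ex_mono (Nh.sum _ fun k _ => hN k)
    (Nh.fst (((eg_pp hS hl _).const_mul _).const_mul _)) fun z _ => ?_
  have h5 := hV.b1 (J' := Unit) (fun k x => sp x k) (fun _ x => sp x i) z
    (fun x x' => (n : ℝ) * |Rs n x x'|) (fun x x' => 0)
    (fun x x' => by positivity) (fun x x' => le_rfl)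
    (fun x x' y y' => by
      rw [sum_one, sum_sp, abs_mul, Nat.abs_cast]
      linarith)
  simp only [Finset.univ_unique, Finset.sum_singleton] at h5
  refine h5.trans (le_of_eq ?_)
  rw [pp_const_mul, pp_const hS hl, add_zero]

end sums

/-- the bound of the gradient of the density in a row -/
lemma VLD_row (hm : Em K m) (b w : ℕ → ℝ) (hl : l ≤ K)
    (hL : 4 * m l ^ 2 * (n * SB b l + SB w l) ≤ 1 / 4) (i : Fin n) (z : Cd n K → ℝ) :
    ∑ e ∈ rwl K i l, VLD (skS n K m b w) (fun e _ x => aSK n K b w x e) l e z ^ 2 ≤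
      (1 / 2 : ℝ) ^ 2 := by
  refine (sum_VLD_le hm b w i hl z).trans ?_
  have e1 : ∑ k ∈ Finset.range l, (n * b (k + 1) ^ 2 + w (k + 1) ^ 2) =
      n * SB b l + SB w l := by
    unfold SB
    rw [Finset.sum_add_distrib, Finset.mul_sum]
  rw [e1]
  linarith

/-- summation of the bounds of one vector -/
lemma collect {i : Fin n} {A E1 : Fin n → ℝ} {E2 : Fin n → Fin n → ℝ}
    {E3 : Fin n → Fin n → Fin n → ℝ} {B W P1 P2 P3 : ℝ} (hB : 0 ≤ B) (hW : 0 ≤ W)
    (h1 : ∀ k, 0 ≤ E1 k) (h2 : ∀ k a, 0 ≤ E2 k a) (h3 : ∀ k a c, 0 ≤ E3 k a c)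
    (hA : ∀ k ∈ Finset.univ.erase i, A k ≤ B * ∑ a, (3 * (B * ∑ c, E3 k a c + W * E2 k a)) +
      W * E1 k)
    (s1 : ∑ k, E1 k ≤ KV ^ 2 * (n * P1)) (s2 : ∑ k, ∑ a, E2 k a ≤ KV ^ 2 * ((n : ℝ) ^ 2 * P2))
    (s3 : ∑ k, ∑ a, ∑ c, E3 k a c ≤ KV ^ 2 * ((n : ℝ) ^ 3 * P3)) :
    ∑ k ∈ Finset.univ.erase i, A k ≤
      n * (KV ^ 2 * (3 * ((n * B) * ((n * B) * P3 + W * P2)) + W * P1)) := by
  refine (Finset.sum_le_sum hA).trans ?_
  refine (Finset.sum_le_sum_of_subset_of_nonneg (Finset.erase_subset i Finset.univ)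
    fun k _ _ => ?_).trans ?_
  · have g1 : 0 ≤ ∑ a, (3 * (B * ∑ c, E3 k a c + W * E2 k a)) := by
      refine Finset.sum_nonneg fun a _ => ?_
      have g2 : 0 ≤ ∑ c, E3 k a c := Finset.sum_nonneg fun c _ => h3 _ _ _
      have g3 := h2 k a
      positivity
    have g4 := h1 k
    positivity
  · rw [Finset.sum_add_distrib, ← Finset.mul_sum, ← Finset.mul_sum]
    have e8 : ∑ k, ∑ a, (3 * (B * ∑ c, E3 k a c + W * E2 k a)) =
        3 * (B * (∑ k, ∑ a, ∑ c, E3 k a c) + W * ∑ k, ∑ a, E2 k a) := by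
      simp only [Finset.mul_sum, Finset.sum_add_distrib, mul_add]
    rw [e8]
    have t3 := mul_le_mul_of_nonneg_left s3 hB
    have t2 := mul_le_mul_of_nonneg_left s2 hW
    have t1 := mul_le_mul_of_nonneg_left s1 hW
    have t4 := mul_le_mul_of_nonneg_left (add_le_add t3 t2) (by positivity : 0 ≤ B * 3)
    calc _ ≤ B * 3 * (B * (KV ^ 2 * ((n : ℝ) ^ 3 * P3)) +
          W * (KV ^ 2 * ((n : ℝ) ^ 2 * P2))) + W * (KV ^ 2 * (n * P1)) := by
          linarith
      _ = _ := by ring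

/-- the first derivatives of the vectors in their own row -/
lemma own_A (hm : Em K m) (b w : ℕ → ℝ) (hl : l ≤ K)
    (hL : 4 * m l ^ 2 * (n * SB b l + SB w l) ≤ 1 / 4) (i : Fin n)
    {V1 : ((Fin n → ℤˣ) → ℝ) → ((Fin n → ℤˣ) → ℝ) → (Cd n K → ℝ) → ℝ}
    {V2 : ((Fin n → ℤˣ) → ℝ) → ((Fin n → ℤˣ) → ℝ) → ((Fin n → ℤˣ) → ℝ) → (Cd n K → ℝ) → ℝ}
    (hV : VD (skS n K m b w) (fun e _ x => aSK n K b w x e) l i V1 V2) :
    ∑ k ∈ Finset.univ.erase i, ∑ e ∈ rwl K i l, am b w e.1 (e.2 + 1) ^ 2 *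
      (skS n K m b w).Ex (fun z _ => V1 (fun x => sp x k) (st e.1) z ^ 2) ≤
      n * (KV ^ 2 * (3 * ((n * SB b l) * ((n * SB b l) *
        (skS n K m b w).pairEx l (fun x x' => |Rs n x x'| ^ 3) + SB w l *
        (skS n K m b w).pairEx l (fun x x' => Rs n x x' ^ 2))) +
        SB w l * (skS n K m b w).pairEx l (fun x x' => |Rs n x x'|))) := by
  classical
  have hS : (skS n K m b w).Reg := (linS_sk hm b w).reg
  have hSD := regD_sk (n := n) hm b w
  have hLL := VLD_row hm b w hl hL i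
  have hlK : l ≤ (skS n K m b w).K := hl
  have s3 := s3_le hS hlK hV
  have s2 := s2_le hS hlK hV
  have s1 := s1_le hS hlK hV
  have hAl : ∀ e ∈ rwl K i l, (skS n K m b w).lev e ≤ l := fun e he => (mem_rwl.1 he).1
  have hEv : ∀ k, k ≠ i → ∀ z, Vf (skS n K m b w) l i (fun x => sp x k)
      (gz (Equiv.refl _) (fE i) z) = Vf (skS n K m b w) l i (fun x => sp x k) z :=
    fun k hk z => Vf_even hm b w l hk z
  have hmv := mv_flip (n := n) (K := K) m b w i l
  have hsf := sys_flip (n := n) hm b w i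
  set S := skS n K m b w with hSd
  have hB0 := SB_nonneg b l
  have hW0 := SB_nonneg w l
  set P3 := S.pairEx l (fun x x' => |Rs n x x'| ^ 3) with hP3
  set P2 := S.pairEx l (fun x x' => Rs n x x' ^ 2) with hP2
  set Pa := S.pairEx l (fun x x' => |Rs n x x'|) with hPa
  set Y : Fin n → ((Fin n → ℤˣ) → ℝ) → ℝ := fun k f =>
    if (∀ z, V1 (fun x => sp x k) f (gz (Equiv.refl _) (fE i) z) =
      -V1 (fun x => sp x k) f z) then S.Ex (fun z _ => V1 (fun x => sp x k) f z ^ 2) else 0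
    with hYd
  have hEx0 : ∀ k f, 0 ≤ S.Ex (fun z _ => V1 (fun x => sp x k) f z ^ 2) := fun k f =>
    Ex_nn hS (Nh.fst (X := Fin n → ℤˣ) ((hV.eg1 (fun x => sp x k) f).pow 2))
      fun z _ => sq_nonneg _
  have hEx2 : ∀ k f f', 0 ≤ S.Ex (fun z _ => V2 (fun x => sp x k) f f' z ^ 2) :=
    fun k f f' => Ex_nn hS (Nh.fst (X := Fin n → ℤˣ) ((hV.eg2 (fun x => sp x k) f f').pow 2))
      fun z _ => sq_nonneg _
  have hY0 : ∀ k f, 0 ≤ Y k f := fun k f => by
    simp only [hYd]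
    split_ifs
    · exact hEx0 k f
    · exact le_rfl
  -- oddness
  have h2 : ∀ k, k ≠ i → ∀ e ∈ rwl K i l, am b w e.1 (e.2 + 1) ^ 2 *
      S.Ex (fun z _ => V1 (fun x => sp x k) (st e.1) z ^ 2) ≤
      am b w e.1 (e.2 + 1) ^ 2 * Y k (st e.1) := by
    intro k hk e he
    by_cases h0 : am b w e.1 (e.2 + 1) = 0
    · rw [h0]; simp
    · refine mul_le_mul_of_nonneg_left (le_of_eq ?_) (sq_nonneg _)
      have hpd := hV.pd0 e (hAl e he) _ (st e.1) (fun z x => rfl) fun x => sp x k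
      have hε : fE i e = -1 := by
        unfold fE
        rw [if_pos (mem_rwl.1 he).2]
      have h3 := odd_of_even hε hpd (hEv k hk)
      have h4 : ∀ z, V1 (fun x => sp x k) (st e.1) (gz (Equiv.refl _) (fE i) z) =
          -V1 (fun x => sp x k) (st e.1) z := by
        intro z
        have h5 := h3 z
        have h6 : am b w e.1 (e.2 + 1) * (V1 (fun x => sp x k) (st e.1)
            (gz (Equiv.refl _) (fE i) z) + V1 (fun x => sp x k) (st e.1) z) = 0 := by
          linarith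
        rcases mul_eq_zero.1 h6 with h7 | h7
        · exact absurd h7 h0
        · linarith
      simp only [hYd]
      rw [if_pos h4]
  -- the second Poincaré inequality
  have h3 : ∀ k f, Y k f ≤ 3 * (SB b l * ∑ a, S.Ex (fun z _ =>
      V2 (fun x => sp x k) f (fun x => sp x i * sp x a) z ^ 2) +
      SB w l * S.Ex (fun z _ => V2 (fun x => sp x k) f (fun x => sp x i) z ^ 2)) := by
    intro k f
    simp only [hYd]
    split_ifs with ho
    · have h4 := hmv.poincare_Ex' hSD hsf hAl hlK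
        (hV.eg1 (fun x => sp x k) f) (hV.dep1 (fun x => sp x k) f)
        (f' := fun e z => am b w e.1 (e.2 + 1) * V2 (fun x => sp x k) f (st e.1) z)
        (fun e he => hV.pd1 e (hAl e he) _ (st e.1) (fun z x => rfl) _ _)
        (fun e he => (hV.eg2 _ _ _).const_mul _) ho (L := 1 / 2) hLL (by norm_num) le_rfl
      refine h4.trans ?_
      have e3 : (1 + 4 * (1 / 2) : ℝ) = 3 := by norm_num
      rw [e3]
      refine mul_le_mul_of_nonneg_left ?_ (by norm_num)
      rw [hS.Ex_sum _ fun e _ => Nh.fst (((hV.eg2 (fun x => sp x k) f (st e.1)).const_mul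
        (am b w e.1 (e.2 + 1))).pow 2)]
      refine le_trans (le_of_eq ?_) (row_sum_le (Y := fun f' => S.Ex (fun z _ =>
        V2 (fun x => sp x k) f f' z ^ 2)) (fun f' => hEx2 k f f') b w i hl)
      refine Finset.sum_congr rfl fun e _ => ?_
      rw [← Ex_const_mul]
      congr 1
      funext z _
      rw [mul_pow]
    · have h4 : 0 ≤ ∑ a, S.Ex (fun z _ =>
          V2 (fun x => sp x k) f (fun x => sp x i * sp x a) z ^ 2) :=
        Finset.sum_nonneg fun a _ => hEx2 _ _ _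
      have h5 := hEx2 k f (fun x => sp x i)
      positivity
  have h4 : ∀ k, Y k (fun x => sp x i) ≤ S.Ex (fun z _ =>
      V1 (fun x => sp x k) (fun x => sp x i) z ^ 2) := fun k => by
    simp only [hYd]
    split_ifs
    · exact le_rfl
    · exact hEx0 _ _
  -- collect
  refine collect hB0 hW0 (fun k => hEx0 k (fun x => sp x i))
    (fun k a => hEx2 k (fun x => sp x i * sp x a) (fun x => sp x i))
    (fun k a c => hEx2 k (fun x => sp x i * sp x a) (fun x => sp x i * sp x c)) ?_ s1 s2 s3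
  intro k hk
  refine (Finset.sum_le_sum fun e he => h2 k (Finset.ne_of_mem_erase hk) e he).trans ?_
  refine (row_sum_le (hY0 k) b w i hl).trans (add_le_add ?_ ?_)
  · exact mul_le_mul_of_nonneg_left (Finset.sum_le_sum fun a _ => h3 k _) hB0
  · exact mul_le_mul_of_nonneg_left (h4 k) hW0

/-- products of the means of the overlaps -/
lemma Ex_q_mul {S : Sy (Cd n K) (Fin n → ℤˣ)} (hS : S.Reg) (hl : l ≤ S.K) {j : ℕ} (hj : j ≤ l) :
    S.Ex (fun z _ => pp S l z (fun x x' => |Rs n x x'|) * pp S j z (fun x x' => |Rs n x x'|)) ≤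
      S.pairEx l (fun x x' => Rs n x x' ^ 2) := by
  have hjK : j ≤ S.K := by omega
  have n1 : Nh (X := Fin n → ℤˣ) fun z _ => 1 / 2 * pp S l z fun x x' => Rs n x x' ^ 2 :=
    Nh.const_mul _ (Nh.fst (eg_pp hS hl _))
  have n2 : Nh (X := Fin n → ℤˣ) fun z _ => 1 / 2 * pp S j z fun x x' => Rs n x x' ^ 2 :=
    Nh.const_mul _ (Nh.fst (eg_pp hS hjK _))
  have h4 : S.Ex (fun z _ => pp S l z (fun x x' => |Rs n x x'|) *
      pp S j z (fun x x' => |Rs n x x'|)) ≤ S.Ex (fun z _ =>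
      1 / 2 * pp S l z (fun x x' => Rs n x x' ^ 2) +
      1 / 2 * pp S j z (fun x x' => Rs n x x' ^ 2)) := by
    refine hS.Ex_mono (Nh.fst ((eg_pp hS hl _).mul (eg_pp hS hjK _))) (Nh.add n1 n2)
      fun z _ => ?_
    have h5 := sq_pp_le hS hl z fun x x' => |Rs n x x'|
    have h6 := sq_pp_le hS hjK z fun x x' => |Rs n x x'|
    simp only [sq_abs] at h5 h6
    have h7 : ∀ p q : ℝ, p * q ≤ 1 / 2 * p ^ 2 + 1 / 2 * q ^ 2 := fun p q => by
      nlinarith [sq_nonneg (p - q)]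
    have h8 := h7 (pp S l z fun x x' => |Rs n x x'|) (pp S j z fun x x' => |Rs n x x'|)
    linarith
  rw [hS.Ex_add n1 n2, Ex_const_mul, Ex_const_mul, Ex_pp, Ex_pp] at h4
  have h5 := pairEx_sq_mono (n := n) hS hj hl
  linarith

/-- the pointwise bound of the gradient of the density times the vectors -/
lemma own_B_pt (hm : Em K m) (b w : ℕ → ℝ) (hl : l ≤ K) (i : Fin n)
    {V1 : ((Fin n → ℤˣ) → ℝ) → ((Fin n → ℤˣ) → ℝ) → (Cd n K → ℝ) → ℝ}
    {V2 : ((Fin n → ℤˣ) → ℝ) → ((Fin n → ℤˣ) → ℝ) → ((Fin n → ℤˣ) → ℝ) → (Cd n K → ℝ) → ℝ}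
    (hV : VD (skS n K m b w) (fun e _ x => aSK n K b w x e) l i V1 V2) (z : Cd n K → ℝ) :
    ∑ k ∈ Finset.univ.erase i, ∑ e ∈ rwl K i l,
        VLD (skS n K m b w) (fun e _ x => aSK n K b w x e) l e z ^ 2 *
          Vf (skS n K m b w) l i (fun x => sp x k) z ^ 2 ≤
      KV ^ 2 * (n * pp (skS n K m b w) l z fun x x' => |Rs n x x'|) *
        (SB b l * (2 * m l * (n * (m l * (pp (skS n K m b w) l z fun x x' => |Rs n x x'|) +
          ∑ j ∈ Finset.Ico 0 l, (skS n K m b w).p j *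
            pp (skS n K m b w) j z fun x x' => |Rs n x x'|))) + SB w l * (4 * m l ^ 2)) := by
  have hS : (skS n K m b w).Reg := (linS_sk hm b w).reg
  have hVsq := VLD_sq_le (n := n) hm b w hl
  have hlK : l ≤ (skS n K m b w).K := hl
  set S := skS n K m b w with hSd
  have hSm : S.m l = m l := rfl
  have hml : 0 ≤ m l := m_nonneg hS (l := l) (by omega)
  have hn0 : (0 : ℝ) ≤ n := Nat.cast_nonneg n
  have hB0 := SB_nonneg b l
  have hW0 := SB_nonneg w l
  have hj' : ∀ j ∈ Finset.Ico 0 l, j ≤ S.K := fun j hj => by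
    rw [Finset.mem_Ico] at hj; omega
  have e2 : ∑ k ∈ Finset.univ.erase i, ∑ e ∈ rwl K i l,
      VLD S (fun e _ x => aSK n K b w x e) l e z ^ 2 * Vf S l i (fun x => sp x k) z ^ 2 =
      (∑ k ∈ Finset.univ.erase i, Vf S l i (fun x => sp x k) z ^ 2) *
      ∑ e ∈ rwl K i l, VLD S (fun e _ x => aSK n K b w x e) l e z ^ 2 := by
    rw [Finset.sum_mul]
    refine Finset.sum_congr rfl fun k _ => ?_
    rw [Finset.mul_sum]
    exact Finset.sum_congr rfl fun e _ => by ring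
  rw [e2]
  refine mul_le_mul ?_ ?_ (Finset.sum_nonneg fun e _ => sq_nonneg _) (by
    have := pp_nonneg hS hlK z (ψ := fun x x' => |Rs n x x'|) fun _ _ => abs_nonneg _
    positivity)
  · refine (Finset.sum_le_sum_of_subset_of_nonneg (Finset.erase_subset i Finset.univ)
      fun k _ _ => sq_nonneg _).trans ?_
    refine (hV.b0 (fun k x => sp x k) z).trans (mul_le_mul_of_nonneg_left ?_ (sq_nonneg _))
    rw [← pp_const_mul]
    refine pp_mono hS hlK z fun x x' => ?_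
    rw [sum_sp, abs_mul, Nat.abs_cast]
  · refine (Finset.sum_le_sum fun e _ => hVsq e z).trans ?_
    refine (row_sum_le (fun f => YV_nonneg hS hlK f z) b w i hl).trans (add_le_add ?_ ?_)
    · refine mul_le_mul_of_nonneg_left ?_ hB0
      unfold YV
      rw [hSm, ← Finset.mul_sum, Finset.sum_add_distrib, ← Finset.mul_sum,
        Finset.sum_comm]
      simp_rw [← Finset.mul_sum]
      refine mul_le_mul_of_nonneg_left ?_ (by positivity)
      rw [mul_add]
      refine add_le_add ?_ ?_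
      · have h3 := mul_le_mul_of_nonneg_left (sum_sq_T2' hS hlK i z) hml
        refine h3.trans (le_of_eq ?_)
        ring
      · rw [Finset.mul_sum]
        refine Finset.sum_le_sum fun j hj => ?_
        have hp := H877x.p_nonneg hS (hj' j hj)
        have h3 := mul_le_mul_of_nonneg_left (sum_sq_T2' hS (hj' j hj) i z) hp
        refine h3.trans (le_of_eq ?_)
        ring
    · refine mul_le_mul_of_nonneg_left ?_ hW0
      unfold YV
      rw [hSm]
      have h3 : ∀ j ≤ S.K, S.T j (fun _ x => sp x i) z ^ 2 ≤ 1 := by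
        intro j hj
        rw [← sq_abs]
        exact pow_le_one₀ (abs_nonneg _) (hS.abs_T_le hj (Nh.snd fun x => sp x i)
          (fun _ x => (abs_sp x i).le) z)
      have h4 : ∑ j ∈ Finset.Ico 0 l, S.p j * S.T j (fun _ x => sp x i) z ^ 2 ≤ m l := by
        rw [← hSm, ← sum_p_bot hS l]
        refine Finset.sum_le_sum fun j hj => ?_
        have hp := H877x.p_nonneg hS (hj' j hj)
        exact mul_le_of_le_one_right hp (h3 j (hj' j hj))
      have h5 := mul_le_mul_of_nonneg_left (h3 l hlK) hml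
      calc 2 * m l * (m l * S.T l (fun _ x => sp x i) z ^ 2 + _) ≤
            2 * m l * (m l * 1 + m l) :=
            mul_le_mul_of_nonneg_left (add_le_add h5 h4) (by positivity)
        _ = _ := by ring

/-- the gradient of the density times the vectors -/
lemma own_B (hm : Em K m) (b w : ℕ → ℝ) (hl : l ≤ K) (i : Fin n)
    {V1 : ((Fin n → ℤˣ) → ℝ) → ((Fin n → ℤˣ) → ℝ) → (Cd n K → ℝ) → ℝ}
    {V2 : ((Fin n → ℤˣ) → ℝ) → ((Fin n → ℤˣ) → ℝ) → ((Fin n → ℤˣ) → ℝ) → (Cd n K → ℝ) → ℝ}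
    (hV : VD (skS n K m b w) (fun e _ x => aSK n K b w x e) l i V1 V2) :
    ∑ k ∈ Finset.univ.erase i, ∑ e ∈ rwl K i l, (skS n K m b w).Ex (fun z _ =>
        VLD (skS n K m b w) (fun e _ x => aSK n K b w x e) l e z ^ 2 *
          Vf (skS n K m b w) l i (fun x => sp x k) z ^ 2) ≤
      n * (KV ^ 2 * (4 * m l ^ 2 * ((n * SB b l) *
        (skS n K m b w).pairEx l (fun x x' => Rs n x x' ^ 2) +
        SB w l * (skS n K m b w).pairEx l (fun x x' => |Rs n x x'|)))) := by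
  have hS : (skS n K m b w).Reg := (linS_sk hm b w).reg
  have hSD := regD_sk (n := n) hm b w
  have hlK : l ≤ (skS n K m b w).K := hl
  have h2 := own_B_pt hm b w hl i hV
  set S := skS n K m b w with hSd
  have hSm : S.m l = m l := rfl
  have hml : 0 ≤ m l := m_nonneg hS (l := l) (by omega)
  have hn0 : (0 : ℝ) ≤ n := Nat.cast_nonneg n
  have hB0 := SB_nonneg b l
  have hW0 := SB_nonneg w l
  set P2 := S.pairEx l (fun x x' => Rs n x x' ^ 2) with hP2
  set Pa := S.pairEx l (fun x x' => |Rs n x x'|) with hPa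
  have hN : ∀ k e, Nh (X := Fin n → ℤˣ) fun z _ =>
      VLD S (fun e _ x => aSK n K b w x e) l e z ^ 2 * Vf S l i (fun x => sp x k) z ^ 2 :=
    fun k e =>
    Nh.fst (((VLD_eg hSD hlK e).pow 2).mul ((eg_Vf hS hlK i fun x => sp x k).pow 2))
  have e1 : ∑ k ∈ Finset.univ.erase i, ∑ e ∈ rwl K i l, S.Ex (fun z _ =>
      VLD S (fun e _ x => aSK n K b w x e) l e z ^ 2 * Vf S l i (fun x => sp x k) z ^ 2) =
      S.Ex (fun z _ => ∑ k ∈ Finset.univ.erase i, ∑ e ∈ rwl K i l,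
        VLD S (fun e _ x => aSK n K b w x e) l e z ^ 2 *
          Vf S l i (fun x => sp x k) z ^ 2) := by
    rw [hS.Ex_sum _ fun k _ => Nh.sum _ fun e _ => hN k e]
    refine Finset.sum_congr rfl fun k _ => ?_
    rw [hS.Ex_sum _ fun e _ => hN k e]
  rw [e1]
  set q : ℕ → (Cd n K → ℝ) → ℝ := fun j z => pp S j z fun x x' => |Rs n x x'| with hq
  have hqe : ∀ j ≤ S.K, EG (q j) := fun j hj => eg_pp hS hj _
  have hj' : ∀ j ∈ Finset.Ico 0 l, j ≤ S.K := fun j hj => by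
    rw [Finset.mem_Ico] at hj; omega
  have h3 : ∀ j ≤ l, S.Ex (fun z _ => q l z * q j z) ≤ P2 := fun j hj => Ex_q_mul hS hlK hj
  have nll : Nh (X := Fin n → ℤˣ) fun z _ => q l z * q l z :=
    Nh.fst ((hqe l hlK).mul (hqe l hlK))
  have nlj : ∀ j ∈ Finset.Ico 0 l, Nh (X := Fin n → ℤˣ) fun z _ => S.p j * (q l z * q j z) :=
    fun j hj => Nh.const_mul _ (Nh.fst ((hqe l hlK).mul (hqe j (hj' j hj))))
  have nl : Nh (X := Fin n → ℤˣ) fun z _ => q l z := Nh.fst (hqe l hlK)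
  have e3 : ∀ z, KV ^ 2 * (n * q l z) * (SB b l * (2 * m l * (n * (m l * q l z +
        ∑ j ∈ Finset.Ico 0 l, S.p j * q j z))) + SB w l * (4 * m l ^ 2)) =
      KV ^ 2 * n * (SB b l * (2 * m l) * n) * (m l * (q l z * q l z) +
        ∑ j ∈ Finset.Ico 0 l, S.p j * (q l z * q j z)) +
      KV ^ 2 * n * (SB w l * (4 * m l ^ 2)) * q l z := by
    intro z
    have e4 : ∑ j ∈ Finset.Ico 0 l, S.p j * (q l z * q j z) =
        q l z * ∑ j ∈ Finset.Ico 0 l, S.p j * q j z := by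
      rw [Finset.mul_sum]
      exact Finset.sum_congr rfl fun j _ => by ring
    rw [e4]
    ring
  have h4 : S.Ex (fun z _ => ∑ k ∈ Finset.univ.erase i, ∑ e ∈ rwl K i l,
      VLD S (fun e _ x => aSK n K b w x e) l e z ^ 2 * Vf S l i (fun x => sp x k) z ^ 2) ≤
      S.Ex (fun z _ =>
      KV ^ 2 * n * (SB b l * (2 * m l) * n) * (m l * (q l z * q l z) +
        ∑ j ∈ Finset.Ico 0 l, S.p j * (q l z * q j z)) +
      KV ^ 2 * n * (SB w l * (4 * m l ^ 2)) * q l z) := by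
    refine hS.Ex_mono (Nh.sum _ fun k _ => Nh.sum _ fun e _ => hN k e)
      (Nh.add (Nh.const_mul _ (Nh.add (Nh.const_mul _ nll) (Nh.sum _ nlj)))
        (Nh.const_mul _ nl)) fun z _ => ?_
    rw [← e3]
    exact h2 z
  refine h4.trans ?_
  rw [hS.Ex_add (Nh.const_mul _ (Nh.add (Nh.const_mul _ nll) (Nh.sum _ nlj)))
    (Nh.const_mul _ nl), Ex_const_mul, Ex_const_mul, hS.Ex_add (Nh.const_mul _ nll)
    (Nh.sum _ nlj), Ex_const_mul, hS.Ex_sum _ nlj]
  simp_rw [Ex_const_mul]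
  have e5 : S.Ex (fun z _ => q l z) = Pa := rfl
  rw [e5]
  have h5 : ∑ j ∈ Finset.Ico 0 l, S.p j * S.Ex (fun z _ => q l z * q j z) ≤ m l * P2 := by
    rw [← hSm, ← sum_p_bot hS l, Finset.sum_mul]
    refine Finset.sum_le_sum fun j hj => ?_
    have hp := H877x.p_nonneg hS (hj' j hj)
    rw [Finset.mem_Ico] at hj
    exact mul_le_mul_of_nonneg_left (h3 j (by omega)) hp
  have h6 := mul_le_mul_of_nonneg_left (h3 l le_rfl) hml
  have h7 := mul_le_mul_of_nonneg_left (add_le_add h6 h5)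
    (by positivity : 0 ≤ KV ^ 2 * n * (SB b l * (2 * m l) * n))
  calc _ ≤ KV ^ 2 * n * (SB b l * (2 * m l) * n) * (m l * P2 + m l * P2) +
        KV ^ 2 * n * (SB w l * (4 * m l ^ 2)) * Pa := by linarith
    _ = _ := by ring

/-- **(VVb)**: the influence of the row `i` on its own vectors. -/
theorem VVb (hm : Em K m) (b w : ℕ → ℝ) (hl : l ≤ K)
    (hL : 4 * m l ^ 2 * (n * SB b l + SB w l) ≤ 1 / 4) (i : Fin n) :
    ∑ k ∈ Finset.univ.erase i, ∫ z, (FV (skS n K m b w) l i k z -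
        PA (rwl K i l) (FV (skS n K m b w) l i k) z) ^ 2 ∂(gI (Cd n K)) ≤
      n * (KV ^ 2 * (6 * ((n * SB b l) * ((n * SB b l) *
          (skS n K m b w).pairEx l (fun x x' => |Rs n x x'| ^ 3) + SB w l *
          (skS n K m b w).pairEx l (fun x x' => Rs n x x' ^ 2))) +
        2 * SB w l * (skS n K m b w).pairEx l (fun x x' => |Rs n x x'|) +
        2 * m l ^ 2 * ((n * SB b l) * (skS n K m b w).pairEx l (fun x x' => Rs n x x' ^ 2) +
          SB w l * (skS n K m b w).pairEx l (fun x x' => |Rs n x x'|)))) := by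
  have hS : (skS n K m b w).Reg := (linS_sk hm b w).reg
  have hSD := regD_sk (n := n) hm b w
  have hlK : l ≤ (skS n K m b w).K := hl
  obtain ⟨V1, V2, hV⟩ := exists_VD hSD hlK i
  have hA := own_A hm b w hl hL i hV
  have hB := own_B hm b w hl i hV
  set S := skS n K m b w with hSd
  have hAl : ∀ e ∈ rwl K i l, S.lev e ≤ l := fun e he => (mem_rwl.1 he).1
  have h1 : ∀ k, ∫ z, (FV S l i k z - PA (rwl K i l) (FV S l i k) z) ^ 2 ∂(gI (Cd n K)) ≤
      2 * (∑ e ∈ rwl K i l, am b w e.1 (e.2 + 1) ^ 2 *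
        S.Ex (fun z _ => V1 (fun x => sp x k) (st e.1) z ^ 2)) +
      1 / 2 * ∑ e ∈ rwl K i l, S.Ex (fun z _ => VLD S (fun e _ x => aSK n K b w x e) l e z ^ 2 *
        Vf S l i (fun x => sp x k) z ^ 2) := by
    intro k
    refine (infl hSD hlK hAl (eg_Vf hS hlK i fun x => sp x k) (dep_Vf S l i _)
      (f' := fun e z => am b w e.1 (e.2 + 1) * V1 (fun x => sp x k) (st e.1) z)
      (fun e he => hV.pd0 e (hAl e he) _ (st e.1) (fun z x => rfl) _)
      (fun e he => (hV.eg1 _ _).const_mul _)).trans (le_of_eq ?_)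
    rw [Finset.sum_add_distrib, Finset.mul_sum, Finset.mul_sum]
    congr 1
    refine Finset.sum_congr rfl fun e _ => ?_
    have e0 : S.Ex (fun z _ => (am b w e.1 (e.2 + 1) *
        V1 (fun x => sp x k) (st e.1) z) ^ 2) = am b w e.1 (e.2 + 1) ^ 2 *
        S.Ex (fun z _ => V1 (fun x => sp x k) (st e.1) z ^ 2) := by
      rw [← Ex_const_mul]
      congr 1
      funext z _
      rw [mul_pow]
    rw [e0]
  refine (Finset.sum_le_sum fun k _ => h1 k).trans ?_
  rw [Finset.sum_add_distrib, ← Finset.mul_sum, ← Finset.mul_sum]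
  have t1 := mul_le_mul_of_nonneg_left hA (by norm_num : (0 : ℝ) ≤ 2)
  have t2 := mul_le_mul_of_nonneg_left hB (by norm_num : (0 : ℝ) ≤ 1 / 2)
  refine (add_le_add t1 t2).trans (le_of_eq ?_)
  ring

end Vale.Agent.P146.H877x
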